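import Vale.Agent.P160.Half.AStmt

/-! # P160, rate 1/2: final assembly, interface statements, v2 (helper503; text: note 11281 of helper406)

`P = matZ b`, `b : Bits n`, is the principal minor `A_j` of a symmetric 0/1 matrix `A` of size `n + 1` and corank 1, `v` the primitive kernel vector
of `A`, `det A_j = c v_j²`, `e = v_j`, `v' = v` without the coordinate `j`, `x` = column `j` of `A` without the diagonal entry: `P v' = - e x`.
`n` = size of the minors in all moduli. -/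

set_option linter.unusedVariables false

namespace Vale.Agent.P160.Half.F

open Finset Matrix Vale.Agent.P160.Half Vale.Agent.P160.Half.A

/-- the least power of `p` that is at least `n^(1/2-ζ)` -/
noncomputable def qp (ζ : ℝ) (n p : ℕ) : ℕ := p ^ Nat.clog p ⌈(n : ℝ) ^ (1 / 2 - ζ)⌉₊

/-- corank modulo `p` -/
noncomputable def crk {m : ℕ} (P : Matrix (Fin m) (Fin m) ℤ) (p : ℕ) : ℕ :=
  m - (P.map (Int.cast : ℤ → ZMod p)).rank

/-- the killed event: `P` has a kernel word modulo some `q_p` with at least `n^(1-ζ)` unit coordinates and at least `z` zeros -/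
def Kill (ζ : ℝ) {n : ℕ} (P : Matrix (Fin n) (Fin n) ℤ) (z : ℕ) : Prop := z = 0 ∨
  ∃ p : ℕ, p.Prime ∧ ∃ u : Fin n → ZMod (qp ζ n p), (n : ℝ) ^ (1 - ζ) ≤ Nat.card {i // IsUnit (u i)} ∧
    P.map (Int.cast : ℤ → ZMod (qp ζ n p)) *ᵥ u = 0 ∧ z ≤ Nat.card {i // u i = 0}

/-- number of large primes (`p ≥ n^β`) with corank at least 2 -/
noncomputable def N2 (β : ℝ) {n : ℕ} (P : Matrix (Fin n) (Fin n) ℤ) : ℕ :=
  (P.det.natAbs.primeFactors.filter fun p : ℕ => (n : ℝ) ^ β ≤ p ∧ 2 ≤ crk P p).card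

/-! ## Input (M) -/

open Classical in
/-- **(M) with loss `lam`** (joint with the killed event; `z log₂ n = κ n`). `lam = 1/4`, `β = 1` follows from the killed lemma alone
(`t ≤ n / 4` by Hadamard), `lam = 1/(4 β)` likewise; `lam = 0` for one `β` close to 2 is the sharp statement. -/
def StmtM (lam β ζ : ℝ) : Prop := ∀ ε : ℝ, 0 < ε → ∃ n₀ : ℕ, ∀ n ≥ n₀, ∀ z t : ℕ, (z : ℝ) * Real.logb 2 n ≤ 4 * n →
  (((univ : Finset (Bits n)).filter fun b => (matZ b).det ≠ 0 ∧ Kill ζ (matZ b) z ∧ t ≤ N2 β (matZ b)).card : ℝ) ≤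
    (2 : ℝ) ^ (-((1 / 2 - ζ) * z * Real.logb 2 n + t * max 0 (1 - 2 * β * (z * Real.logb 2 n / n))) + (lam + ε) * n) *
      2 ^ Fintype.card (Sym2 (Fin n))

/-! ## Sparse kernel vectors of `A` -/

open Classical in
/-- **SPARSE** (helper324, `SparseAll`) -/
def SparseStmt : Prop := ∀ d ε : ℝ, 0 < d → 0 < ε → ∃ n₀ : ℕ, ∀ n ≥ n₀,
  (((univ : Finset (Bits n)).filter fun b => ∃ p : ℕ, p.Prime ∧ ∃ u : Fin n → ZMod p, u ≠ 0 ∧
    ((univ.filter fun i => u i ≠ 0).card : ℝ) ≤ (n : ℝ) ^ (1 - d) ∧ (matZ b).map (Int.cast : ℤ → ZMod p) *ᵥ u = 0).card : ℝ) ≤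
    (2 : ℝ) ^ (-((1 - ε) * n)) * 2 ^ Fintype.card (Sym2 (Fin n))

/-! ## Tame -/

open Classical in
/-- **TAME** (helper133): all but `d n` coordinates of a real kernel vector are at least `n^(-A) max |v|`. -/
def TameStmt : Prop := ∀ d e : ℝ, 0 < d → 0 < e → ∃ (A : ℝ) (n₀ : ℕ), ∀ n ≥ n₀,
  (((univ : Finset (Bits n)).filter fun b => ∃ (v : Fin n → ℝ) (i : Fin n), (∀ k, ∑ j, (if b s(k, j) then v j else 0) = 0) ∧
    d * n ≤ ((univ.filter fun j => |v j| * (n : ℝ) ^ A < |v i|).card : ℝ)).card : ℝ) ≤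
    (2 : ℝ) ^ (-((1 - e) * n)) * 2 ^ Fintype.card (Sym2 (Fin n))

/-! ## Mid primes (`MidStmt 1` is trivial: `midSet 1` is empty) -/

/-- `v` is a primitive integer kernel vector of `A` -/
def PrimKer {m : ℕ} (A : Matrix (Fin m) (Fin m) ℤ) (v : Fin m → ℤ) : Prop :=
  A *ᵥ v = 0 ∧ ∃ a : Fin m → ℤ, ∑ i, a i * v i = 1

/-- mid primes `n ≤ p < n^β` dividing `v j`, where the minor `A_j` has corank at least 2 -/
noncomputable def midSet (β : ℝ) {n : ℕ} (A : Matrix (Fin (n + 1)) (Fin (n + 1)) ℤ) (v : Fin (n + 1) → ℤ) (j : Fin (n + 1)) : Finset ℕ :=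
  (v j).natAbs.primeFactors.filter fun p : ℕ => n ≤ p ∧ (p : ℝ) < (n : ℝ) ^ β ∧ 2 ≤ crk (A.submatrix j.succAbove j.succAbove) p

open Classical in
/-- **MID** (helper184): for all but `θ n` indices `j` there are at most `δ n` mid primes. -/
def MidStmt (β : ℝ) : Prop := ∀ θ δ ε : ℝ, 0 < θ → 0 < δ → 0 < ε → ∃ n₀ : ℕ, ∀ n ≥ n₀,
  (((univ : Finset (Bits (n + 1))).filter fun b => ((matZ b).map (Int.cast : ℤ → ℚ)).rank = n ∧ ∃ v : Fin (n + 1) → ℤ, PrimKer (matZ b) v ∧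
    θ * n ≤ ((univ.filter fun j => v j ≠ 0 ∧ δ * n < ((midSet β (matZ b) v j).card : ℝ)).card : ℝ)).card : ℝ) ≤
    (2 : ℝ) ^ (-((1 - ε) * n)) * 2 ^ Fintype.card (Sym2 (Fin (n + 1)))

/-! ## Coranks modulo all primes -/

/-- coranks are at most `R √n` modulo all primes -/
def CorOK (R : ℝ) {n : ℕ} (P : Matrix (Fin n) (Fin n) ℤ) : Prop := ∀ p : ℕ, p.Prime → (crk P p : ℝ) ≤ R * Real.sqrt n

open Classical in
/-- **COR** (from `card_corank_le_exp` of `Half/Corank.lean`) -/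
def CorStmt : Prop := ∀ C : ℝ, ∃ (n₀ : ℕ) (R : ℝ), ∀ n ≥ n₀,
  (((univ : Finset (Bits n)).filter fun b => ¬ CorOK R (matZ b)).card : ℝ) ≤ (2 : ℝ) ^ (-(C * n)) * 2 ^ Fintype.card (Sym2 (Fin n))

/-! ## The count of the columns -/

/-- `x` is the column of `A` with kernel vector `(v', e)` over the minor `P`, `det P = c e²` -/
structure Col {n : ℕ} (P : Matrix (Fin n) (Fin n) ℤ) (x : Fin n → Bool) (v' : Fin n → ℤ) (e c : ℤ) : Prop where
  det : P.det = c * e ^ 2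
  ker : P *ᵥ v' = - e • fun i => if x i then 1 else 0
  iso : e ∣ ∑ i, (if x i then v' i else 0)
  prim : ∃ (a : Fin n → ℤ) (a0 : ℤ), ∑ i, a i * v' i + a0 * e = 1

/-- primes `p ≥ n` with corank at least 2 dividing `e` -/
noncomputable def bigSet {n : ℕ} (P : Matrix (Fin n) (Fin n) ℤ) (e : ℤ) : Finset ℕ :=
  e.natAbs.primeFactors.filter fun p : ℕ => n ≤ p ∧ 2 ≤ crk P p

/-- label cost of the primes `p` with `q_p ∣ e` -/
noncomputable def lcost (ζ : ℝ) (n : ℕ) (e c : ℤ) : ℝ :=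
  ∑ p ∈ e.natAbs.primeFactors.filter (fun p => ((qp ζ n p : ℕ) : ℤ) ∣ e), (c.natAbs.factorization p : ℝ) * Real.logb 2 p

open Classical in
/-- **CNT** (label count with multiplicity, 11281 (7)): the number of columns `x` with at most `T` big primes and label cost at most `w` is at most
`2^(T + w + ε n)` times the largest class. Label of `x` = subgroup generated by `x` in `Coker P`, of order `|e|`, `|coker_p| = p^(v_p(c) + 2 v_p(e))`. -/
def CntStmt (ζ : ℝ) : Prop := ∀ ε W R : ℝ, 0 < ε → 0 < W → ∃ n₀ : ℕ, ∀ n ≥ n₀,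
  ∀ (P : Matrix (Fin n) (Fin n) ℤ), P.IsSymm → P.det ≠ 0 → (P.det.natAbs : ℝ) ≤ (n : ℝ) ^ n → CorOK R P →
  ∀ (X M w : ℝ) (T : ℕ), w ≤ W * n → 1 ≤ X → (∀ L, Over P L → ((cls P L 0 X).ncard : ℝ) ≤ M) →
  (((univ : Finset (Fin n → Bool)).filter fun x => ∃ (v' : Fin n → ℤ) (e c : ℤ), Col P x v' e c ∧ (∀ i, |(v' i : ℝ)| ≤ X * |(e : ℝ)|) ∧
    (bigSet P e).card ≤ T ∧ lcost ζ n e c ≤ w).card : ℝ) ≤ M * (2 : ℝ) ^ (T + w + ε * n)

/-! ## The result of the assembly -/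

open Classical in
/-- few symmetric 0/1 matrices have corank exactly one, with loss `lam` (the same as `Shell.Cor1Lam lam`) -/
def Cor1 (lam : ℝ) : Prop := ∀ ε : ℝ, 0 < ε → ∃ n₀ : ℕ, ∀ n ≥ n₀,
  (((univ : Finset (Bits n)).filter fun b => ((matZ b).map (Int.cast : ℤ → ℚ)).rank + 1 = n).card : ℝ) ≤
    (2 : ℝ) ^ (-((1 - lam - ε) * n)) * 2 ^ Fintype.card (Sym2 (Fin n))

/-- **the assembly** (to be proved in `Fin/FMain.lean`) -/
def FinalStmt : Prop := ∀ lam β : ℝ, 0 ≤ lam → 1 ≤ β →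
  RichSmall → (∀ ζ : ℝ, 0 < ζ → ζ < 1 / 16 → StmtM lam β ζ) → SparseStmt → TameStmt → MidStmt β → CorStmt →
  (∀ ζ : ℝ, 0 < ζ → ζ < 1 / 16 → CntStmt ζ) → Cor1 lam

end Vale.Agent.P160.Half.F
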