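import Vale.Agent.P160.Half.Fin.CntNum276

/-! # P160 half: the counting core of `CntStmt` (helper276)

The vectors `x` have an order `e x` and `D0 = c x * e x ^ 2`.  Profile of `x`: the orders at the noncyclic
primes `p < n` and at the primes `p ≥ n` dividing both `e x` and `c x`. -/

namespace Vale.Agent.P160.Half.F.Cnt276

open Finset

set_option linter.unusedVariables false

/-- the special primes of `x` -/
def Sof (n : ℕ) (PP : Finset ℕ) (e c : ℕ) : Finset ℕ := PP.filter fun p => p < n ∨ (p ∣ e ∧ p ∣ c)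

theorem lab_prod_le {ζ R w : ℝ} {n : ℕ} (hζ : 0 < ζ) (hζ' : ζ < 1 / 16) (hn : 16 ≤ n)
    {e c D0 : ℕ} {PP : Finset ℕ} {crk : ℕ → ℕ} {lab : ℕ → ℕ → ℝ}
    (hD : D0 ≠ 0) (hPP : ∀ p ∈ PP, p.Prime ∧ p ∣ D0) (hcrk : ∀ p ∈ PP, (crk p : ℝ) ≤ R * Real.sqrt n)
    (hDe : D0 = c * e ^ 2)
    (hw : ∑ p ∈ e.primeFactors.filter (fun p => p ^ Nat.clog p ⌈(n : ℝ) ^ (1 / 2 - ζ)⌉₊ ∣ e),
      (c.factorization p : ℝ) * Real.logb 2 p ≤ w)
    (h0 : ∀ p ∈ PP, ∀ a, 0 ≤ lab p a) (h1 : ∀ p ∈ PP, ∀ a, lab p a ≤ (p : ℝ) ^ (a * crk p))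
    (h2 : ∀ p ∈ PP, ∀ a, 2 * a ≤ D0.factorization p →
      lab p a ≤ 4 * (a + 1) * (p : ℝ) ^ (D0.factorization p - 2 * a)) :
    ∏ p ∈ Sof n PP e c, lab p (e.factorization p) ≤
      (∏ p ∈ Sof n PP e c, (4 * ((D0.factorization p : ℝ) + 1))) * ((2 : ℝ) ^ w *
        (2 : ℝ) ^ (Real.logb 2 n * (max R 0 * Real.sqrt n) * (n : ℝ) ^ (1 / 2 - ζ))) := by
  classical
  set Q := ⌈(n : ℝ) ^ (1 / 2 - ζ)⌉₊ with hQ
  set S := Sof n PP e c with hS
  set y := (n : ℝ) ^ (1 / 2 - ζ) with hy
  have hn1 : (1 : ℝ) ≤ n := by exact_mod_cast (by omega : 1 ≤ n)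
  have hy0 : 0 ≤ y := by positivity
  have hc0 : c ≠ 0 := by rintro rfl; simp at hDe; exact hD hDe
  have he0 : e ≠ 0 := by rintro rfl; simp at hDe; exact hD hDe
  have hL : 0 ≤ Real.logb 2 n := Real.logb_nonneg (by norm_num) hn1
  set A := Real.logb 2 n * (max R 0 * Real.sqrt n) with hA
  have hA0 : 0 ≤ A := by
    have : 0 ≤ max R 0 := le_max_right _ _
    positivity
  have hSPP : S ⊆ PP := filter_subset _ _
  have hv : ∀ p, D0.factorization p = c.factorization p + 2 * e.factorization p := by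
    intro p
    rw [hDe, Nat.factorization_mul hc0 (pow_ne_zero 2 he0), Nat.factorization_pow]
    simp
  -- local bound
  have hloc : ∀ p ∈ S, lab p (e.factorization p) ≤ (4 * ((D0.factorization p : ℝ) + 1)) *
      ((if p ^ Nat.clog p Q ∣ e ∧ p ∣ e then (p : ℝ) ^ c.factorization p else 1) *
        (if p ∣ e ∧ ¬ p ^ Nat.clog p Q ∣ e then (2 : ℝ) ^ A else 1)) := by
    intro p hp
    have hpP := hSPP hp
    have hpp := (hPP p hpP).1
    have hp1 : (1 : ℝ) ≤ p := by exact_mod_cast hpp.one_lt.le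
    have h4 : (1 : ℝ) ≤ 4 * ((D0.factorization p : ℝ) + 1) := by
      have : (0 : ℝ) ≤ D0.factorization p := by positivity
      linarith
    by_cases hpe : p ∣ e
    · by_cases hq : p ^ Nat.clog p Q ∣ e
      · rw [if_pos ⟨hq, hpe⟩, if_neg (fun h => h.2 hq), mul_one]
        have h5 := h2 p hpP (e.factorization p) (by rw [hv p]; omega)
        have h6 : D0.factorization p - 2 * e.factorization p = c.factorization p := by
          rw [hv p]; omega
        rw [h6] at h5
        refine h5.trans (mul_le_mul_of_nonneg_right ?_ (by positivity))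
        have h7 : (e.factorization p : ℝ) ≤ D0.factorization p := by
          exact_mod_cast (by rw [hv p]; omega : e.factorization p ≤ D0.factorization p)
        linarith
      · rw [if_neg (fun h => hq h.1), if_pos ⟨hpe, hq⟩, one_mul]
        have h5 := h1 p hpP (e.factorization p)
        have h6 : ¬ p ^ Nat.clog p Q ∣ p ^ e.factorization p := fun h =>
          hq (h.trans (Nat.ordProj_dvd e p))
        have h7 : p ^ e.factorization p < Q := pow_lt_of_not_dvd hpp h6
        have h8 : ((p : ℝ) ^ e.factorization p) ≤ n := by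
          have h9 : ((p ^ e.factorization p : ℕ) : ℝ) < y := Nat.lt_ceil.mp h7
          push_cast at h9
          have h10 : y ≤ n := by
            calc y ≤ (n : ℝ) ^ (1 : ℝ) := Real.rpow_le_rpow_of_exponent_le hn1 (by linarith)
              _ = n := Real.rpow_one _
          linarith
        have h9 : (p : ℝ) ^ (e.factorization p * crk p) ≤ (2 : ℝ) ^ A := by
          rw [pow_mul]
          calc ((p : ℝ) ^ e.factorization p) ^ crk p ≤ (n : ℝ) ^ crk p :=
                pow_le_pow_left₀ (by positivity) h8 _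
            _ = (n : ℝ) ^ ((crk p : ℕ) : ℝ) := (Real.rpow_natCast _ _).symm
            _ ≤ (n : ℝ) ^ (max R 0 * Real.sqrt n) := by
                apply Real.rpow_le_rpow_of_exponent_le hn1
                refine (hcrk p hpP).trans ?_
                exact mul_le_mul_of_nonneg_right (le_max_left _ _) (Real.sqrt_nonneg _)
            _ = (2 : ℝ) ^ A := by
                rw [hA, Real.rpow_mul (by norm_num : (0 : ℝ) ≤ 2) (Real.logb 2 n),
                  Real.rpow_logb (by norm_num) (by norm_num) (by linarith)]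
        calc lab p (e.factorization p) ≤ (2 : ℝ) ^ A := h5.trans h9
          _ = 1 * (2 : ℝ) ^ A := (one_mul _).symm
          _ ≤ _ := mul_le_mul_of_nonneg_right h4 (by positivity)
    · rw [if_neg (fun h => hpe h.2), if_neg (fun h => hpe h.1), mul_one, mul_one]
      have h5 := h1 p hpP (e.factorization p)
      rw [Nat.factorization_eq_zero_of_not_dvd hpe, zero_mul, pow_zero] at h5
      rw [Nat.factorization_eq_zero_of_not_dvd hpe]
      linarith
  refine (prod_le_prod (fun p hp => h0 p (hSPP hp) _) hloc).trans ?_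
  rw [prod_mul_distrib]
  refine mul_le_mul_of_nonneg_left ?_ (prod_nonneg fun p _ => by positivity)
  rw [prod_mul_distrib]
  refine mul_le_mul ?_ ?_ (prod_nonneg fun p _ => by split_ifs <;> positivity) (by positivity)
  · -- the cost
    rw [← prod_filter]
    set S' := e.primeFactors.filter (fun p => p ^ Nat.clog p Q ∣ e) with hS'
    have hsub : (S.filter fun p => p ^ Nat.clog p Q ∣ e ∧ p ∣ e) ⊆ S' := by
      intro p hp
      obtain ⟨a, b, b'⟩ := mem_filter.mp hp
      exact mem_filter.mpr ⟨Nat.mem_primeFactors.mpr ⟨(hPP p (hSPP a)).1, b', he0⟩, b⟩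
    have hprS : ∀ p ∈ S', p.Prime := fun p hp => Nat.prime_of_mem_primeFactors (mem_filter.mp hp).1
    have h5 : (∏ p ∈ S.filter (fun p => p ^ Nat.clog p Q ∣ e ∧ p ∣ e), p ^ c.factorization p : ℕ) ≤
        ∏ p ∈ S', p ^ c.factorization p :=
      Nat.le_of_dvd (prod_pos fun p hp => pow_pos (hprS p hp).pos _)
        (prod_dvd_prod_of_subset _ _ _ hsub)
    have h6 : (∏ p ∈ S.filter (fun p => p ^ Nat.clog p Q ∣ e ∧ p ∣ e), (p : ℝ) ^ c.factorization p) ≤
        ∏ p ∈ S', (p : ℝ) ^ c.factorization p := by exact_mod_cast h5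
    refine h6.trans ?_
    calc ∏ p ∈ S', (p : ℝ) ^ c.factorization p
        = ∏ p ∈ S', (2 : ℝ) ^ ((c.factorization p : ℝ) * Real.logb 2 p) := by
          refine prod_congr rfl fun p hp => ?_
          have hp0 : (0 : ℝ) < p := by exact_mod_cast (hprS p hp).pos
          rw [mul_comm, Real.rpow_mul (by norm_num), Real.rpow_logb (by norm_num) (by norm_num) hp0,
            Real.rpow_natCast]
      _ = (2 : ℝ) ^ (∑ p ∈ S', (c.factorization p : ℝ) * Real.logb 2 p) :=
          (Real.rpow_sum_of_pos (by norm_num) _ _).symm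
      _ ≤ (2 : ℝ) ^ w := Real.rpow_le_rpow_of_exponent_le (by norm_num) hw
  · -- small orders
    rw [← prod_filter, prod_const, ← Real.rpow_natCast, ← Real.rpow_mul (by norm_num)]
    apply Real.rpow_le_rpow_of_exponent_le (by norm_num)
    refine mul_le_mul_of_nonneg_left ?_ hA0
    have hsub : (S.filter fun p => p ∣ e ∧ ¬ p ^ Nat.clog p Q ∣ e) ⊆ Finset.Ico 1 Q := by
      intro p hp
      obtain ⟨a, b, b'⟩ := mem_filter.mp hp
      have hpp := (hPP p (hSPP a)).1
      have h6 : ¬ p ^ Nat.clog p Q ∣ p ^ e.factorization p := fun h =>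
          b' (h.trans (Nat.ordProj_dvd e p))
      have h7 : p ^ e.factorization p < Q := pow_lt_of_not_dvd hpp h6
      have h8 : 1 ≤ e.factorization p := (hpp.dvd_iff_one_le_factorization he0).mp b
      have h9 : p ≤ p ^ e.factorization p := by
        calc p = p ^ 1 := (pow_one p).symm
          _ ≤ _ := Nat.pow_le_pow_right hpp.pos h8
      exact mem_Ico.mpr ⟨hpp.pos, by omega⟩
    have h5 := card_le_card hsub
    rw [Nat.card_Ico] at h5
    have h6 : (Q : ℝ) < y + 1 := Nat.ceil_lt_add_one hy0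
    have h7 : 1 ≤ Q := Nat.one_le_ceil_iff.mpr (by positivity)
    have h8 : (((S.filter fun p => p ∣ e ∧ ¬ p ^ Nat.clog p Q ∣ e).card : ℕ) : ℝ) ≤ (Q : ℝ) - 1 := by
      have : ((Q - 1 : ℕ) : ℝ) = (Q : ℝ) - 1 := by push_cast [h7]; ring
      rw [← this]
      exact_mod_cast h5
    linarith

/-- the local weight of a profile -/
noncomputable def gg (n : ℕ) (lam : ℝ) (D0 p : ℕ) : ℝ :=
  (if n ≤ p then lam else 1) * (4 * ((D0.factorization p : ℝ) + 1))

theorem named_le {ζ W w : ℝ} {n : ℕ} (hζ : 0 < ζ) (hζ' : ζ < 1 / 16) (hn : 16 ≤ n)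
    {e c D0 : ℕ} {PP : Finset ℕ} (hD : D0 ≠ 0) (hPP : ∀ p ∈ PP, p.Prime ∧ p ∣ D0)
    (hDe : D0 = c * e ^ 2) (hwW : w ≤ W * n)
    (hw : ∑ p ∈ e.primeFactors.filter (fun p => p ^ Nat.clog p ⌈(n : ℝ) ^ (1 / 2 - ζ)⌉₊ ∣ e),
      (c.factorization p : ℝ) * Real.logb 2 p ≤ w) :
    (((Sof n PP e c).filter fun p => n ≤ p).card : ℝ) ≤ W * n / Real.logb 2 n := by
  classical
  set Q := ⌈(n : ℝ) ^ (1 / 2 - ζ)⌉₊ with hQ
  have hn1 : (1 : ℝ) < n := by exact_mod_cast (by omega : 1 < n)
  have hc0 : c ≠ 0 := by rintro rfl; simp at hDe; exact hD hDe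
  have he0 : e ≠ 0 := by rintro rfl; simp at hDe; exact hD hDe
  have hL : 0 < Real.logb 2 n := Real.logb_pos (by norm_num) hn1
  have hQn : Q ≤ n := by
    rw [hQ]
    apply Nat.ceil_le.mpr
    calc (n : ℝ) ^ (1 / 2 - ζ) ≤ (n : ℝ) ^ (1 : ℝ) :=
          Real.rpow_le_rpow_of_exponent_le hn1.le (by linarith)
      _ = n := Real.rpow_one _
  rw [le_div_iff₀ hL]
  refine le_trans ?_ (hw.trans hwW)
  rw [← nsmul_eq_mul, ← sum_const]
  have hsub : ((Sof n PP e c).filter fun p => n ≤ p) ⊆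
      e.primeFactors.filter (fun p => p ^ Nat.clog p Q ∣ e) := by
    intro p hp
    obtain ⟨a, b⟩ := mem_filter.mp hp
    obtain ⟨a1, a2⟩ := mem_filter.mp a
    have hpp := (hPP p a1).1
    rcases a2 with h | h
    · omega
    · exact mem_filter.mpr ⟨Nat.mem_primeFactors.mpr ⟨hpp, h.1, he0⟩,
        (clog_dvd hpp (hQn.trans b)).trans h.1⟩
  refine le_trans (sum_le_sum (g := fun p : ℕ => (c.factorization p : ℝ) * Real.logb 2 p) ?_)
    (sum_le_sum_of_subset_of_nonneg hsub ?_)
  · intro p hp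
    obtain ⟨a, b⟩ := mem_filter.mp hp
    obtain ⟨a1, a2⟩ := mem_filter.mp a
    have hpp := (hPP p a1).1
    have h : p ∣ e ∧ p ∣ c := by
      rcases a2 with h | h
      · omega
      · exact h
    have h1 : 1 ≤ c.factorization p := (hpp.dvd_iff_one_le_factorization hc0).mp h.2
    have h2 : (1 : ℝ) ≤ c.factorization p := by exact_mod_cast h1
    have h3 : Real.logb 2 n ≤ Real.logb 2 p := by
      apply Real.logb_le_logb_of_le (by norm_num) (by linarith)
      exact_mod_cast b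
    nlinarith
  · intro p hp _
    have hpp := Nat.prime_of_mem_primeFactors (mem_filter.mp hp).1
    have : 0 ≤ Real.logb 2 (p : ℝ) := Real.logb_nonneg (by norm_num) (by exact_mod_cast hpp.one_lt.le)
    positivity

theorem theta_le {n : ℕ} {lam k : ℝ} (hl : 0 < lam) (hl1 : lam ≤ 1) (D0 : ℕ) (S : Finset ℕ)
    (hk : ((S.filter fun p => n ≤ p).card : ℝ) ≤ k) :
    ∏ p ∈ S, (4 * ((D0.factorization p : ℝ) + 1)) ≤ lam ^ (-k) * ∏ p ∈ S, gg n lam D0 p := by
  classical
  have e1 : ∏ p ∈ S, gg n lam D0 p = (∏ p ∈ S, (if n ≤ p then lam else 1)) *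
      ∏ p ∈ S, (4 * ((D0.factorization p : ℝ) + 1)) := by
    unfold gg
    exact prod_mul_distrib
  rw [e1, ← mul_assoc]
  have h1 : ∏ p ∈ S, (if n ≤ p then lam else 1) = lam ^ (S.filter fun p => n ≤ p).card := by
    rw [← prod_filter, prod_const]
  rw [h1]
  have h2 : 1 ≤ lam ^ (-k) * lam ^ (S.filter fun p => n ≤ p).card := by
    rw [← Real.rpow_natCast, ← Real.rpow_add hl]
    apply Real.one_le_rpow_of_pos_of_le_one_of_nonpos hl hl1
    linarith
  calc ∏ p ∈ S, (4 * ((D0.factorization p : ℝ) + 1))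
      = 1 * ∏ p ∈ S, (4 * ((D0.factorization p : ℝ) + 1)) := (one_mul _).symm
    _ ≤ _ := mul_le_mul_of_nonneg_right h2 (prod_nonneg fun p _ => by positivity)

theorem gg_nonneg {n : ℕ} {lam : ℝ} (hl : 0 < lam) (D0 p : ℕ) : 0 ≤ gg n lam D0 p := by
  unfold gg
  split_ifs <;> positivity

/-- sum of the weights over the profiles -/
theorem prof_sum_le {δ lam : ℝ} {n : ℕ} (hδ : 0 < δ) (hl : 0 < lam)
    (hl2 : lam ≤ (δ * Real.log 2) ^ 2 / 32) (hn : 16 ≤ n) {D0 : ℕ} {PP : Finset ℕ} (hD : D0 ≠ 0)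
    (hDn : (D0 : ℝ) ≤ (n : ℝ) ^ n) (hPP : ∀ p ∈ PP, p.Prime ∧ p ∣ D0)
    (hsm : ∀ S : Finset ℕ, (∀ p ∈ S, p.Prime ∧ p ≤ 1 * n) →
      ∏ p ∈ S, (((3 : ℕ) : ℝ) * (D0.factorization p + 1)) ^ 2 ≤ (2 : ℝ) ^ (δ * n)) :
    ∏ p ∈ PP, (1 + ((D0.factorization p : ℝ) + 1) * gg n lam D0 p) ≤
      (2 : ℝ) ^ (δ * n) * (2 : ℝ) ^ (δ * n) := by
  classical
  rw [← prod_filter_mul_prod_filter_not PP (fun p => p < n)]
  refine mul_le_mul ?_ ?_ (prod_nonneg fun p _ => ?_) (by positivity)
  · refine le_trans (prod_le_prod (fun p _ => ?_) ?_) (hsm (PP.filter fun p => p < n) ?_)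
    · have := gg_nonneg (n := n) hl D0 p
      positivity
    · intro p hp
      have h1 : ¬ n ≤ p := by have := (mem_filter.mp hp).2; omega
      unfold gg
      rw [if_neg h1]
      push_cast
      have : (0 : ℝ) ≤ D0.factorization p := by positivity
      nlinarith
    · intro p hp
      obtain ⟨a, b⟩ := mem_filter.mp hp
      exact ⟨(hPP p a).1, by omega⟩
  · have hn1 : (1 : ℝ) < n := by exact_mod_cast (by omega : 1 < n)
    have hL : 0 < Real.logb 2 n := Real.logb_pos (by norm_num) hn1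
    calc ∏ p ∈ PP.filter (fun p => ¬ p < n), (1 + ((D0.factorization p : ℝ) + 1) * gg n lam D0 p)
        ≤ ∏ p ∈ PP.filter (fun p => ¬ p < n), (2 : ℝ) ^ (δ * D0.factorization p) := by
          refine prod_le_prod (fun p _ => ?_) ?_
          · have := gg_nonneg (n := n) hl D0 p
            positivity
          · intro p hp
            obtain ⟨a, b⟩ := mem_filter.mp hp
            have h1 : n ≤ p := not_lt.mp b
            have h2 : 1 ≤ D0.factorization p := ((hPP p a).1.dvd_iff_one_le_factorization hD).mp (hPP p a).2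
            have h3 : (1 : ℝ) ≤ D0.factorization p := by exact_mod_cast h2
            refine le_trans ?_ (lam_ineq hδ h3)
            unfold gg
            rw [if_pos h1]
            have h4 : lam * (4 * ((D0.factorization p : ℝ) + 1) ^ 2) ≤
                (δ * Real.log 2) ^ 2 / 32 * (4 * ((D0.factorization p : ℝ) + 1) ^ 2) :=
              mul_le_mul_of_nonneg_right hl2 (by positivity)
            nlinarith
      _ = (2 : ℝ) ^ (∑ p ∈ PP.filter (fun p => ¬ p < n), δ * (D0.factorization p : ℝ)) :=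
          (Real.rpow_sum_of_pos (by norm_num) _ _).symm
      _ ≤ (2 : ℝ) ^ (δ * n) := by
          apply Real.rpow_le_rpow_of_exponent_le (by norm_num)
          rw [← mul_sum]
          apply mul_le_mul_of_nonneg_left _ hδ.le
          have h5 := sum_fact_le hD (PP.filter fun p => ¬ p < n) (fun p hp =>
            (hPP p (mem_filter.mp hp).1).1)
          have h6 : Real.logb 2 D0 ≤ n * Real.logb 2 n := by
            rw [← Real.logb_pow]
            apply Real.logb_le_logb_of_le (by norm_num) _ hDn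
            exact_mod_cast Nat.pos_of_ne_zero hD
          have h7 : (∑ p ∈ PP.filter (fun p => ¬ p < n), (D0.factorization p : ℝ)) * Real.logb 2 n ≤
              ∑ p ∈ PP.filter (fun p => ¬ p < n), (D0.factorization p : ℝ) * Real.logb 2 p := by
            rw [sum_mul]
            refine sum_le_sum fun p hp => ?_
            obtain ⟨a, b⟩ := mem_filter.mp hp
            apply mul_le_mul_of_nonneg_left _ (by positivity)
            apply Real.logb_le_logb_of_le (by norm_num) (by linarith)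
            exact_mod_cast not_lt.mp b
          have h8 : (∑ p ∈ PP.filter (fun p => ¬ p < n), (D0.factorization p : ℝ)) * Real.logb 2 n ≤
              n * Real.logb 2 n := h7.trans (h5.trans h6)
          exact le_of_mul_le_mul_right h8 hL
  · have := gg_nonneg (n := n) hl D0 p
    positivity

theorem cnt_abs (ζ ε W R : ℝ) (hζ : 0 < ζ) (hζ' : ζ < 1 / 16) (hε : 0 < ε) (hW : 0 < W) :
    ∃ n₀ : ℕ, ∀ n ≥ n₀, ∀ (X : Type) (C : Finset X) (e c : X → ℕ) (D0 : ℕ) (PP : Finset ℕ) (crk : ℕ → ℕ)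
      (lab : ℕ → ℕ → ℝ) (M w : ℝ) (T : ℕ), D0 ≠ 0 → (D0 : ℝ) ≤ (n : ℝ) ^ n →
      (∀ p ∈ PP, p.Prime ∧ p ∣ D0) → (∀ p ∈ PP, (crk p : ℝ) ≤ R * Real.sqrt n) → w ≤ W * n → 0 ≤ M →
      (∀ x ∈ C, D0 = c x * e x ^ 2) →
      (∀ x ∈ C, ((e x).primeFactors.filter fun p => n ≤ p ∧ p ∈ PP).card ≤ T) →
      (∀ x ∈ C, ∑ p ∈ (e x).primeFactors.filter (fun p => p ^ Nat.clog p ⌈(n : ℝ) ^ (1 / 2 - ζ)⌉₊ ∣ e x),
        ((c x).factorization p : ℝ) * Real.logb 2 p ≤ w) →
      (∀ p ∈ PP, ∀ a, 0 ≤ lab p a) → (∀ p ∈ PP, ∀ a, lab p a ≤ (p : ℝ) ^ (a * crk p)) →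
      (∀ p ∈ PP, ∀ a, 2 * a ≤ D0.factorization p →
        lab p a ≤ 4 * (a + 1) * (p : ℝ) ^ (D0.factorization p - 2 * a)) →
      (∀ (S : Finset ℕ) (a : ℕ → ℕ) (C' : Finset X), S ⊆ PP → C' ⊆ C →
        (∀ x ∈ C', ∀ p ∈ S, (e x).factorization p = a p) →
        (∀ x ∈ C', ∀ p ∈ PP, p ∉ S → p ∣ e x → p ≠ 2 ∧ ¬ p ∣ c x) →
        (∀ x ∈ C', ((e x).primeFactors.filter fun p => p ∈ PP ∧ p ∉ S).card ≤ T) →
        (C'.card : ℝ) ≤ 2 ^ T * (∏ p ∈ S, lab p (a p)) * M) →
      (C.card : ℝ) ≤ M * (2 : ℝ) ^ (T + w + ε * n) := by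
  classical
  have hl2 : 0 < Real.log 2 := Real.log_pos (by norm_num)
  obtain ⟨δ, hδ⟩ : ∃ δ, δ = ε / 8 := ⟨_, rfl⟩
  have hδ0 : 0 < δ := by rw [hδ]; positivity
  obtain ⟨lam, hlam⟩ : ∃ lam, lam = min ((δ * Real.log 2) ^ 2 / 32) 1 := ⟨_, rfl⟩
  have hlam0 : 0 < lam := by rw [hlam]; exact lt_min (by positivity) one_pos
  have hlam1 : lam ≤ 1 := by rw [hlam]; exact min_le_right _ _
  have hlam2 : lam ≤ (δ * Real.log 2) ^ 2 / 32 := by rw [hlam]; exact min_le_left _ _
  obtain ⟨R', hR'⟩ : ∃ R', R' = max R 0 := ⟨_, rfl⟩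
  have hR0 : 0 ≤ R' := by rw [hR']; exact le_max_right _ _
  obtain ⟨n₁, h₁⟩ := SmallP.small_labels_fact δ 1 hδ0 zero_le_one 3 2 1 (by norm_num)
  obtain ⟨n₂, h₂⟩ := evn ζ (δ / (R' + 1)) (W * Real.logb 2 lam⁻¹ / δ) hζ (by positivity)
  refine ⟨max n₁ n₂, fun n hn X C e c D0 PP crk lab M w T hD hDn hPP hcrk hwW hM hDe hT hw h0 h1 h2
    hvec => ?_⟩
  obtain ⟨hlog, hlog2, hn16⟩ := h₂ n (le_trans (le_max_right _ _) hn)
  have hsm := fun S hS => h₁ n (le_trans (le_max_left _ _) hn) S D0 hS hD (by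
    rw [one_mul, Real.rpow_natCast]; exact hDn)
  have hn1 : (1 : ℝ) < n := by exact_mod_cast (by omega : 1 < n)
  have hL : 0 < Real.logb 2 n := Real.logb_pos (by norm_num) hn1
  obtain ⟨U, hU⟩ : ∃ U, U = (2 : ℝ) ^ (Real.logb 2 n * (max R 0 * Real.sqrt n) * (n : ℝ) ^ (1 / 2 - ζ)) :=
    ⟨_, rfl⟩
  obtain ⟨k, hk⟩ : ∃ k, k = W * n / Real.logb 2 n := ⟨_, rfl⟩
  have hU0 : 0 < U := by rw [hU]; positivity
  have hU1 : U ≤ (2 : ℝ) ^ (δ * n) := by
    rw [hU, ← hR']
    apply Real.rpow_le_rpow_of_exponent_le (by norm_num)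
    have e1 : Real.sqrt n * (n : ℝ) ^ (1 / 2 - ζ) = (n : ℝ) ^ (1 - ζ) := by
      rw [Real.sqrt_eq_rpow, ← Real.rpow_add (by linarith)]
      congr 1; ring
    have e2 : (n : ℝ) ^ ζ * (n : ℝ) ^ (1 - ζ) = n := by
      rw [← Real.rpow_add (by linarith)]
      rw [show ζ + (1 - ζ) = 1 by ring, Real.rpow_one]
    calc Real.logb 2 n * (R' * Real.sqrt n) * (n : ℝ) ^ (1 / 2 - ζ)
        = Real.logb 2 n * (R' * (n : ℝ) ^ (1 - ζ)) := by rw [← e1]; ring
      _ ≤ (δ / (R' + 1) * (n : ℝ) ^ ζ) * (R' * (n : ℝ) ^ (1 - ζ)) :=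
          mul_le_mul_of_nonneg_right hlog (by positivity)
      _ = δ / (R' + 1) * R' * ((n : ℝ) ^ ζ * (n : ℝ) ^ (1 - ζ)) := by ring
      _ = δ * (R' / (R' + 1)) * n := by rw [e2]; ring
      _ ≤ δ * 1 * n := by
          apply mul_le_mul_of_nonneg_right _ (by linarith)
          apply mul_le_mul_of_nonneg_left _ hδ0.le
          rw [div_le_one (by linarith)]
          linarith
      _ = δ * n := by ring
  have hΛ1 : lam ^ (-k) ≤ (2 : ℝ) ^ (δ * n) := by
    have e1 : lam ^ (-k) = (2 : ℝ) ^ (Real.logb 2 lam⁻¹ * k) := by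
      rw [Real.rpow_mul (by norm_num), Real.rpow_logb (by norm_num) (by norm_num) (by positivity),
        Real.inv_rpow hlam0.le, Real.rpow_neg hlam0.le]
    rw [e1]
    apply Real.rpow_le_rpow_of_exponent_le (by norm_num)
    rw [hk]
    rw [div_le_iff₀ hδ0] at hlog2
    have e2 : Real.logb 2 lam⁻¹ * (W * n / Real.logb 2 n) = (W * Real.logb 2 lam⁻¹) * n / Real.logb 2 n := by
      ring
    rw [e2, div_le_iff₀ hL]
    nlinarith
  have hΛ0 : 0 < lam ^ (-k) := Real.rpow_pos_of_pos hlam0 _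
  -- profiles
  let prof : X → ({p // p ∈ PP} → Option ℕ) := fun x p =>
    if p.1 ∈ Sof n PP (e x) (c x) then some ((e x).factorization p.1) else none
  let t : {p // p ∈ PP} → Finset (Option ℕ) := fun p =>
    insert none ((range (D0.factorization p.1 + 1)).image some)
  let GG : {p // p ∈ PP} → Option ℕ → ℝ := fun p o => if o = none then 1 else gg n lam D0 p.1
  have hGG : ∀ i o, 0 ≤ GG i o := by
    intro i o
    simp only [GG]
    split_ifs
    · norm_num
    · exact gg_nonneg hlam0 _ _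
  have hfib : ∀ π ∈ Fintype.piFinset t, ((C.filter fun x => prof x = π).card : ℝ) ≤
      (2 ^ T * M * ((2 : ℝ) ^ w * U * lam ^ (-k))) * ∏ i, GG i (π i) := by
    intro π _
    rcases (C.filter fun x => prof x = π).eq_empty_or_nonempty with h | ⟨x₀, hx₀⟩
    · rw [h, card_empty, Nat.cast_zero]
      have := prod_nonneg fun i (_ : i ∈ (univ : Finset {p // p ∈ PP})) => hGG i (π i)
      positivity
    · obtain ⟨hx₀C, hx₀π⟩ := mem_filter.mp hx₀
      set S := Sof n PP (e x₀) (c x₀) with hS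
      have hsame : ∀ x ∈ C.filter (fun x => prof x = π), ∀ p ∈ PP,
          (p ∈ Sof n PP (e x) (c x) ↔ p ∈ S) ∧
          (p ∈ S → (e x).factorization p = (e x₀).factorization p) := by
        intro x hx p hp
        have h3 : prof x = prof x₀ := (mem_filter.mp hx).2.trans hx₀π.symm
        have h4 := congrFun h3 ⟨p, hp⟩
        simp only [prof] at h4
        by_cases ha : p ∈ Sof n PP (e x) (c x)
        · by_cases hb : p ∈ Sof n PP (e x₀) (c x₀)
          · rw [if_pos ha, if_pos hb] at h4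
            exact ⟨⟨fun _ => hb, fun _ => ha⟩, fun _ => Option.some.inj h4⟩
          · rw [if_pos ha, if_neg hb] at h4
            exact absurd h4 (by simp)
        · by_cases hb : p ∈ Sof n PP (e x₀) (c x₀)
          · rw [if_neg ha, if_pos hb] at h4
            exact absurd h4 (by simp)
          · exact ⟨⟨fun h => absurd h ha, fun h => absurd h hb⟩, fun h => absurd h hb⟩
      have hcount := hvec S (fun p => (e x₀).factorization p) (C.filter fun x => prof x = π)
        (filter_subset _ _) (filter_subset _ _)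
        (fun x hx p hp => (hsame x hx p ((filter_subset _ _) hp)).2 hp)
        (by
          intro x hx p hp hpS hpe
          have h3 : p ∉ Sof n PP (e x) (c x) := fun h => hpS ((hsame x hx p hp).1.mp h)
          have h4 : ¬ (p < n ∨ (p ∣ e x ∧ p ∣ c x)) := fun h => h3 (mem_filter.mpr ⟨hp, h⟩)
          push Not at h4
          exact ⟨by omega, h4.2 hpe⟩)
        (by
          intro x hx
          refine le_trans (card_le_card ?_) (hT x (mem_filter.mp hx).1)
          intro p hp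
          obtain ⟨a, b, b'⟩ := mem_filter.mp hp
          have h3 : p ∉ Sof n PP (e x) (c x) := fun h => b' ((hsame x hx p b).1.mp h)
          have h4 : ¬ (p < n ∨ (p ∣ e x ∧ p ∣ c x)) := fun h => h3 (mem_filter.mpr ⟨b, h⟩)
          push Not at h4
          exact mem_filter.mpr ⟨a, h4.1, b⟩)
      have hlab := lab_prod_le hζ hζ' hn16 hD hPP hcrk (hDe x₀ hx₀C) (hw x₀ hx₀C) h0 h1 h2
      have hth := theta_le (n := n) (k := k) hlam0 hlam1 D0 S (by
        rw [hk]; exact named_le hζ hζ' hn16 hD hPP (hDe x₀ hx₀C) hwW (hw x₀ hx₀C))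
      have hGprod : ∏ i, GG i (π i) = ∏ p ∈ S, gg n lam D0 p := by
        rw [← hx₀π]
        have e1 : ∀ i : {p // p ∈ PP}, GG i (prof x₀ i) = if i.1 ∈ S then gg n lam D0 i.1 else 1 := by
          intro i
          simp only [GG, prof]
          by_cases hi : i.1 ∈ Sof n PP (e x₀) (c x₀)
          · rw [if_pos hi, if_neg (by simp), if_pos hi]
          · rw [if_neg hi, if_pos rfl, if_neg hi]
        rw [prod_congr rfl fun i _ => e1 i]
        rw [prod_coe_sort PP (fun p => if p ∈ S then gg n lam D0 p else 1), ← prod_filter]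
        congr 1
        ext p
        rw [mem_filter]
        exact ⟨fun h => h.2, fun h => ⟨(filter_subset _ _) h, h⟩⟩
      rw [hGprod]
      rw [← hU] at hlab
      calc ((C.filter fun x => prof x = π).card : ℝ)
          ≤ 2 ^ T * (∏ p ∈ S, lab p ((e x₀).factorization p)) * M := hcount
        _ ≤ 2 ^ T * ((∏ p ∈ S, (4 * ((D0.factorization p : ℝ) + 1))) * ((2 : ℝ) ^ w * U)) * M := by
            apply mul_le_mul_of_nonneg_right _ hM
            exact mul_le_mul_of_nonneg_left hlab (by positivity)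
        _ ≤ 2 ^ T * ((lam ^ (-k) * ∏ p ∈ S, gg n lam D0 p) * ((2 : ℝ) ^ w * U)) * M := by
            apply mul_le_mul_of_nonneg_right _ hM
            apply mul_le_mul_of_nonneg_left _ (by positivity)
            exact mul_le_mul_of_nonneg_right hth (by positivity)
        _ = _ := by ring
  have hmem : ∀ x ∈ C, prof x ∈ Fintype.piFinset t := by
    intro x hx
    rw [Fintype.mem_piFinset]
    intro p
    simp only [prof, t]
    split_ifs with hp
    · apply mem_insert_of_mem
      apply mem_image_of_mem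
      rw [mem_range]
      have hc0 : c x ≠ 0 := by intro h; have := hDe x hx; rw [h, zero_mul] at this; exact hD this
      have he0 : e x ≠ 0 := by intro h; have := hDe x hx; rw [h] at this; simp at this; exact hD this
      have : D0.factorization p.1 = (c x).factorization p.1 + 2 * (e x).factorization p.1 := by
        rw [hDe x hx, Nat.factorization_mul hc0 (pow_ne_zero 2 he0), Nat.factorization_pow]
        simp
      omega
    · exact mem_insert_self _ _
  have hcardC : (C.card : ℝ) = ∑ π ∈ Fintype.piFinset t, ((C.filter fun x => prof x = π).card : ℝ) := by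
    rw [card_eq_sum_card_fiberwise hmem]
    push_cast
    rfl
  have hsumG : ∑ π ∈ Fintype.piFinset t, ∏ i, GG i (π i) =
      ∏ p ∈ PP, (1 + ((D0.factorization p : ℝ) + 1) * gg n lam D0 p) := by
    rw [← prod_univ_sum]
    rw [← prod_coe_sort PP (fun p => 1 + ((D0.factorization p : ℝ) + 1) * gg n lam D0 p)]
    refine prod_congr rfl fun i _ => ?_
    simp only [t, GG]
    rw [sum_insert (by simp), if_pos rfl]
    congr 1
    rw [sum_image (by intro a _ b _ h; exact Option.some.inj h)]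
    simp
  have hps := prof_sum_le hδ0 hlam0 hlam2 hn16 hD hDn hPP hsm
  calc (C.card : ℝ) = ∑ π ∈ Fintype.piFinset t, ((C.filter fun x => prof x = π).card : ℝ) := hcardC
    _ ≤ ∑ π ∈ Fintype.piFinset t, (2 ^ T * M * ((2 : ℝ) ^ w * U * lam ^ (-k))) * ∏ i, GG i (π i) :=
        sum_le_sum hfib
    _ = (2 ^ T * M * ((2 : ℝ) ^ w * U * lam ^ (-k))) *
        ∏ p ∈ PP, (1 + ((D0.factorization p : ℝ) + 1) * gg n lam D0 p) := by
        rw [← mul_sum, hsumG]
    _ ≤ (2 ^ T * M * ((2 : ℝ) ^ w * (2 : ℝ) ^ (δ * n) * (2 : ℝ) ^ (δ * n))) *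
        ((2 : ℝ) ^ (δ * n) * (2 : ℝ) ^ (δ * n)) := by
        apply mul_le_mul _ hps (prod_nonneg fun p _ => ?_) (by positivity)
        · apply mul_le_mul_of_nonneg_left _ (by positivity)
          apply mul_le_mul _ hΛ1 hΛ0.le (by positivity)
          exact mul_le_mul_of_nonneg_left hU1 (by positivity)
        · have := gg_nonneg (n := n) hlam0 D0 p
          positivity
    _ = M * (2 : ℝ) ^ (T + w + 4 * δ * n) := by
        have e1 : (2 : ℝ) ^ (T + w + 4 * δ * n) = (2 : ℝ) ^ (T : ℝ) * (2 : ℝ) ^ w *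
            ((2 : ℝ) ^ (δ * n) * (2 : ℝ) ^ (δ * n) * (2 : ℝ) ^ (δ * n) * (2 : ℝ) ^ (δ * n)) := by
          rw [← Real.rpow_add two_pos, ← Real.rpow_add two_pos, ← Real.rpow_add two_pos,
            ← Real.rpow_add two_pos, ← Real.rpow_add two_pos]
          congr 1; ring
        rw [e1, Real.rpow_natCast]
        ring
    _ ≤ _ := by
        apply mul_le_mul_of_nonneg_left _ hM
        apply Real.rpow_le_rpow_of_exponent_le (by norm_num)
        have : 4 * δ * n ≤ ε * n := by
          rw [hδ]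
          nlinarith
        linarith

end Vale.Agent.P160.Half.F.Cnt276
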