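import Vale.Agent.P160.Half.Fin.CntD262
import Vale.Agent.P160.Half.Fin.CntAbs276
import Vale.Agent.P160.Half.LabCok

/-! # P160, half rate: the count of the columns, conclusion (helper262)

`CntStmt ζ` from `cnt_abs` (helper276), `LabVec.vec_count` (helper201) and the dictionary `CntD262`. -/

set_option linter.unusedVariables false
set_option linter.unusedSectionVars false

namespace Vale.Agent.P160.Half.F.Cnt262

open Finset Matrix Vale.Agent.P160.Half Vale.Agent.P160.Half.A Vale.Agent.P160.Half.Labels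
  Vale.Agent.P160.Half.LabMax Vale.Agent.P160.Half.LabVec Vale.Agent.P160.Half.LabCok

/-- **CNT** -/
theorem cnt (ζ : ℝ) (hζ : 0 < ζ) (hζ' : ζ < 1 / 16) : CntStmt ζ := by
  classical
  intro ε W R hε hW
  obtain ⟨n₀, h₀⟩ := Cnt276.cnt_abs ζ ε W R hζ hζ' hε hW
  refine ⟨n₀, fun n hn P hPs hd hdet hcor X M w T hw hX hM => ?_⟩
  have hP : P.transpose = P := hPs
  have hdn : P.det.natAbs ≠ 0 := Int.natAbs_ne_zero.2 hd
  have hcG : Nat.card (Coker P) = P.det.natAbs := card_coker P hd
  haveI : NeZero P.det.natAbs := ⟨hdn⟩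
  haveI : Finite (Coker P) := Nat.finite_of_card_ne_zero (by rw [hcG]; exact hdn)
  letI : Fintype (Coker P) := Fintype.ofFinite _
  have hs := cokPair_symm P hP
  have hnd := cokPair_nondeg P hP hd
  have hM0 : 0 ≤ M := by
    have h1 := hM _ (over_LH hP hd (⊥ : AddSubgroup (Coker P)) (by
      intro x hx y hy
      rw [AddSubgroup.mem_bot] at hx
      rw [hx]; simp))
    exact le_trans (Nat.cast_nonneg _) h1
  have hCx : ∀ x ∈ ((univ : Finset (Fin n → Bool)).filter fun x => ∃ (v' : Fin n → ℤ) (e c : ℤ),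
      Col P x v' e c ∧ (∀ i, |(v' i : ℝ)| ≤ X * |(e : ℝ)|) ∧
      (bigSet P e).card ≤ T ∧ lcost ζ n e c ≤ w), ∃ (v' : Fin n → ℤ) (e c : ℤ),
      Col P x v' e c ∧ (∀ i, |(v' i : ℝ)| ≤ X * |(e : ℝ)|) ∧
      (bigSet P e).card ≤ T ∧ lcost ζ n e c ≤ w := fun x hx => (mem_filter.1 hx).2
  choose! v' e c hcol hv hbig hl using hCx
  have he0 : ∀ x ∈ ((univ : Finset (Fin n → Bool)).filter fun x => ∃ (v' : Fin n → ℤ) (e c : ℤ),
      Col P x v' e c ∧ (∀ i, |(v' i : ℝ)| ≤ X * |(e : ℝ)|) ∧
      (bigSet P e).card ≤ T ∧ lcost ζ n e c ≤ w), (e x).natAbs ≠ 0 :=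
    fun x hx => Int.natAbs_ne_zero.2 (e_ne hd (hcol x hx))
  have hc0 : ∀ x ∈ ((univ : Finset (Fin n → Bool)).filter fun x => ∃ (v' : Fin n → ℤ) (e c : ℤ),
      Col P x v' e c ∧ (∀ i, |(v' i : ℝ)| ≤ X * |(e : ℝ)|) ∧
      (bigSet P e).card ≤ T ∧ lcost ζ n e c ≤ w), (c x).natAbs ≠ 0 :=
    fun x hx => Int.natAbs_ne_zero.2 (c_ne hd (hcol x hx))
  refine h₀ n hn (Fin n → Bool) _ (fun x => (e x).natAbs) (fun x => (c x).natAbs) P.det.natAbs
    (P.det.natAbs.primeFactors.filter fun p => 2 ≤ crk P p) (crk P)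
    (fun p a => ((Tp (cokPair P hP) p a).card : ℝ)) M w T hdn hdet ?_ ?_ hw hM0 ?_ ?_ ?_ ?_ ?_ ?_ ?_
  · intro p hp
    have h1 := Nat.mem_primeFactors.1 (mem_filter.1 hp).1
    exact ⟨h1.1, h1.2.1⟩
  · intro p hp
    exact hcor p (Nat.mem_primeFactors.1 (mem_filter.1 hp).1).1
  · intro x hx
    exact natAbs_det (hcol x hx)
  · intro x hx
    refine le_trans (card_le_card ?_) (hbig x hx)
    intro p hp
    rw [mem_filter] at hp
    unfold bigSet
    rw [mem_filter]
    exact ⟨hp.1, hp.2.1, (mem_filter.1 hp.2.2).2⟩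
  · intro x hx
    have h1 := hl x hx
    unfold lcost at h1
    refine le_trans (le_of_eq ?_) h1
    apply sum_congr _ fun _ _ => rfl
    ext p
    rw [mem_filter, mem_filter, Int.natCast_dvd]
    rfl
  · intro p hp a
    exact Nat.cast_nonneg _
  · intro p hp a
    have hpp := (Nat.mem_primeFactors.1 (mem_filter.1 hp).1).1
    have h1 := card_Tp_le_pow (cokPair P hP) p a
    have h2 := Nat.pow_le_pow_left (card_kil_coker P hd hpp) a
    have h3 : (Tp (cokPair P hP) p a).card ≤ p ^ (a * crk P p) := by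
      refine (h1.trans h2).trans (le_of_eq ?_)
      rw [← pow_mul, mul_comm]
      rfl
    show ((Tp (cokPair P hP) p a).card : ℝ) ≤ (p : ℝ) ^ (a * crk P p)
    exact_mod_cast h3
  · intro p hp a ha
    have hpp := (Nat.mem_primeFactors.1 (mem_filter.1 hp).1).1
    have hp1 : (1 : ℝ) ≤ p := by exact_mod_cast hpp.one_lt.le
    have h1 := card_Tp (cokPair P hP) hs hnd hpp a
    refine h1.trans ?_
    unfold tb
    rw [hcG]
    split_ifs with ha0
    · subst ha0
      have : (1 : ℝ) ≤ (p : ℝ) ^ (P.det.natAbs.factorization p - 2 * 0) := one_le_pow₀ hp1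
      push_cast
      linarith
    · rw [div_le_iff₀ (by positivity), mul_assoc (4 * ((a : ℝ) + 1)), ← pow_add, Nat.sub_add_cancel ha]
  · intro S a C' hS hC' hsame hout hT'
    have hprime : ∀ p ∈ (P.det.natAbs.primeFactors.filter fun p => 2 ≤ crk P p), p.Prime :=
      fun p hp => (Nat.mem_primeFactors.1 (mem_filter.1 hp).1).1
    have hun : S ∪ ((P.det.natAbs.primeFactors.filter fun p => 2 ≤ crk P p) \ S) =
      (P.det.natAbs.primeFactors.filter fun p => 2 ≤ crk P p) := union_sdiff_of_subset hS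
    have hord : ∀ x ∈ C', addOrderOf (QuotientAddGroup.mk (iv x) : Coker P) = (e x).natAbs :=
      fun x hx => order_eq hd (hcol x (hC' hx))
    have key := vec_count (cokPair P hP) hs hnd S
      ((P.det.natAbs.primeFactors.filter fun p => 2 ≤ crk P p) \ S) disjoint_sdiff
      (by rw [hun]; exact hprime)
      (by
        intro p hpp hpS
        rw [hun] at hpS
        by_cases hpd : p ∣ P.det.natAbs
        · have h1 : crk P p ≤ 1 := by
            by_contra hcon
            exact hpS (mem_filter.2 ⟨Nat.mem_primeFactors.2 ⟨hpp, hpd, hdn⟩, by omega⟩)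
          rw [card_kil_eq]
          refine (card_kil_coker P hd hpp).trans ?_
          calc p ^ (n - (P.map (Int.cast : ℤ → ZMod p)).rank) ≤ p ^ 1 := Nat.pow_le_pow_right hpp.pos h1
            _ = p := pow_one p
        · have h1 : ∀ x : Coker P, p • x = 0 → x = 0 := by
            intro x hx
            have h2 : addOrderOf x ∣ p := addOrderOf_dvd_of_nsmul_eq_zero hx
            have h3 : addOrderOf x ∣ P.det.natAbs := by
              rw [← hcG]; exact addOrderOf_dvd_natCard x
            rcases (Nat.dvd_prime hpp).1 h2 with h4 | h4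
            · exact AddMonoid.addOrderOf_eq_one_iff.1 h4
            · rw [h4] at h3; exact absurd h3 hpd
          have h2 : Nat.card {x : Coker P // p • x = 0} ≤ 1 := by
            rw [Finite.card_le_one_iff_subsingleton]
            constructor
            intro x y
            apply Subtype.ext
            rw [h1 x.1 x.2, h1 y.1 y.2]
          exact h2.trans hpp.one_lt.le)
      a T ⌊M⌋₊ C' (fun x => (QuotientAddGroup.mk (iv x) : Coker P))
      (by
        intro H hH
        exact count_le hP hd hX hM H hH C' fun x hx =>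
          ⟨v' x, e x, c x, hcol x (hC' hx), hv x (hC' hx)⟩)
      (fun x hx => iso_self hP hd (hcol x (hC' hx)))
      (by
        intro x hx p hp
        rw [hord x hx]
        exact hsame x hx p hp)
      (by
        intro x hx p hp hpd
        rw [hord x hx] at hpd ⊢
        rw [mem_sdiff] at hp
        obtain ⟨h1, h2⟩ := hout x hx p hp.1 hp.2 hpd
        refine ⟨h1, ?_⟩
        rw [hcG, natAbs_det (hcol x (hC' hx)), Nat.factorization_mul (hc0 x (hC' hx))
          (pow_ne_zero 2 (he0 x (hC' hx))), Nat.factorization_pow]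
        simp [Nat.factorization_eq_zero_of_not_dvd h2])
      (by
        intro x hx
        refine le_trans (card_le_card ?_) (hT' x hx)
        intro p hp
        rw [mem_filter, mem_sdiff, hord x hx] at hp
        rw [mem_filter, Nat.mem_primeFactors]
        exact ⟨⟨hprime p hp.1.1, hp.2, he0 x (hC' hx)⟩, hp.1.1, hp.1.2⟩)
    have h2 : (C'.card : ℝ) ≤ 2 ^ T * (∏ p ∈ S, ((Tp (cokPair P hP) p (a p)).card : ℝ)) * (⌊M⌋₊ : ℝ) := by
      exact_mod_cast key
    refine h2.trans ?_
    apply mul_le_mul_of_nonneg_left (Nat.floor_le hM0)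
    have : 0 ≤ ∏ p ∈ S, ((Tp (cokPair P hP) p (a p)).card : ℝ) := prod_nonneg fun _ _ => Nat.cast_nonneg _
    positivity

end Vale.Agent.P160.Half.F.Cnt262
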