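import Vale.Agent.P160.Half.Fin.FStmt
import Vale.Agent.P160.Half.LabCok

/-! # P160, half rate: dictionary `Col` ↔ cokernel (helper262) -/

set_option linter.unusedVariables false
set_option linter.unusedSectionVars false

namespace Vale.Agent.P160.Half.F.Cnt262

open Finset Matrix Vale.Agent.P160.Half Vale.Agent.P160.Half.A Vale.Agent.P160.Half.Labels

variable {n : ℕ}

/-- the 0/1 vector of `x` -/
def iv (x : Fin n → Bool) : Fin n → ℤ := fun i => if x i then 1 else 0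

theorem iv_inj : Function.Injective (iv (n := n)) := by
  intro x y h
  ext i
  have := congrFun h i
  unfold iv at this
  cases hx : x i <;> cases hy : y i <;> simp_all

variable {P : Matrix (Fin n) (Fin n) ℤ}

theorem e_ne (hd : P.det ≠ 0) {x : Fin n → Bool} {v' : Fin n → ℤ} {e c : ℤ} (h : Col P x v' e c) :
    e ≠ 0 := by
  rintro rfl
  apply hd
  rw [h.det]; ring

theorem c_ne (hd : P.det ≠ 0) {x : Fin n → Bool} {v' : Fin n → ℤ} {e c : ℤ} (h : Col P x v' e c) :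
    c ≠ 0 := by
  rintro rfl
  apply hd
  rw [h.det]; ring

theorem ker_iv {x : Fin n → Bool} {v' : Fin n → ℤ} {e c : ℤ} (h : Col P x v' e c) :
    P *ᵥ v' = (-e) • iv x := by
  have := h.ker
  rw [this]
  rfl

theorem mulVec_inj (hd : P.det ≠ 0) {z w : Fin n → ℤ} (hzw : P *ᵥ z = P *ᵥ w) : z = w := by
  have h2 : P.adjugate *ᵥ (P *ᵥ z) = P.adjugate *ᵥ (P *ᵥ w) := by rw [hzw]
  rw [mulVec_mulVec, mulVec_mulVec, adjugate_mul, smul_mulVec, smul_mulVec, one_mulVec,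
    one_mulVec] at h2
  exact smul_right_injective _ hd h2

theorem order_eq (hd : P.det ≠ 0) {x : Fin n → Bool} {v' : Fin n → ℤ} {e c : ℤ} (h : Col P x v' e c) :
    addOrderOf (QuotientAddGroup.mk (iv x) : Coker P) = e.natAbs := by
  apply Nat.dvd_antisymm
  · apply addOrderOf_dvd_of_nsmul_eq_zero
    rw [← QuotientAddGroup.mk_nsmul, QuotientAddGroup.eq_zero_iff, mem_lat]
    have hk := ker_iv h
    rcases Int.natAbs_eq e with he | he
    · refine ⟨-v', ?_⟩
      rw [mulVec_neg, hk, neg_smul, neg_neg]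
      conv_lhs => rw [he]
      rw [natCast_zsmul]
    · refine ⟨v', ?_⟩
      rw [hk]
      conv_lhs => rw [he]
      rw [neg_neg, natCast_zsmul]
  · set k := addOrderOf (QuotientAddGroup.mk (iv x) : Coker P) with hk0
    have h1 : k • (QuotientAddGroup.mk (iv x) : Coker P) = 0 := addOrderOf_nsmul_eq_zero _
    rw [← QuotientAddGroup.mk_nsmul, QuotientAddGroup.eq_zero_iff, mem_lat] at h1
    obtain ⟨z, hz⟩ := h1
    have hk := ker_iv h
    have h2 : P *ᵥ (e • z) = P *ᵥ ((-(k : ℤ)) • v') := by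
      rw [mulVec_smul, mulVec_smul, hz, hk, ← natCast_zsmul, smul_smul, smul_smul]
      congr 1; ring
    have h3 := mulVec_inj hd h2
    have h4 : ∀ i, e ∣ (k : ℤ) * v' i := by
      intro i
      have := congrFun h3 i
      simp only [Pi.smul_apply, smul_eq_mul] at this
      exact ⟨-z i, by linarith⟩
    obtain ⟨a, a0, ha⟩ := h.prim
    have h5 : (k : ℤ) = ∑ i, a i * ((k : ℤ) * v' i) + a0 * k * e := by
      calc (k : ℤ) = k * (∑ i, a i * v' i + a0 * e) := by rw [ha, mul_one]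
        _ = _ := by rw [mul_add, Finset.mul_sum]; congr 1
                    · exact Finset.sum_congr rfl fun i _ => by ring
                    · ring
    have h6 : e ∣ (k : ℤ) := by
      rw [h5]
      exact dvd_add (Finset.dvd_sum fun i _ => (h4 i).mul_left _) (dvd_mul_left _ _)
    have h7 := Int.natAbs_dvd_natAbs.2 h6
    rwa [Int.natAbs_natCast] at h7

theorem iso_self (hP : P.transpose = P) (hd : P.det ≠ 0) {x : Fin n → Bool} {v' : Fin n → ℤ} {e c : ℤ}
    (h : Col P x v' e c) :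
    cokPair P hP (QuotientAddGroup.mk (iv x)) (QuotientAddGroup.mk (iv x)) = 0 := by
  rw [cokPair_mk, ZMod.intCast_zmod_eq_zero_iff_dvd, Int.natAbs_dvd]
  have hk := ker_iv h
  have h1 : P.det • v' = (-e) • (P.adjugate *ᵥ iv x) := by
    have h2 : P.adjugate *ᵥ (P *ᵥ v') = P.adjugate *ᵥ ((-e) • iv x) := by rw [hk]
    rwa [mulVec_mulVec, adjugate_mul, smul_mulVec, one_mulVec, mulVec_smul] at h2
  have h3 : P.det * (iv x ⬝ᵥ v') = (-e) * (iv x ⬝ᵥ (P.adjugate *ᵥ iv x)) := by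
    have := congrArg (fun u => iv x ⬝ᵥ u) h1
    simp only [dotProduct_smul, smul_eq_mul] at this
    exact this
  obtain ⟨t, ht⟩ := h.iso
  have h4 : iv x ⬝ᵥ v' = e * t := by
    rw [← ht]
    unfold dotProduct iv
    exact Finset.sum_congr rfl fun i _ => by split_ifs <;> simp
  rw [h4] at h3
  refine ⟨-t, ?_⟩
  have he := e_ne hd h
  apply mul_left_cancel₀ (neg_ne_zero.2 he)
  rw [← h3]; ring

theorem natAbs_det {x : Fin n → Bool} {v' : Fin n → ℤ} {e c : ℤ} (h : Col P x v' e c) :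
    P.det.natAbs = c.natAbs * e.natAbs ^ 2 := by
  rw [h.det, Int.natAbs_mul, Int.natAbs_pow]

/-- the lattice of a subgroup of the cokernel -/
def LH (P : Matrix (Fin n) (Fin n) ℤ) (H : AddSubgroup (Coker P)) : Submodule ℤ (Fin n → ℚ) where
  carrier := {v | ∃ w : Fin n → ℤ, PQ P *ᵥ v = (fun i => (w i : ℚ)) ∧ (QuotientAddGroup.mk w : Coker P) ∈ H}
  add_mem' := by
    rintro u v ⟨w, hw, hwH⟩ ⟨w', hw', hwH'⟩
    refine ⟨w + w', ?_, ?_⟩
    · rw [mulVec_add, hw, hw']; ext i; simp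
    · rw [QuotientAddGroup.mk_add]; exact H.add_mem hwH hwH'
  zero_mem' := ⟨0, by rw [mulVec_zero]; ext i; simp, by simpa using H.zero_mem⟩
  smul_mem' := by
    rintro k v ⟨w, hw, hwH⟩
    refine ⟨k • w, ?_, ?_⟩
    · have : PQ P *ᵥ (k • v) = k • (PQ P *ᵥ v) := by
        rw [mulVec_smul]
      rw [this, hw]; ext i; simp
    · rw [QuotientAddGroup.mk_zsmul]; exact H.zsmul_mem hwH k

theorem mem_LH {H : AddSubgroup (Coker P)} {v : Fin n → ℚ} : v ∈ LH P H ↔
    ∃ w : Fin n → ℤ, PQ P *ᵥ v = (fun i => (w i : ℚ)) ∧ (QuotientAddGroup.mk w : Coker P) ∈ H := Iff.rfl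

theorem PQ_mulVec (P : Matrix (Fin n) (Fin n) ℤ) (z : Fin n → ℤ) :
    PQ P *ᵥ (fun i => (z i : ℚ)) = fun i => (((P *ᵥ z) i : ℤ) : ℚ) := by
  ext i
  simp only [PQ, mulVec, dotProduct, map_apply]
  push_cast; rfl

theorem PQ_det (P : Matrix (Fin n) (Fin n) ℤ) : (PQ P).det = (P.det : ℚ) := by
  have h2 := RingHom.map_det (Int.castRingHom ℚ) P
  simpa [PQ] using h2.symm

theorem over_LH (hP : P.transpose = P) (hd : P.det ≠ 0) (H : AddSubgroup (Coker P))
    (hH : ∀ x ∈ H, ∀ y ∈ H, cokPair P hP x y = 0) : Over P (LH P H) where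
  std z := ⟨P *ᵥ z, PQ_mulVec P z, by
    have : (QuotientAddGroup.mk (P *ᵥ z) : Coker P) = 0 := by
      rw [QuotientAddGroup.eq_zero_iff, mem_lat]; exact ⟨z, rfl⟩
    rw [this]; exact H.zero_mem⟩
  int := by
    rintro v ⟨w1, hw1, hH1⟩ w ⟨w2, hw2, hH2⟩
    have h1 := hH _ hH2 _ hH1
    rw [cokPair_mk, ZMod.intCast_zmod_eq_zero_iff_dvd, Int.natAbs_dvd] at h1
    obtain ⟨k, hk⟩ := h1
    refine ⟨k, ?_⟩
    rw [hw2]
    -- `det • v = adj w1`
    have h2 : (P.det : ℚ) • v = fun i => (((P.adjugate *ᵥ w1) i : ℤ) : ℚ) := by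
      have h3 : (PQ P).adjugate *ᵥ (PQ P *ᵥ v) = (PQ P).adjugate *ᵥ (fun i => (w1 i : ℚ)) := by rw [hw1]
      rw [mulVec_mulVec, adjugate_mul, smul_mulVec, one_mulVec, PQ_det] at h3
      rw [h3]
      have h4 : (PQ P).adjugate = PQ (P.adjugate) := by
        have := RingHom.map_adjugate (Int.castRingHom ℚ) P
        simpa [PQ] using this.symm
      rw [h4, PQ_mulVec]
    have hdq : (P.det : ℚ) ≠ 0 := by exact_mod_cast hd
    apply mul_left_cancel₀ hdq
    have h5 : (P.det : ℚ) * (v ⬝ᵥ fun i => (w2 i : ℚ)) =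
        ((P.det : ℚ) • v) ⬝ᵥ fun i => (w2 i : ℚ) := by
      rw [smul_dotProduct, smul_eq_mul]
    rw [h5, h2]
    have h6 : (fun i => (((P.adjugate *ᵥ w1) i : ℤ) : ℚ)) ⬝ᵥ (fun i => (w2 i : ℚ)) =
        ((w2 ⬝ᵥ (P.adjugate *ᵥ w1) : ℤ) : ℚ) := by
      unfold dotProduct
      push_cast
      exact Finset.sum_congr rfl fun i _ => mul_comm _ _
    rw [h6, hk]
    push_cast; ring

theorem mem_cls (hd : P.det ≠ 0) {H : AddSubgroup (Coker P)} {X : ℝ} (hX : 1 ≤ X) {x : Fin n → Bool}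
    {v' : Fin n → ℤ} {e c : ℤ} (h : Col P x v' e c) (hv : ∀ i, |(v' i : ℝ)| ≤ X * |(e : ℝ)|)
    (hx : (QuotientAddGroup.mk (iv x) : Coker P) ∈ H) : iv x ∈ cls P (LH P H) 0 X := by
  have he := e_ne hd h
  have heq : (e : ℚ) ≠ 0 := by exact_mod_cast he
  have hu : IsUnit (PQ P).det := by
    rw [PQ_det]; exact isUnit_iff_ne_zero.2 (by exact_mod_cast hd)
  have hdual : dual P (iv x) = fun i => -(v' i : ℚ) / e := by
    unfold dual
    have h1 : PQ P *ᵥ (fun i => -(v' i : ℚ) / e) = fun i => (iv x i : ℚ) := by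
      have h2 : (fun i => -(v' i : ℚ) / e) = (-(1 / (e : ℚ))) • fun i => (v' i : ℚ) := by
        ext i; simp; ring
      rw [h2, mulVec_smul, PQ_mulVec, ker_iv h]
      ext i
      simp
      field_simp
    rw [← h1, mulVec_mulVec, nonsing_inv_mul _ hu, one_mulVec]
  refine ⟨⟨∅, by simp, fun i _ => ?_⟩, fun i => ?_, ?_, ?_⟩
  · unfold iv; split_ifs <;> simp
  · unfold iv
    split_ifs
    · simpa using hX
    · simpa using (by linarith : (0 : ℝ) ≤ X)
  · refine ⟨iv x, ?_, hx⟩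
    unfold dual
    rw [mulVec_mulVec, mul_nonsing_inv _ hu, one_mulVec]
  · intro i
    rw [hdual]
    have heR : (0 : ℝ) < |(e : ℝ)| := by
      rw [abs_pos]; exact_mod_cast he
    push_cast
    rw [abs_div, abs_neg, div_le_iff₀ heR]
    exact hv i

theorem cls_finite (P : Matrix (Fin n) (Fin n) ℤ) (L : Submodule ℤ (Fin n → ℚ)) (s : ℕ) (X : ℝ) :
    (cls P L s X).Finite := by
  have h1 : (Set.pi Set.univ fun _ : Fin n => Set.Icc (-⌊X⌋) ⌊X⌋ : Set (Fin n → ℤ)).Finite :=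
    Set.Finite.pi fun _ => Set.finite_Icc _ _
  refine h1.subset fun y hy => ?_
  intro i _
  have h2 := hy.2.1 i
  rw [abs_le] at h2
  constructor
  · have h3 : -(y i) ≤ ⌊X⌋ := Int.le_floor.2 (by push_cast; linarith)
    linarith
  · exact Int.le_floor.2 h2.2

theorem count_le (hP : P.transpose = P) (hd : P.det ≠ 0) {X M : ℝ} (hX : 1 ≤ X)
    (hM : ∀ L, Over P L → ((cls P L 0 X).ncard : ℝ) ≤ M) (H : AddSubgroup (Coker P))
    (hH : ∀ x ∈ H, ∀ y ∈ H, cokPair P hP x y = 0) (Y : Finset (Fin n → Bool))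
    (hY : ∀ x ∈ Y, ∃ (v' : Fin n → ℤ) (e c : ℤ), Col P x v' e c ∧ ∀ i, |(v' i : ℝ)| ≤ X * |(e : ℝ)|) :
    Nat.card {y : Fin n → Bool // y ∈ Y ∧ (QuotientAddGroup.mk (iv y) : Coker P) ∈ H} ≤ ⌊M⌋₊ := by
  have h1 := hM _ (over_LH hP hd H hH)
  have h2 : Nat.card {y : Fin n → Bool // y ∈ Y ∧ (QuotientAddGroup.mk (iv y) : Coker P) ∈ H} ≤
      (cls P (LH P H) 0 X).ncard := by
    rw [← Nat.card_coe_set_eq]
    haveI : Finite (cls P (LH P H) 0 X) := cls_finite P _ 0 X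
    refine Nat.card_le_card_of_injective (fun y => ⟨iv y.1, ?_⟩) ?_
    · obtain ⟨v', e, c, h, hv⟩ := hY y.1 y.2.1
      exact mem_cls hd hX h hv y.2.2
    · intro y z hyz
      apply Subtype.ext
      exact iv_inj (congrArg Subtype.val hyz)
  exact h2.trans (Nat.le_floor h1)

end Vale.Agent.P160.Half.F.Cnt262
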