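import Vale.Agent.P160.Half.SmallP172

/-! # P160, rate 1/2: the label count for the columns, analytic preparation (helper454) -/

namespace Vale.Agent.P160.Half.F.Cnt454

open Finset

/-- polynomial against exponential -/
theorem poly_exp (δ : ℝ) (hδ : 0 < δ) (v : ℕ) :
    4 * ((v : ℝ) + 1) ^ 2 ≤ (8 + 16 / δ ^ 2) * Real.exp (δ * v) := by
  have h1 := Real.quadratic_le_exp_of_nonneg (x := δ * v) (by positivity)
  have hv : (0 : ℝ) ≤ v := Nat.cast_nonneg v
  have h2 : 4 * ((v : ℝ) + 1) ^ 2 ≤ (8 + 16 / δ ^ 2) * (1 + δ * v + (δ * v) ^ 2 / 2) := by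
    have h3 : (8 + 16 / δ ^ 2) * (1 + δ * v + (δ * v) ^ 2 / 2) =
        8 * (1 + δ * v + (δ * v) ^ 2 / 2) + 16 / δ ^ 2 * (1 + δ * v) + 8 * v ^ 2 := by
      field_simp; ring
    rw [h3]
    have h4 : 0 ≤ 16 / δ ^ 2 * (1 + δ * v) := by positivity
    have h5 : 0 ≤ δ * v := by positivity
    nlinarith [sq_nonneg ((v : ℝ) - 1), sq_nonneg (δ * v)]
  exact h2.trans (mul_le_mul_of_nonneg_left h1 (by positivity))

/-- sums over small subsets -/
theorem big_sum (ε W : ℝ) (hε : 0 < ε) (hW : 0 < W) : ∃ n₀ : ℕ, ∀ n ≥ n₀, ∀ (S : Finset ℕ) (v : ℕ → ℕ)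
    (w : ℝ), w ≤ W * n → (∀ p ∈ S, 1 ≤ v p) → ((∑ p ∈ S, v p : ℕ) : ℝ) ≤ n →
    ∑ B ∈ S.powerset.filter (fun B => (B.card : ℝ) * Real.logb 2 n ≤ w), ∏ p ∈ B, (4 * ((v p : ℝ) + 1) ^ 2) ≤
      (2 : ℝ) ^ (ε * n) := by
  have hl2 : 0 < Real.log 2 := Real.log_pos (by norm_num)
  set δ : ℝ := min (ε * Real.log 2 / 3) 1 with hδdef
  have hδ : 0 < δ := lt_min (by positivity) one_pos
  have hδ1 : δ ≤ 1 := min_le_right _ _
  have hδ3 : 3 * δ ≤ ε * Real.log 2 := by
    have : δ ≤ ε * Real.log 2 / 3 := min_le_left _ _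
    linarith
  set K : ℝ := 8 + 16 / δ ^ 2 with hK
  have hK1 : 1 ≤ K := by
    have : 0 ≤ 16 / δ ^ 2 := by positivity
    rw [hK]; linarith
  set A : ℝ := K / δ with hA
  have hA1 : 1 ≤ A := by
    rw [hA, le_div_iff₀ hδ]; linarith
  have hlA : 0 ≤ Real.log A := Real.log_nonneg hA1
  -- threshold: `W log A ≤ δ logb 2 n`
  obtain ⟨n₀, hn₀⟩ := Filter.eventually_atTop.1
    ((Real.tendsto_log_atTop.comp tendsto_natCast_atTop_atTop).eventually_ge_atTop (W * Real.log A * Real.log 2 / δ + 1))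
  refine ⟨max n₀ 2, fun n hn S v w hw hv hsum => ?_⟩
  have hn1 := hn₀ n (le_trans (le_max_left _ _) hn)
  simp only [Function.comp] at hn1
  have hn2 : 2 ≤ n := le_trans (le_max_right _ _) hn
  have hlogn : 0 < Real.log n := Real.log_pos (by exact_mod_cast hn2)
  have hlb : 0 < Real.logb 2 n := Real.logb_pos (by norm_num) (by exact_mod_cast hn2)
  have hthr : W * Real.log A ≤ δ * Real.logb 2 n := by
    have h1 : W * Real.log A * Real.log 2 / δ ≤ Real.log n := by linarith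
    rw [div_le_iff₀ hδ] at h1
    unfold Real.logb
    rw [← mul_div_assoc, le_div_iff₀ hl2]
    linarith
  have hScard : (S.card : ℝ) ≤ n := by
    refine le_trans ?_ hsum
    have : S.card ≤ ∑ p ∈ S, v p := by
      rw [card_eq_sum_ones]
      exact sum_le_sum hv
    exact_mod_cast this
  -- each product
  have hprod : ∀ B ∈ S.powerset.filter (fun B => (B.card : ℝ) * Real.logb 2 n ≤ w),
      ∏ p ∈ B, (4 * ((v p : ℝ) + 1) ^ 2) ≤ Real.exp (2 * δ * n) * δ ^ B.card := by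
    intro B hB
    rw [mem_filter, mem_powerset] at hB
    have h1 : ∏ p ∈ B, (4 * ((v p : ℝ) + 1) ^ 2) ≤ ∏ p ∈ B, (K * Real.exp (δ * v p)) :=
      prod_le_prod (fun p _ => by positivity) fun p _ => poly_exp δ hδ (v p)
    refine h1.trans ?_
    rw [prod_mul_distrib, prod_const, ← Real.exp_sum, ← mul_sum]
    have h2 : δ * ∑ p ∈ B, (v p : ℝ) ≤ δ * n := by
      apply mul_le_mul_of_nonneg_left _ hδ.le
      refine le_trans ?_ hsum
      push_cast
      exact sum_le_sum_of_subset_of_nonneg hB.1 (fun _ _ _ => Nat.cast_nonneg _)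
    have h3 : K ^ B.card = A ^ B.card * δ ^ B.card := by
      rw [hA, div_pow, div_mul_cancel₀ _ (by positivity)]
    have h4 : A ^ B.card ≤ Real.exp (δ * n) := by
      have h5 : A ^ B.card = Real.exp (B.card * Real.log A) := by
        rw [← Real.log_pow, Real.exp_log (by positivity)]
      rw [h5]
      apply Real.exp_le_exp.2
      have h6 : (B.card : ℝ) * Real.logb 2 n ≤ W * n := hB.2.trans hw
      have h7 : (B.card : ℝ) * (W * Real.log A) ≤ (B.card : ℝ) * (δ * Real.logb 2 n) :=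
        mul_le_mul_of_nonneg_left hthr (Nat.cast_nonneg _)
      have h8 : W * ((B.card : ℝ) * Real.log A) ≤ W * (δ * n) := by
        calc W * ((B.card : ℝ) * Real.log A) = (B.card : ℝ) * (W * Real.log A) := by ring
          _ ≤ (B.card : ℝ) * (δ * Real.logb 2 n) := h7
          _ = δ * ((B.card : ℝ) * Real.logb 2 n) := by ring
          _ ≤ δ * (W * n) := mul_le_mul_of_nonneg_left h6 hδ.le
          _ = W * (δ * n) := by ring
      exact le_of_mul_le_mul_left h8 hW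
    rw [h3]
    calc A ^ B.card * δ ^ B.card * Real.exp (δ * ∑ p ∈ B, (v p : ℝ))
        ≤ Real.exp (δ * n) * δ ^ B.card * Real.exp (δ * n) := by
          gcongr
      _ = Real.exp (2 * δ * n) * δ ^ B.card := by
          rw [show 2 * δ * n = δ * n + δ * n by ring, Real.exp_add]; ring
  calc ∑ B ∈ S.powerset.filter (fun B => (B.card : ℝ) * Real.logb 2 n ≤ w), ∏ p ∈ B, (4 * ((v p : ℝ) + 1) ^ 2)
      ≤ ∑ B ∈ S.powerset.filter (fun B => (B.card : ℝ) * Real.logb 2 n ≤ w), Real.exp (2 * δ * n) * δ ^ B.card :=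
        sum_le_sum hprod
    _ ≤ ∑ B ∈ S.powerset, Real.exp (2 * δ * n) * δ ^ B.card :=
        sum_le_sum_of_subset_of_nonneg (filter_subset _ _) (fun _ _ _ => by positivity)
    _ = Real.exp (2 * δ * n) * (δ + 1) ^ S.card := by
        rw [← mul_sum, ← sum_pow_mul_eq_add_pow δ 1 S]
        congr 1
        exact sum_congr rfl fun B _ => by rw [one_pow, mul_one]
    _ ≤ Real.exp (2 * δ * n) * Real.exp (δ * n) := by
        apply mul_le_mul_of_nonneg_left _ (Real.exp_nonneg _)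
        have h1 : (δ + 1) ^ S.card ≤ (Real.exp δ) ^ S.card :=
          pow_le_pow_left₀ (by positivity) (Real.add_one_le_exp δ) _
        refine h1.trans ?_
        rw [← Real.exp_nat_mul]
        apply Real.exp_le_exp.2
        rw [mul_comm]
        exact mul_le_mul_of_nonneg_left hScard hδ.le
    _ = Real.exp (3 * δ * n) := by rw [← Real.exp_add]; ring_nf
    _ ≤ (2 : ℝ) ^ (ε * n) := by
        rw [Real.rpow_def_of_pos (by norm_num)]
        apply Real.exp_le_exp.2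
        have : 3 * δ * n ≤ ε * Real.log 2 * n := mul_le_mul_of_nonneg_right hδ3 (Nat.cast_nonneg _)
        linarith

/-- the crude cost of the primes below `n^(1/2-ζ)` -/
theorem crude (ε R ζ : ℝ) (hε : 0 < ε) (hζ : 0 < ζ) : ∃ n₀ : ℕ, ∀ n ≥ n₀,
    (n : ℝ) ^ (1 / 2 - ζ) * ((|R| * Real.sqrt n) * Real.logb 2 n) ≤ ε * n := by
  have hl2 : 0 < Real.log 2 := Real.log_pos (by norm_num)
  have h := (isLittleO_log_rpow_atTop (r := ζ) hζ).bound
    (show (0 : ℝ) < ε * Real.log 2 / (|R| + 1) by positivity)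
  have h' := tendsto_natCast_atTop_atTop (R := ℝ) |>.eventually h
  obtain ⟨n₀, hn₀⟩ := Filter.eventually_atTop.1 h'
  refine ⟨max n₀ 1, fun n hn => ?_⟩
  have h1 := hn₀ n (le_trans (le_max_left _ _) hn)
  have hn1 : 1 ≤ n := le_trans (le_max_right _ _) hn
  have hnr : (1 : ℝ) ≤ n := by exact_mod_cast hn1
  have hn0 : (0 : ℝ) < n := by linarith
  rw [Real.norm_of_nonneg (Real.log_nonneg hnr), Real.norm_of_nonneg (by positivity)] at h1
  have h2 : (n : ℝ) ^ (1 / 2 - ζ) * Real.sqrt n * (n : ℝ) ^ ζ = n := by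
    rw [Real.sqrt_eq_rpow, ← Real.rpow_add hn0, ← Real.rpow_add hn0]
    rw [show (1 / 2 - ζ + 1 / 2 + ζ : ℝ) = 1 by ring, Real.rpow_one]
  have hR : (0 : ℝ) < |R| + 1 := by positivity
  calc (n : ℝ) ^ (1 / 2 - ζ) * ((|R| * Real.sqrt n) * Real.logb 2 n)
      = (n : ℝ) ^ (1 / 2 - ζ) * Real.sqrt n * (|R| * (Real.log n / Real.log 2)) := by
        unfold Real.logb; ring
    _ ≤ (n : ℝ) ^ (1 / 2 - ζ) * Real.sqrt n * (ε * (n : ℝ) ^ ζ) := by
        apply mul_le_mul_of_nonneg_left _ (by positivity)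
        rw [← mul_div_assoc, div_le_iff₀ hl2]
        calc |R| * Real.log n ≤ |R| * (ε * Real.log 2 / (|R| + 1) * (n : ℝ) ^ ζ) :=
              mul_le_mul_of_nonneg_left h1 (abs_nonneg _)
          _ = (|R| / (|R| + 1)) * (ε * Real.log 2 * (n : ℝ) ^ ζ) := by ring
          _ ≤ 1 * (ε * Real.log 2 * (n : ℝ) ^ ζ) := by
              apply mul_le_mul_of_nonneg_right _ (by positivity)
              rw [div_le_one hR]; linarith
          _ = ε * (n : ℝ) ^ ζ * Real.log 2 := by ring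
    _ = ε * ((n : ℝ) ^ (1 / 2 - ζ) * Real.sqrt n * (n : ℝ) ^ ζ) := by ring
    _ = ε * n := by rw [h2]

/-- number of functions with bounded values -/
theorem card_fun_le (A : Finset (ℕ → ℕ)) (U : Finset ℕ) (f : ℕ → ℕ)
    (hA : ∀ a ∈ A, (∀ p ∈ U, a p ≤ f p) ∧ ∀ p ∉ U, a p = 0) : A.card ≤ ∏ p ∈ U, (f p + 1) := by
  classical
  have h1 : ∏ p ∈ U, (f p + 1) = (U.pi fun p => range (f p + 1)).card := by
    rw [card_pi]; simp
  rw [h1]
  apply Finset.card_le_card_of_injOn (fun a => fun p _ => a p)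
  · intro a ha
    rw [mem_coe, mem_pi]
    intro p hp
    rw [mem_range]
    have := (hA a ha).1 p hp
    show a p < f p + 1
    omega
  · intro a ha a' ha' h
    ext p
    by_cases hp : p ∈ U
    · exact congrFun (congrFun h p) hp
    · rw [(hA a ha).2 p hp, (hA a' ha').2 p hp]

end Vale.Agent.P160.Half.F.Cnt454
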