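import Vale.Agent.P160.Half.Fin.CntH454a
import Vale.Agent.P160.Half.Fin.CntH454b

/-! # P160, rate 1/2: the label count for the columns, `F.CntStmt` (helper454) -/

set_option linter.unusedSectionVars false
set_option linter.unusedVariables false

namespace Vale.Agent.P160.Half.F.Cnt454

open Finset Matrix Vale.Agent.P160.Half Vale.Agent.P160.Half.A Vale.Agent.P160.Half.F
  Vale.Agent.P160.Half.Labels Vale.Agent.P160.Half.LabMax Vale.Agent.P160.Half.LabCok
  Vale.Agent.P160.Half.LabAll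

section Fin

variable {n : ℕ} {P : Matrix (Fin n) (Fin n) ℤ}

/-- order of the class -/
noncomputable def od (P : Matrix (Fin n) (Fin n) ℤ) (x : Fin n → Bool) : ℕ := addOrderOf (cl P x)

/-- noncyclic primes -/
noncomputable def SS (P : Matrix (Fin n) (Fin n) ℤ) : Finset ℕ :=
  P.det.natAbs.primeFactors.filter fun p => 2 ≤ crk P p

noncomputable def Ss (P : Matrix (Fin n) (Fin n) ℤ) : Finset ℕ := (SS P).filter fun p => p < n

noncomputable def Sb (P : Matrix (Fin n) (Fin n) ℤ) : Finset ℕ := (SS P).filter fun p => n ≤ p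

/-- exponent of `p` in the determinant -/
noncomputable def vv (P : Matrix (Fin n) (Fin n) ℤ) (p : ℕ) : ℕ := P.det.natAbs.factorization p

/-- exceptional large primes of a column -/
noncomputable def Bx (P : Matrix (Fin n) (Fin n) ℤ) (x : Fin n → Bool) : Finset ℕ :=
  (Sb P).filter fun p => (od P x).factorization p ≠ 0 ∧ vv P p ≠ 2 * (od P x).factorization p

open Classical in
/-- exponents of a column -/
noncomputable def ax (P : Matrix (Fin n) (Fin n) ℤ) (x : Fin n → Bool) : ℕ → ℕ := fun p =>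
  if p ∈ Ss P ∪ Bx P x then (od P x).factorization p else 0

theorem Ss_prime {p : ℕ} (hp : p ∈ SS P) : p.Prime :=
  Nat.prime_of_mem_primeFactors (mem_filter.1 hp).1

theorem Ss_sub : Ss P ⊆ SS P := filter_subset _ _
theorem Sb_sub : Sb P ⊆ SS P := filter_subset _ _

theorem disj_Ss_Sb : Disjoint (Ss P) (Sb P) := by
  rw [Finset.disjoint_left]
  intro p hp hp'
  have h1 := (mem_filter.1 hp).2
  have h2 := (mem_filter.1 hp').2
  omega

/-- the conditions on a column -/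
def Good (P : Matrix (Fin n) (Fin n) ℤ) (ζ X w : ℝ) (T : ℕ) (x : Fin n → Bool) : Prop :=
  ∃ (v' : Fin n → ℤ) (e c : ℤ), Col P x v' e c ∧ (∀ i, |(v' i : ℝ)| ≤ X * |(e : ℝ)|) ∧
    (bigSet P e).card ≤ T ∧ lcost ζ n e c ≤ w

theorem kil_le (hd : P.det ≠ 0) {p : ℕ} (hp : p.Prime) (hpS : p ∉ SS P) :
    Nat.card {x : Coker P // p • x = 0} ≤ p := by
  have hne : P.det.natAbs ≠ 0 := by simpa using hd
  have hfinite : Finite (Coker P) := Nat.finite_of_card_ne_zero (by rw [card_coker P hd]; exact hne)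
  let : Fintype (Coker P) := Fintype.ofFinite (Coker P)
  by_cases h : p ∣ P.det.natAbs
  · rw [card_kil_eq]
    refine (card_kil_coker P hd hp).trans ?_
    have h1 : ¬ 2 ≤ crk P p := by
      intro h2
      exact hpS (mem_filter.2 ⟨Nat.mem_primeFactors.2 ⟨hp, h, hne⟩, h2⟩)
    have h3 : crk P p ≤ 1 := by omega
    calc p ^ (n - (P.map (Int.cast : ℤ → ZMod p)).rank) = p ^ crk P p := rfl
      _ ≤ p ^ 1 := Nat.pow_le_pow_right hp.pos h3
      _ = p := pow_one p
  · have h1 : Subsingleton {x : Coker P // p • x = 0} := by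
      refine ⟨fun x y => ?_⟩
      have key : ∀ z : {x : Coker P // p • x = 0}, z.1 = 0 := by
        intro z
        have h2 : addOrderOf z.1 ∣ p := addOrderOf_dvd_of_nsmul_eq_zero z.2
        have h3 : addOrderOf z.1 ∣ P.det.natAbs := by
          rw [← card_coker P hd]; exact addOrderOf_dvd_natCard _
        have h4 : addOrderOf z.1 = 1 := by
          rcases (Nat.dvd_prime hp).1 h2 with h | h'
          · exact h
          · rw [h'] at h3; exact absurd h3 h
        exact AddMonoid.addOrderOf_eq_one_iff.1 h4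
      exact Subtype.ext (by rw [key x, key y])
    have h2 : Nat.card {x : Coker P // p • x = 0} ≤ 1 := Finite.card_le_one_iff_subsingleton.2 h1
    exact h2.trans hp.one_lt.le

/-- columns in an isotropic subgroup -/
theorem iso_count (hP : P.transpose = P) (hd : P.det ≠ 0) {X M : ℝ} (hX : 1 ≤ X) {ζ w : ℝ} {T : ℕ}
    (hM : ∀ L, Over P L → ((cls P L 0 X).ncard : ℝ) ≤ M) (L : AddSubgroup (Coker P))
    (hL : ∀ u ∈ L, ∀ v ∈ L, cokPair P hP u v = 0) (Y : Finset (Fin n → Bool))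
    (hY : ∀ x ∈ Y, Good P ζ X w T x) :
    Nat.card {y : Fin n → Bool // y ∈ Y ∧ cl P y ∈ L} ≤ ⌊M⌋₊ := by
  classical
  have h0 := hM (ov P L) (ov_over P hP hd L hL)
  have h1 : (cls P (ov P L) 0 X).ncard ≤ ⌊M⌋₊ := Nat.le_floor h0
  refine le_trans ?_ h1
  have hfin : (cls P (ov P L) 0 X).Finite := by
    apply Set.Finite.subset (Set.finite_range (bz (n := n)))
    rintro y ⟨⟨S, hS, hy⟩, -, -, -⟩
    refine ⟨fun i => decide (y i = 1), ?_⟩
    ext i
    have hSi : i ∉ S := by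
      have : S = ∅ := card_eq_zero.1 (Nat.le_zero.1 hS)
      rw [this]; simp
    rcases hy i hSi with h | h <;> simp [bz, h]
  have h2 : Nat.card {y : Fin n → Bool // y ∈ Y ∧ cl P y ∈ L} = ({y : Fin n → Bool | y ∈ Y ∧ cl P y ∈ L}).ncard := rfl
  rw [h2, ← Set.ncard_image_of_injective _ bz_inj]
  apply Set.ncard_le_ncard _ hfin
  rintro _ ⟨x, ⟨hxY, hxL⟩, rfl⟩
  obtain ⟨v', e, c, hcol, hb, -, -⟩ := hY x hxY
  have he := e_ne hd hcol
  have heq : (e : ℚ) ≠ 0 := by exact_mod_cast he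
  -- `dual P x = - v' / e`
  have hdual : dual P (bz x) = fun i => - (v' i : ℚ) / e := by
    apply PQ_inj P hd
    rw [PQ_dual P hd]
    have h3 : (fun i => - (v' i : ℚ) / e) = (-(1 : ℚ) / e) • fun i => (v' i : ℚ) := by
      ext i; simp only [Pi.smul_apply, smul_eq_mul]; ring
    have hk : P *ᵥ v' = - e • bz x := hcol.ker
    rw [h3, mulVec_smul, PQ_cast, hk]
    ext i
    simp only [Pi.smul_apply, smul_eq_mul]
    push_cast
    field_simp
  refine ⟨⟨∅, le_rfl, ?_⟩, ?_, ?_, ?_⟩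
  · intro i _
    unfold bz
    split_ifs
    · right; rfl
    · left; rfl
  · intro i
    unfold bz
    split_ifs
    · simpa using hX
    · simpa using le_trans zero_le_one hX
  · rw [mem_ov]
    exact ⟨bz x, PQ_dual P hd _, hxL⟩
  · intro i
    rw [hdual]
    have her : (0 : ℝ) < |(e : ℝ)| := abs_pos.2 (by exact_mod_cast he)
    push_cast
    rw [abs_div, abs_neg, div_le_iff₀ her]
    exact hb i

theorem M_nonneg (hP : P.transpose = P) (hd : P.det ≠ 0) {X M : ℝ}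
    (hM : ∀ L, Over P L → ((cls P L 0 X).ncard : ℝ) ≤ M) : 0 ≤ M := by
  have h := hM (ov P ⊥) (ov_over P hP hd ⊥ (by
    intro u hu v hv
    rw [AddSubgroup.mem_bot] at hu
    rw [hu]; simp))
  exact le_trans (Nat.cast_nonneg _) h

/-- `q_p` divides `p` for the large primes -/
theorem qp_dvd {ζ : ℝ} (hζ : 0 < ζ) (hn : 1 ≤ n) {p : ℕ} (hp : p.Prime) (hnp : n ≤ p) : qp ζ n p ∣ p := by
  unfold qp
  have hn1 : (1 : ℝ) ≤ n := by exact_mod_cast hn
  have h1 : ⌈(n : ℝ) ^ (1 / 2 - ζ)⌉₊ ≤ p ^ 1 := by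
    rw [pow_one]
    refine le_trans ?_ hnp
    rw [Nat.ceil_le]
    calc (n : ℝ) ^ (1 / 2 - ζ) ≤ (n : ℝ) ^ (1 : ℝ) := Real.rpow_le_rpow_of_exponent_le hn1 (by linarith)
      _ = n := Real.rpow_one _
  have h2 := Nat.clog_le_of_le_pow h1
  calc p ^ Nat.clog p ⌈(n : ℝ) ^ (1 / 2 - ζ)⌉₊ ∣ p ^ 1 := pow_dvd_pow p h2
    _ = p := pow_one p

/-- a class of columns with the same data -/
theorem class_count (hn : 3 ≤ n) (hP : P.transpose = P) (hd : P.det ≠ 0) {X M : ℝ} (hX : 1 ≤ X) {ζ w : ℝ}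
    {T : ℕ} (hM : ∀ L, Over P L → ((cls P L 0 X).ncard : ℝ) ≤ M) [NeZero P.det.natAbs] [Fintype (Coker P)]
    (Y : Finset (Fin n → Bool))
    (hY : ∀ x ∈ Y, Good P ζ X w T x) (B : Finset ℕ) (a : ℕ → ℕ) (hB : B ⊆ Sb P)
    (hYB : ∀ x ∈ Y, Bx P x = B) (hYa : ∀ x ∈ Y, ax P x = a) :
    ((Y.card : ℕ) : ℝ) ≤ 2 ^ T * (∏ p ∈ Ss P ∪ B, ((Tp (cokPair P hP) p (a p)).card : ℝ)) * M := by
  classical
  have hdisj : Disjoint (Ss P ∪ B) (Sb P \ B) := by
    rw [Finset.disjoint_union_left]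
    refine ⟨?_, Finset.disjoint_sdiff⟩
    exact Finset.disjoint_of_subset_right sdiff_subset disj_Ss_Sb
  have hun : Ss P ∪ B ∪ (Sb P \ B) = SS P := by
    rw [union_assoc, union_sdiff_of_subset hB]
    ext p
    simp only [mem_union, Ss, Sb, mem_filter]
    constructor
    · rintro (h | h) <;> exact h.1
    · intro h
      rcases Nat.lt_or_ge p n with h' | h'
      · left; exact ⟨h, h'⟩
      · right; exact ⟨h, h'⟩
  have key := LabVec.vec_count (cokPair P hP) (cokPair_symm P hP) (cokPair_nondeg P hP hd)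
    (Ss P ∪ B) (Sb P \ B) hdisj (by rw [hun]; exact fun p hp => Ss_prime hp)
    (by rw [hun]; exact fun p hp hpS => kil_le hd hp hpS) a T ⌊M⌋₊ Y (cl P)
    (fun L hL => iso_count hP hd hX hM L hL Y hY)
    (by
      intro y hy
      obtain ⟨v', e, c, hcol, -⟩ := hY y hy
      exact iso_cl hP hd hcol)
    (by
      intro y hy p hp
      have h1 := congrFun (hYa y hy) p
      unfold ax at h1
      rw [hYB y hy, if_pos hp] at h1
      exact h1)
    (by
      intro y hy p hp hpo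
      have hpb := (mem_sdiff.1 hp)
      have hpr := Ss_prime (Sb_sub hpb.1)
      have hpn : n ≤ p := (mem_filter.1 hpb.1).2
      refine ⟨by omega, ?_⟩
      have h1 : p ∉ Bx P y := by rw [hYB y hy]; exact hpb.2
      unfold Bx at h1
      rw [mem_filter] at h1
      push Not at h1
      have h2 := h1 hpb.1
      have hop : addOrderOf (cl P y) ≠ 0 := (addOrderOf_pos _).ne'
      have h3 : (od P y).factorization p ≠ 0 := (hpr.factorization_pos_of_dvd hop hpo).ne'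
      have h4 := h2 h3
      rw [card_coker P hd]
      exact h4)
    (by
      intro y hy
      obtain ⟨v', e, c, hcol, -, hT, -⟩ := hY y hy
      refine le_trans (card_le_card ?_) hT
      intro p hp
      rw [mem_filter, mem_sdiff] at hp
      obtain ⟨⟨hpb, -⟩, hpo⟩ := hp
      rw [order_cl hd hcol] at hpo
      have h1 := mem_filter.1 hpb
      have h2 := mem_filter.1 h1.1
      refine mem_filter.2 ⟨Nat.mem_primeFactors.2 ⟨Ss_prime (Sb_sub hpb), hpo, ?_⟩, h1.2, h2.2⟩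
      simpa using e_ne hd hcol)
  have hM0 := M_nonneg hP hd hM
  calc ((Y.card : ℕ) : ℝ) ≤ ((2 ^ T * (∏ p ∈ Ss P ∪ B, (Tp (cokPair P hP) p (a p)).card) * ⌊M⌋₊ : ℕ) : ℝ) := by
        exact_mod_cast key
    _ = 2 ^ T * (∏ p ∈ Ss P ∪ B, ((Tp (cokPair P hP) p (a p)).card : ℝ)) * (⌊M⌋₊ : ℝ) := by push_cast; rfl
    _ ≤ _ := mul_le_mul_of_nonneg_left (Nat.floor_le hM0) (by positivity)

/-- the first local factor -/
noncomputable def f1 (ζ : ℝ) (n : ℕ) (e c : ℤ) (p : ℕ) : ℝ :=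
  if p ∈ e.natAbs.primeFactors.filter (fun p => ((qp ζ n p : ℕ) : ℤ) ∣ e) then
    (p : ℝ) ^ (c.natAbs.factorization p) else 1

/-- the crude primes -/
noncomputable def Sc (P : Matrix (Fin n) (Fin n) ℤ) (ζ : ℝ) : Finset ℕ :=
  (Ss P).filter fun p => (p : ℝ) < (n : ℝ) ^ (1 / 2 - ζ)

open Classical in
/-- the second local factor -/
noncomputable def f2 (P : Matrix (Fin n) (Fin n) ℤ) (ζ H : ℝ) (p : ℕ) : ℝ := if p ∈ Sc P ζ then H else 1

theorem one_le_f1 {ζ : ℝ} {e c : ℤ} {p : ℕ} : 1 ≤ f1 ζ n e c p := by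
  unfold f1
  split_ifs with h
  · have : 1 ≤ p := (Nat.prime_of_mem_primeFactors (mem_filter.1 h).1).one_lt.le
    exact one_le_pow₀ (by exact_mod_cast this)
  · exact le_rfl

theorem one_le_f2 {ζ H : ℝ} (hH : 1 ≤ H) {p : ℕ} : 1 ≤ f2 P ζ H p := by
  unfold f2; split_ifs
  · exact hH
  · exact le_rfl

/-- **local bound** -/
theorem local_le (hn : 3 ≤ n) (hP : P.transpose = P) (hd : P.det ≠ 0) {ζ : ℝ} (hζ : 0 < ζ)
    [NeZero P.det.natAbs] [Fintype (Coker P)] {H : ℝ} (hH : 1 ≤ H)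
    (hcor : ∀ p : ℕ, p.Prime → (n : ℝ) ^ (crk P p) ≤ H) {x : Fin n → Bool} {v' : Fin n → ℤ} {e c : ℤ}
    (hcol : Col P x v' e c) {B : Finset ℕ} (hB : B ⊆ Sb P) {p : ℕ} (hp : p ∈ Ss P ∪ B) :
    ((Tp (cokPair P hP) p (e.natAbs.factorization p)).card : ℝ) ≤
      4 * ((vv P p : ℝ) + 1) * (f1 ζ n e c p * f2 P ζ H p) := by
  classical
  have hpS : p ∈ SS P := by
    rcases mem_union.1 hp with h | h
    · exact Ss_sub h
    · exact Sb_sub (hB h)
  have hpr := Ss_prime hpS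
  have hf12 : 1 ≤ f1 ζ n e c p * f2 P ζ H p := one_le_mul_of_one_le_of_one_le one_le_f1 (one_le_f2 hH)
  have hvv : vv P p = c.natAbs.factorization p + 2 * e.natAbs.factorization p := fact_det hd hcol p
  set a := e.natAbs.factorization p with ha
  have hT := card_Tp (cokPair P hP) (cokPair_symm P hP) (cokPair_nondeg P hP hd) hpr a
  rw [card_coker P hd] at hT
  have hv0 : (0 : ℝ) ≤ vv P p := Nat.cast_nonneg _
  have h4 : (1 : ℝ) ≤ 4 * ((vv P p : ℝ) + 1) := by linarith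
  by_cases ha0 : a = 0
  · have h1 : ((Tp (cokPair P hP) p a).card : ℝ) ≤ 1 := by
      refine hT.trans ?_
      unfold tb; rw [if_pos ha0]
    exact h1.trans (one_le_mul_of_one_le_of_one_le h4 hf12)
  · have hpe : p ∣ e.natAbs := Nat.dvd_of_factorization_pos ha0
    have hen : e.natAbs ≠ 0 := by simpa using e_ne hd hcol
    have hp0 : (0 : ℝ) < p := by exact_mod_cast hpr.pos
    by_cases hq : ((qp ζ n p : ℕ) : ℤ) ∣ e
    · have hmem : p ∈ e.natAbs.primeFactors.filter (fun p => ((qp ζ n p : ℕ) : ℤ) ∣ e) :=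
        mem_filter.2 ⟨Nat.mem_primeFactors.2 ⟨hpr, hpe, hen⟩, hq⟩
      have h1 : tb P.det.natAbs a p = 4 * ((a : ℝ) + 1) * (p : ℝ) ^ (c.natAbs.factorization p) := by
        unfold tb
        rw [if_neg ha0]
        have : P.det.natAbs.factorization p = c.natAbs.factorization p + 2 * a := hvv
        rw [this, pow_add]
        field_simp
      rw [h1] at hT
      refine hT.trans ?_
      have h2 : (a : ℝ) ≤ vv P p := by
        have : a ≤ vv P p := by omega
        exact_mod_cast this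
      have h3 : f1 ζ n e c p = (p : ℝ) ^ (c.natAbs.factorization p) := by
        unfold f1; rw [if_pos hmem]
      rw [h3]
      have h5 := one_le_f2 (P := P) (ζ := ζ) hH (p := p)
      have h6 : (0 : ℝ) ≤ (p : ℝ) ^ (c.natAbs.factorization p) := by positivity
      calc 4 * ((a : ℝ) + 1) * (p : ℝ) ^ (c.natAbs.factorization p)
          ≤ 4 * ((vv P p : ℝ) + 1) * (p : ℝ) ^ (c.natAbs.factorization p) := by gcongr
        _ ≤ 4 * ((vv P p : ℝ) + 1) * ((p : ℝ) ^ (c.natAbs.factorization p) * f2 P ζ H p) := by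
            apply mul_le_mul_of_nonneg_left _ (by positivity)
            exact le_mul_of_one_le_right h6 h5
    · -- the crude case
      have h1 : a < Nat.clog p ⌈(n : ℝ) ^ (1 / 2 - ζ)⌉₊ := by
        by_contra hcon
        push Not at hcon
        apply hq
        have h2 : qp ζ n p ∣ e.natAbs := (pow_dvd_pow p hcon).trans (Nat.ordProj_dvd e.natAbs p)
        exact Int.natCast_dvd.2 h2
      have h2 : p ^ a < ⌈(n : ℝ) ^ (1 / 2 - ζ)⌉₊ := (Nat.lt_clog_iff_pow_lt hpr.one_lt).1 h1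
      have h3 : ((p ^ a : ℕ) : ℝ) < (n : ℝ) ^ (1 / 2 - ζ) := Nat.lt_ceil.1 h2
      have hn1 : (1 : ℝ) ≤ n := by
        have : 1 ≤ n := by omega
        exact_mod_cast this
      have h4' : (n : ℝ) ^ (1 / 2 - ζ) ≤ n := by
        calc (n : ℝ) ^ (1 / 2 - ζ) ≤ (n : ℝ) ^ (1 : ℝ) := Real.rpow_le_rpow_of_exponent_le hn1 (by linarith)
          _ = n := Real.rpow_one _
      have h5 : (p : ℝ) ≤ ((p ^ a : ℕ) : ℝ) := by
        exact_mod_cast Nat.le_self_pow ha0 p
      have hplt : (p : ℝ) < (n : ℝ) ^ (1 / 2 - ζ) := lt_of_le_of_lt h5 h3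
      have hpn : p < n := by exact_mod_cast lt_of_lt_of_le hplt h4'
      have hpSs : p ∈ Ss P := mem_filter.2 ⟨hpS, hpn⟩
      have hmem : p ∈ Sc P ζ := mem_filter.2 ⟨hpSs, hplt⟩
      have h6 : f2 P ζ H p = H := by unfold f2; rw [if_pos hmem]
      have h7 : (Tp (cokPair P hP) p a).card ≤ (p ^ crk P p) ^ a :=
        (card_Tp_le_pow (cokPair P hP) p a).trans (Nat.pow_le_pow_left (card_kil_coker P hd hpr) a)
      have h8 : ((Tp (cokPair P hP) p a).card : ℝ) ≤ H := by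
        calc ((Tp (cokPair P hP) p a).card : ℝ) ≤ (((p ^ crk P p) ^ a : ℕ) : ℝ) := by exact_mod_cast h7
          _ = ((p ^ a : ℕ) : ℝ) ^ (crk P p) := by push_cast; rw [← pow_mul, ← pow_mul, mul_comm]
          _ ≤ (n : ℝ) ^ (crk P p) := pow_le_pow_left₀ (Nat.cast_nonneg _) (le_of_lt (lt_of_lt_of_le h3 h4')) _
          _ ≤ H := hcor p hpr
      have h9 := one_le_f1 (n := n) (ζ := ζ) (e := e) (c := c) (p := p)
      rw [h6]
      have hH0 : 0 ≤ H := by linarith
      calc ((Tp (cokPair P hP) p a).card : ℝ) ≤ H := h8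
        _ ≤ f1 ζ n e c p * H := le_mul_of_one_le_left hH0 h9
        _ ≤ 4 * ((vv P p : ℝ) + 1) * (f1 ζ n e c p * H) :=
            le_mul_of_one_le_left (mul_nonneg (by linarith) hH0) h4

/-- product of the first factors -/
theorem prod_f1 {ζ : ℝ} {e c : ℤ} (U : Finset ℕ) (w : ℝ) (hw : lcost ζ n e c ≤ w) :
    ∏ p ∈ U, f1 ζ n e c p ≤ (2 : ℝ) ^ w := by
  classical
  set F := e.natAbs.primeFactors.filter (fun p => ((qp ζ n p : ℕ) : ℤ) ∣ e) with hF
  have h1 : ∏ p ∈ U, f1 ζ n e c p = ∏ p ∈ U.filter (fun p => p ∈ F), (p : ℝ) ^ (c.natAbs.factorization p) := by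
    rw [prod_filter]; rfl
  have hpos : ∀ p ∈ F, (0 : ℝ) < p := fun p hp => by
    exact_mod_cast (Nat.prime_of_mem_primeFactors (mem_filter.1 hp).1).pos
  have h2 : ∏ p ∈ U.filter (fun p => p ∈ F), (p : ℝ) ^ (c.natAbs.factorization p) =
      (2 : ℝ) ^ (∑ p ∈ U.filter (fun p => p ∈ F), (c.natAbs.factorization p : ℝ) * Real.logb 2 p) := by
    rw [Real.rpow_sum_of_pos (by norm_num)]
    refine prod_congr rfl fun p hp => ?_
    have hp0 := hpos p (mem_filter.1 hp).2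
    rw [mul_comm, Real.rpow_mul (by norm_num), Real.rpow_logb (by norm_num) (by norm_num) hp0,
      Real.rpow_natCast]
  rw [h1, h2]
  apply Real.rpow_le_rpow_of_exponent_le (by norm_num)
  refine le_trans ?_ hw
  unfold lcost
  apply sum_le_sum_of_subset_of_nonneg
  · intro p hp; exact (mem_filter.1 hp).2
  · intro p hp _
    have h3 : (1 : ℝ) ≤ p := by
      exact_mod_cast (Nat.prime_of_mem_primeFactors (mem_filter.1 hp).1).one_lt.le
    exact mul_nonneg (Nat.cast_nonneg _) (Real.logb_nonneg (by norm_num) h3)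

theorem prod_f2 {ζ H : ℝ} (hH : 1 ≤ H) (U : Finset ℕ) : ∏ p ∈ U, f2 P ζ H p ≤ H ^ (Sc P ζ).card := by
  classical
  have h1 : ∏ p ∈ U, f2 P ζ H p = H ^ (U.filter (fun p => p ∈ Sc P ζ)).card := by
    unfold f2
    rw [← prod_filter, prod_const]
  rw [h1]
  apply pow_le_pow_right₀ hH
  apply card_le_card
  intro p hp; exact (mem_filter.1 hp).2

/-- the number of exceptional large primes -/
theorem card_B (hn : 3 ≤ n) (hd : P.det ≠ 0) {ζ : ℝ} (hζ : 0 < ζ) {x : Fin n → Bool} {v' : Fin n → ℤ} {e c : ℤ}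
    (hcol : Col P x v' e c) {w : ℝ} (hw : lcost ζ n e c ≤ w) :
    ((Bx P x).card : ℝ) * Real.logb 2 n ≤ w := by
  classical
  refine le_trans ?_ hw
  unfold lcost
  rw [← nsmul_eq_mul, ← sum_const]
  have hen : e.natAbs ≠ 0 := by simpa using e_ne hd hcol
  have hmem : ∀ p ∈ Bx P x, p ∈ e.natAbs.primeFactors.filter (fun p => ((qp ζ n p : ℕ) : ℤ) ∣ e) ∧
      Real.logb 2 n ≤ (c.natAbs.factorization p : ℝ) * Real.logb 2 p := by
    intro p hp
    obtain ⟨hpb, h1, h2⟩ := mem_filter.1 hp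
    have hpr := Ss_prime (Sb_sub hpb)
    have hnp : n ≤ p := (mem_filter.1 hpb).2
    have hod : od P x = e.natAbs := order_cl hd hcol
    rw [hod] at h1 h2
    have hpe : p ∣ e.natAbs := Nat.dvd_of_factorization_pos h1
    refine ⟨mem_filter.2 ⟨Nat.mem_primeFactors.2 ⟨hpr, hpe, hen⟩, ?_⟩, ?_⟩
    · exact Int.natCast_dvd.2 ((qp_dvd hζ (by omega) hpr hnp).trans hpe)
    · have hvv : vv P p = c.natAbs.factorization p + 2 * e.natAbs.factorization p := fact_det hd hcol p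
      have h3 : 1 ≤ c.natAbs.factorization p := by omega
      have h4 : (1 : ℝ) ≤ (c.natAbs.factorization p : ℝ) := by exact_mod_cast h3
      have hn0 : (0 : ℝ) < n := by
        have : 0 < n := by omega
        exact_mod_cast this
      have h5 : Real.logb 2 n ≤ Real.logb 2 p :=
        Real.logb_le_logb_of_le (by norm_num) hn0 (by exact_mod_cast hnp)
      have h6 : 0 ≤ Real.logb 2 p := Real.logb_nonneg (by norm_num) (by exact_mod_cast hpr.one_lt.le)
      calc Real.logb 2 n ≤ Real.logb 2 p := h5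
        _ ≤ _ := le_mul_of_one_le_left h6 h4
  calc ∑ _p ∈ Bx P x, Real.logb 2 n ≤ ∑ p ∈ Bx P x, (c.natAbs.factorization p : ℝ) * Real.logb 2 p :=
        sum_le_sum fun p hp => (hmem p hp).2
    _ ≤ _ := by
        apply sum_le_sum_of_subset_of_nonneg
        · intro p hp; exact (hmem p hp).1
        · intro p hp _
          have h3 : (1 : ℝ) ≤ p := by
            exact_mod_cast (Nat.prime_of_mem_primeFactors (mem_filter.1 hp).1).one_lt.le
          exact mul_nonneg (Nat.cast_nonneg _) (Real.logb_nonneg (by norm_num) h3)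

/-- **finite form of the count** -/
theorem fin_bound (hn : 3 ≤ n) (hP : P.transpose = P) (hd : P.det ≠ 0) {X M : ℝ} (hX : 1 ≤ X) {ζ w : ℝ}
    (hζ : 0 < ζ) {T : ℕ} (hM : ∀ L, Over P L → ((cls P L 0 X).ncard : ℝ) ≤ M) {H : ℝ} (hH : 1 ≤ H)
    (hcor : ∀ p : ℕ, p.Prime → (n : ℝ) ^ (crk P p) ≤ H) (Y : Finset (Fin n → Bool))
    (hY : ∀ x ∈ Y, Good P ζ X w T x) :
    ((Y.card : ℕ) : ℝ) ≤ 2 ^ T * (2 : ℝ) ^ w * H ^ (Sc P ζ).card * M *
      ((∏ p ∈ Ss P, (4 * ((vv P p : ℝ) + 1) ^ 2)) *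
      ∑ B ∈ (Sb P).powerset.filter (fun B => (B.card : ℝ) * Real.logb 2 n ≤ w),
        ∏ p ∈ B, (4 * ((vv P p : ℝ) + 1) ^ 2)) := by
  classical
  have hne : P.det.natAbs ≠ 0 := by simpa using hd
  have hfinite : Finite (Coker P) := Nat.finite_of_card_ne_zero (by rw [card_coker P hd]; exact hne)
  letI : Fintype (Coker P) := Fintype.ofFinite (Coker P)
  haveI : NeZero P.det.natAbs := ⟨hne⟩
  have hM0 := M_nonneg hP hd hM
  set K0 : ℝ := 2 ^ T * (2 : ℝ) ^ w * H ^ (Sc P ζ).card * M with hK0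
  have hw0 : (0 : ℝ) < (2 : ℝ) ^ w := Real.rpow_pos_of_pos (by norm_num) _
  have hHp : (0 : ℝ) < H := by linarith
  have hK0' : 0 ≤ K0 := by positivity
  have hB1 : ∀ B ∈ Y.image (Bx P), ((Y.filter (fun x => Bx P x = B)).card : ℝ) ≤
      K0 * ((∏ p ∈ Ss P, (4 * ((vv P p : ℝ) + 1) ^ 2)) * ∏ p ∈ B, (4 * ((vv P p : ℝ) + 1) ^ 2)) := by
    intro B hB
    obtain ⟨x0, hx0, hx0B⟩ := mem_image.1 hB
    have hBsub : B ⊆ Sb P := by rw [← hx0B]; exact filter_subset _ _
    set YB := Y.filter (fun x => Bx P x = B) with hYB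
    have hYB1 : ∀ x ∈ YB, x ∈ Y ∧ Bx P x = B := fun x hx => mem_filter.1 hx
    have hU : Disjoint (Ss P) B := Finset.disjoint_of_subset_right hBsub disj_Ss_Sb
    -- number of exponent functions
    have hc1 : (YB.image (ax P)).card ≤ ∏ p ∈ Ss P ∪ B, (vv P p + 1) := by
      apply card_fun_le
      intro a ha
      obtain ⟨x, hx, rfl⟩ := mem_image.1 ha
      obtain ⟨hxY, hxB⟩ := hYB1 x hx
      obtain ⟨v', e, c, hcol, -⟩ := hY x hxY
      have hod : od P x = e.natAbs := order_cl hd hcol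
      constructor
      · intro p hp
        unfold ax
        rw [hxB, if_pos hp, hod]
        have hvv : vv P p = c.natAbs.factorization p + 2 * e.natAbs.factorization p := fact_det hd hcol p
        omega
      · intro p hp
        unfold ax
        rw [hxB, if_neg hp]
    -- each fibre
    have hc2 : ∀ a ∈ YB.image (ax P), ((YB.filter (fun x => ax P x = a)).card : ℝ) ≤
        2 ^ T * ((∏ p ∈ Ss P ∪ B, (4 * ((vv P p : ℝ) + 1))) * ((2 : ℝ) ^ w * H ^ (Sc P ζ).card)) * M := by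
      intro a ha
      obtain ⟨x, hx, hxa⟩ := mem_image.1 ha
      obtain ⟨hxY, hxB⟩ := hYB1 x hx
      obtain ⟨v', e, c, hcol, -, -, hwx⟩ := hY x hxY
      have hod : od P x = e.natAbs := order_cl hd hcol
      have key := class_count hn hP hd hX (ζ := ζ) (w := w) (T := T) hM (YB.filter (fun x => ax P x = a))
        (fun y hy => hY y (hYB1 y (mem_filter.1 hy).1).1) B a hBsub
        (fun y hy => (hYB1 y (mem_filter.1 hy).1).2) (fun y hy => (mem_filter.1 hy).2)
      refine key.trans ?_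
      apply mul_le_mul_of_nonneg_right _ hM0
      apply mul_le_mul_of_nonneg_left _ (by positivity)
      have hap : ∀ p ∈ Ss P ∪ B, a p = e.natAbs.factorization p := by
        intro p hp
        rw [← hxa]; unfold ax
        rw [hxB, if_pos hp, hod]
      calc ∏ p ∈ Ss P ∪ B, ((Tp (cokPair P hP) p (a p)).card : ℝ)
          ≤ ∏ p ∈ Ss P ∪ B, (4 * ((vv P p : ℝ) + 1) * (f1 ζ n e c p * f2 P ζ H p)) := by
            refine prod_le_prod (fun p _ => Nat.cast_nonneg _) fun p hp => ?_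
            rw [hap p hp]
            exact local_le hn hP hd hζ hH hcor hcol hBsub hp
        _ = (∏ p ∈ Ss P ∪ B, (4 * ((vv P p : ℝ) + 1))) *
            ((∏ p ∈ Ss P ∪ B, f1 ζ n e c p) * ∏ p ∈ Ss P ∪ B, f2 P ζ H p) := by
            simp only [prod_mul_distrib]
        _ ≤ _ := by
            apply mul_le_mul_of_nonneg_left _ (prod_nonneg fun p _ => by positivity)
            exact mul_le_mul (prod_f1 _ w hwx) (prod_f2 hH _)
              (prod_nonneg fun p _ => le_trans zero_le_one (one_le_f2 hH)) hw0.le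
    calc ((YB.card : ℕ) : ℝ) = ∑ a ∈ YB.image (ax P), ((YB.filter (fun x => ax P x = a)).card : ℝ) := by
          rw [card_eq_sum_card_image (ax P) YB]; push_cast; rfl
      _ ≤ ∑ _a ∈ YB.image (ax P),
          2 ^ T * ((∏ p ∈ Ss P ∪ B, (4 * ((vv P p : ℝ) + 1))) * ((2 : ℝ) ^ w * H ^ (Sc P ζ).card)) * M :=
          sum_le_sum hc2
      _ = ((YB.image (ax P)).card : ℝ) *
          (2 ^ T * ((∏ p ∈ Ss P ∪ B, (4 * ((vv P p : ℝ) + 1))) * ((2 : ℝ) ^ w * H ^ (Sc P ζ).card)) * M) := by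
          rw [sum_const, nsmul_eq_mul]
      _ ≤ (∏ p ∈ Ss P ∪ B, ((vv P p : ℝ) + 1)) *
          (2 ^ T * ((∏ p ∈ Ss P ∪ B, (4 * ((vv P p : ℝ) + 1))) * ((2 : ℝ) ^ w * H ^ (Sc P ζ).card)) * M) := by
          apply mul_le_mul_of_nonneg_right
          · have := (Nat.cast_le (α := ℝ)).2 hc1
            push_cast at this
            exact this
          · have : 0 ≤ ∏ p ∈ Ss P ∪ B, (4 * ((vv P p : ℝ) + 1)) := prod_nonneg fun p _ => by positivity
            positivity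
      _ = K0 * ∏ p ∈ Ss P ∪ B, (4 * ((vv P p : ℝ) + 1) ^ 2) := by
          have : ∏ p ∈ Ss P ∪ B, (4 * ((vv P p : ℝ) + 1) ^ 2) =
              (∏ p ∈ Ss P ∪ B, ((vv P p : ℝ) + 1)) * ∏ p ∈ Ss P ∪ B, (4 * ((vv P p : ℝ) + 1)) := by
            rw [← prod_mul_distrib]
            exact prod_congr rfl fun p _ => by ring
          rw [this, hK0]; ring
      _ = _ := by rw [prod_union hU]
  have hA0 : 0 ≤ ∏ p ∈ Ss P, (4 * ((vv P p : ℝ) + 1) ^ 2) := prod_nonneg fun p _ => by positivity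
  calc ((Y.card : ℕ) : ℝ) = ∑ B ∈ Y.image (Bx P), ((Y.filter (fun x => Bx P x = B)).card : ℝ) := by
        rw [card_eq_sum_card_image (Bx P) Y]; push_cast; rfl
    _ ≤ ∑ B ∈ Y.image (Bx P),
        K0 * ((∏ p ∈ Ss P, (4 * ((vv P p : ℝ) + 1) ^ 2)) * ∏ p ∈ B, (4 * ((vv P p : ℝ) + 1) ^ 2)) :=
        sum_le_sum hB1
    _ ≤ ∑ B ∈ (Sb P).powerset.filter (fun B => (B.card : ℝ) * Real.logb 2 n ≤ w),
        K0 * ((∏ p ∈ Ss P, (4 * ((vv P p : ℝ) + 1) ^ 2)) * ∏ p ∈ B, (4 * ((vv P p : ℝ) + 1) ^ 2)) := by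
        apply sum_le_sum_of_subset_of_nonneg
        · intro B hB
          obtain ⟨x, hx, rfl⟩ := mem_image.1 hB
          obtain ⟨v', e, c, hcol, -, -, hwx⟩ := hY x hx
          exact mem_filter.2 ⟨mem_powerset.2 (filter_subset _ _), card_B hn hd hζ hcol hwx⟩
        · intro B _ _
          have : 0 ≤ ∏ p ∈ B, (4 * ((vv P p : ℝ) + 1) ^ 2) := prod_nonneg fun p _ => by positivity
          positivity
    _ = _ := by rw [← mul_sum, ← mul_sum]

theorem card_Sc (hn : 1 ≤ n) (ζ : ℝ) : ((Sc P ζ).card : ℝ) ≤ (n : ℝ) ^ (1 / 2 - ζ) := by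
  have hr : 0 ≤ (n : ℝ) ^ (1 / 2 - ζ) := by positivity
  have h1 : Sc P ζ ⊆ Finset.Icc 1 ⌊(n : ℝ) ^ (1 / 2 - ζ)⌋₊ := by
    intro p hp
    obtain ⟨hp1, hp2⟩ := mem_filter.1 hp
    rw [mem_Icc]
    exact ⟨(Ss_prime (Ss_sub hp1)).one_lt.le, Nat.le_floor hp2.le⟩
  have h2 := card_le_card h1
  rw [Nat.card_Icc, Nat.add_sub_cancel] at h2
  calc ((Sc P ζ).card : ℝ) ≤ (⌊(n : ℝ) ^ (1 / 2 - ζ)⌋₊ : ℝ) := by exact_mod_cast h2
    _ ≤ _ := Nat.floor_le hr

end Fin

open Classical in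
/-- **CNT** -/
theorem cnt (ζ : ℝ) (hζ : 0 < ζ) : CntStmt ζ := by
  intro ε W R hε hW
  have hε3 : 0 < ε / 3 := by positivity
  obtain ⟨n₁, h₁⟩ := SmallP.small_labels_fact (ε / 3) 1 hε3 zero_le_one 4 2 1 (by norm_num)
  obtain ⟨n₂, h₂⟩ := big_sum (ε / 3) W hε3 hW
  obtain ⟨n₃, h₃⟩ := crude (ε / 3) R ζ hε3 hζ
  refine ⟨max (max n₁ n₂) (max n₃ 3), fun n hn P hsymm hd hD hcorok X M w T hw hX hM => ?_⟩
  have hn1 : n₁ ≤ n := le_trans (le_trans (le_max_left _ _) (le_max_left _ _)) hn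
  have hn2 : n₂ ≤ n := le_trans (le_trans (le_max_right _ _) (le_max_left _ _)) hn
  have hn3 : n₃ ≤ n := le_trans (le_trans (le_max_left _ _) (le_max_right _ _)) hn
  have hn' : 3 ≤ n := le_trans (le_trans (le_max_right _ _) (le_max_right _ _)) hn
  have hP : P.transpose = P := hsymm
  have hnr : (1 : ℝ) ≤ n := by
    have : 1 ≤ n := by omega
    exact_mod_cast this
  have hn0 : (0 : ℝ) < n := by linarith
  have hne : P.det.natAbs ≠ 0 := by simpa using hd
  set H : ℝ := (n : ℝ) ^ (|R| * Real.sqrt n) with hHdef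
  have hH : 1 ≤ H := Real.one_le_rpow hnr (by positivity)
  have hcor : ∀ p : ℕ, p.Prime → (n : ℝ) ^ (crk P p) ≤ H := by
    intro p hp
    rw [← Real.rpow_natCast, hHdef]
    apply Real.rpow_le_rpow_of_exponent_le hnr
    refine (hcorok p hp).trans ?_
    exact mul_le_mul_of_nonneg_right (le_abs_self R) (Real.sqrt_nonneg _)
  have hM0 := M_nonneg hP hd hM
  refine le_trans (fin_bound hn' hP hd hX (w := w) (T := T) hζ hM hH hcor _ (fun x hx => (mem_filter.1 hx).2)) ?_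
  -- the three error terms
  have e1 : ∏ p ∈ Ss P, (4 * ((vv P p : ℝ) + 1) ^ 2) ≤ (2 : ℝ) ^ (ε / 3 * n) := by
    refine le_trans ?_ (h₁ n hn1 (Ss P) P.det.natAbs ?_ hne ?_)
    · refine prod_le_prod (fun p _ => by positivity) fun p _ => ?_
      have : (0 : ℝ) ≤ vv P p := Nat.cast_nonneg _
      unfold vv at this ⊢
      push_cast
      nlinarith
    · intro p hp
      exact ⟨Ss_prime (Ss_sub hp), by have := (mem_filter.1 hp).2; omega⟩
    · rw [one_mul, Real.rpow_natCast]; exact hD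
  have e2 : ∑ B ∈ (Sb P).powerset.filter (fun B => (B.card : ℝ) * Real.logb 2 n ≤ w),
      ∏ p ∈ B, (4 * ((vv P p : ℝ) + 1) ^ 2) ≤ (2 : ℝ) ^ (ε / 3 * n) := by
    refine h₂ n hn2 (Sb P) (vv P) w hw ?_ ?_
    · intro p hp
      have hp1 := mem_filter.1 (Sb_sub hp)
      have hp2 := Nat.mem_primeFactors.1 hp1.1
      exact (hp2.1.factorization_pos_of_dvd hne hp2.2.1)
    · have hlogn : 0 < Real.log n := Real.log_pos (by
        have : 1 < n := by omega
        exact_mod_cast this)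
      have h5 := SmallP.sum_fact_le P.det.natAbs (Sb P)
      have hD0 : (0 : ℝ) < (P.det.natAbs : ℝ) := by exact_mod_cast Nat.pos_of_ne_zero hne
      have h6 : Real.log (P.det.natAbs : ℝ) ≤ n * Real.log n := by
        have := Real.log_le_log hD0 hD
        rwa [Real.log_pow] at this
      have h7 : ((∑ p ∈ Sb P, vv P p : ℕ) : ℝ) * Real.log n ≤
          ∑ p ∈ Sb P, (P.det.natAbs.factorization p : ℝ) * Real.log p := by
        push_cast
        rw [sum_mul]
        refine sum_le_sum fun p hp => ?_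
        apply mul_le_mul_of_nonneg_left _ (Nat.cast_nonneg _)
        exact Real.log_le_log hn0 (by exact_mod_cast (mem_filter.1 hp).2)
      exact le_of_mul_le_mul_right (h7.trans (h5.trans h6)) hlogn
  have e3 : H ^ (Sc P ζ).card ≤ (2 : ℝ) ^ (ε / 3 * n) := by
    have h5 : H ^ (Sc P ζ).card = (2 : ℝ) ^ (((Sc P ζ).card : ℝ) * ((|R| * Real.sqrt n) * Real.logb 2 n)) := by
      rw [hHdef, ← Real.rpow_natCast, ← Real.rpow_mul hn0.le]
      have h6 : (n : ℝ) = (2 : ℝ) ^ (Real.logb 2 n) := (Real.rpow_logb (by norm_num) (by norm_num) hn0).symm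
      conv_lhs => rw [h6]
      rw [← Real.rpow_mul (by norm_num)]
      rw [← h6]
      congr 1; ring
    rw [h5]
    apply Real.rpow_le_rpow_of_exponent_le (by norm_num)
    refine le_trans ?_ (h₃ n hn3)
    apply mul_le_mul_of_nonneg_right (card_Sc (by omega) ζ)
    have : 0 ≤ Real.logb 2 n := Real.logb_nonneg (by norm_num) hnr
    positivity
  have hS0 : 0 ≤ ∑ B ∈ (Sb P).powerset.filter (fun B => (B.card : ℝ) * Real.logb 2 n ≤ w),
      ∏ p ∈ B, (4 * ((vv P p : ℝ) + 1) ^ 2) := sum_nonneg fun B _ => prod_nonneg fun p _ => by positivity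
  have h20 : (0 : ℝ) < 2 ^ (ε / 3 * n) := Real.rpow_pos_of_pos (by norm_num) _
  have hw0 : (0 : ℝ) < (2 : ℝ) ^ w := Real.rpow_pos_of_pos (by norm_num) _
  have hH0 : (0 : ℝ) ≤ H ^ (Sc P ζ).card := by positivity
  calc 2 ^ T * (2 : ℝ) ^ w * H ^ (Sc P ζ).card * M * ((∏ p ∈ Ss P, (4 * ((vv P p : ℝ) + 1) ^ 2)) *
        ∑ B ∈ (Sb P).powerset.filter (fun B => (B.card : ℝ) * Real.logb 2 n ≤ w),
          ∏ p ∈ B, (4 * ((vv P p : ℝ) + 1) ^ 2))
      ≤ 2 ^ T * (2 : ℝ) ^ w * (2 : ℝ) ^ (ε / 3 * n) * M * ((2 : ℝ) ^ (ε / 3 * n) * (2 : ℝ) ^ (ε / 3 * n)) := by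
        gcongr
    _ = M * (2 : ℝ) ^ (T + w + ε * n) := by
        have h5 : (2 : ℝ) ^ ((T : ℝ) + w + ε * n) = 2 ^ T * (2 : ℝ) ^ w *
            ((2 : ℝ) ^ (ε / 3 * n) * (2 : ℝ) ^ (ε / 3 * n) * (2 : ℝ) ^ (ε / 3 * n)) := by
          rw [← Real.rpow_natCast 2 T, ← Real.rpow_add (by norm_num), ← Real.rpow_add (by norm_num),
            ← Real.rpow_add (by norm_num), ← Real.rpow_add (by norm_num)]
          congr 1; ring
        rw [h5]; ring

end Vale.Agent.P160.Half.F.Cnt454
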