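import Vale.Agent.P160.Half.Fin.FStmt

import Vale.Agent.P160.Half.LabCok

/-! # P160, rate 1/2: the label count for the columns, algebraic preparation (helper454)

`x` a column over the minor `P`: its class in the cokernel has order `|e|` and is isotropic; an isotropic
subgroup of the cokernel is an integral overlattice. -/

set_option linter.unusedSectionVars false
set_option linter.unusedVariables false

namespace Vale.Agent.P160.Half.F.Cnt454

open Finset Matrix Vale.Agent.P160.Half Vale.Agent.P160.Half.A Vale.Agent.P160.Half.F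
  Vale.Agent.P160.Half.Labels Vale.Agent.P160.Half.LabMax Vale.Agent.P160.Half.LabVec

variable {n : ℕ}

/-- bits as integers -/
def bz (x : Fin n → Bool) : Fin n → ℤ := fun i => if x i then 1 else 0

theorem bz_inj : Function.Injective (bz (n := n)) := by
  intro x y h
  ext i
  have := congrFun h i
  unfold bz at this
  cases hx : x i <;> cases hy : y i <;> simp_all

theorem mulVec_inj {P : Matrix (Fin n) (Fin n) ℤ} (hd : P.det ≠ 0) {z w : Fin n → ℤ}
    (h : P *ᵥ z = P *ᵥ w) : z = w := by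
  have h2 : P.adjugate *ᵥ (P *ᵥ z) = P.adjugate *ᵥ (P *ᵥ w) := by rw [h]
  rw [mulVec_mulVec, mulVec_mulVec, adjugate_mul, smul_mulVec, smul_mulVec, one_mulVec,
    one_mulVec] at h2
  exact smul_right_injective _ hd h2

/-- class of the column in the cokernel -/
def cl (P : Matrix (Fin n) (Fin n) ℤ) (x : Fin n → Bool) : Coker P := QuotientAddGroup.mk (bz x)

section Col

variable {P : Matrix (Fin n) (Fin n) ℤ} {x : Fin n → Bool} {v' : Fin n → ℤ} {e c : ℤ}

theorem e_ne (hd : P.det ≠ 0) (h : Col P x v' e c) : e ≠ 0 := by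
  intro h0
  apply hd
  rw [h.det, h0]; ring

theorem c_ne (hd : P.det ≠ 0) (h : Col P x v' e c) : c ≠ 0 := by
  intro h0
  apply hd
  rw [h.det, h0]; ring

theorem nsmul_cl (hd : P.det ≠ 0) (h : Col P x v' e c) (k : ℕ) :
    k • cl P x = 0 ↔ e.natAbs ∣ k := by
  have he := e_ne hd h
  have hk : P *ᵥ v' = - e • bz x := h.ker
  unfold cl
  rw [← QuotientAddGroup.mk_nsmul, QuotientAddGroup.eq_zero_iff, mem_lat]
  constructor
  · rintro ⟨z, hz⟩
    have h1 : P *ᵥ (e • z) = P *ᵥ (-(k : ℤ) • v') := by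
      rw [mulVec_smul, mulVec_smul, hz, hk, smul_smul, ← natCast_zsmul, smul_smul]
      congr 1; ring
    have h2 := mulVec_inj hd h1
    obtain ⟨a, a0, ha⟩ := h.prim
    have h3 : ∀ i, (k : ℤ) * v' i = - (e * z i) := by
      intro i
      have := congrFun h2 i
      simp only [Pi.smul_apply, smul_eq_mul] at this
      linarith
    have h4 : (k : ℤ) = e * (∑ i, a i * (- z i) + a0 * k) := by
      calc (k : ℤ) = (k : ℤ) * (∑ i, a i * v' i + a0 * e) := by rw [ha, mul_one]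
        _ = ∑ i, a i * ((k : ℤ) * v' i) + a0 * e * k := by
            rw [mul_add, mul_sum]
            congr 1
            · exact sum_congr rfl fun i _ => by ring
            · ring
        _ = e * (∑ i, a i * (- z i) + a0 * k) := by
            rw [mul_add, mul_sum]
            congr 1
            · exact sum_congr rfl fun i _ => by rw [h3]; ring
            · ring
    have h5 : e ∣ (k : ℤ) := ⟨_, h4⟩
    exact Int.natAbs_dvd_natAbs.2 h5
  · intro hdv
    have h5 : e ∣ (k : ℤ) := by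
      have := Int.natCast_dvd_natCast.2 hdv
      exact (Int.dvd_natAbs_self).trans this
    obtain ⟨m, hm⟩ := h5
    refine ⟨(-m) • v', ?_⟩
    rw [mulVec_smul, hk, smul_smul, ← natCast_zsmul, hm]
    congr 1; ring

theorem order_cl (hd : P.det ≠ 0) (h : Col P x v' e c) : addOrderOf (cl P x) = e.natAbs := by
  apply Nat.dvd_antisymm
  · exact addOrderOf_dvd_of_nsmul_eq_zero ((nsmul_cl hd h _).2 dvd_rfl)
  · exact (nsmul_cl hd h _).1 (addOrderOf_nsmul_eq_zero _)

theorem iso_cl (hP : P.transpose = P) (hd : P.det ≠ 0) (h : Col P x v' e c) :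
    cokPair P hP (cl P x) (cl P x) = 0 := by
  have he := e_ne hd h
  have hk : P *ᵥ v' = - e • bz x := h.ker
  unfold cl
  rw [cokPair_mk, ZMod.intCast_zmod_eq_zero_iff_dvd, Int.natAbs_dvd]
  have h1 : P.adjugate *ᵥ (P *ᵥ v') = P.det • v' := by
    rw [mulVec_mulVec, adjugate_mul, smul_mulVec, one_mulVec]
  rw [hk, mulVec_smul] at h1
  have hxv : bz x ⬝ᵥ v' = ∑ i, (if x i then v' i else 0) := by
    unfold bz dotProduct
    refine sum_congr rfl fun i _ => ?_
    by_cases hxi : x i = true <;> simp [hxi]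
  obtain ⟨s, hs⟩ := h.iso
  rw [← hxv] at hs
  have h2 : -e * (bz x ⬝ᵥ (P.adjugate *ᵥ bz x)) = P.det * (e * s) := by
    calc -e * (bz x ⬝ᵥ (P.adjugate *ᵥ bz x)) = bz x ⬝ᵥ (-e • (P.adjugate *ᵥ bz x)) := by
          rw [dotProduct_smul, smul_eq_mul]
      _ = bz x ⬝ᵥ (P.det • v') := by rw [h1]
      _ = P.det * (e * s) := by rw [dotProduct_smul, smul_eq_mul, hs]
  refine ⟨-s, ?_⟩
  have h3 : e * (bz x ⬝ᵥ (P.adjugate *ᵥ bz x)) = e * (P.det * -s) := by linarith
  exact mul_left_cancel₀ he h3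

theorem det_abs (h : Col P x v' e c) : P.det.natAbs = c.natAbs * e.natAbs ^ 2 := by
  rw [h.det, Int.natAbs_mul, Int.natAbs_pow]

theorem fact_det (hd : P.det ≠ 0) (h : Col P x v' e c) (p : ℕ) :
    P.det.natAbs.factorization p = c.natAbs.factorization p + 2 * e.natAbs.factorization p := by
  have he := e_ne hd h
  have hc := c_ne hd h
  rw [det_abs h, Nat.factorization_mul (by simpa using hc) (by simpa using he), Nat.factorization_pow]
  simp

end Col

/-! ## Isotropic subgroups are overlattices -/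

section Lat

variable (P : Matrix (Fin n) (Fin n) ℤ)

theorem PQ_det (hd : P.det ≠ 0) : (PQ P).det ≠ 0 := by
  unfold PQ
  have : (P.map (Int.cast : ℤ → ℚ)).det = ((P.det : ℤ) : ℚ) := by
    rw [Int.cast_det]
  rw [this]
  exact_mod_cast hd

theorem PQ_cast (z : Fin n → ℤ) : PQ P *ᵥ (fun i => (z i : ℚ)) = fun i => (((P *ᵥ z) i : ℤ) : ℚ) := by
  ext i
  simp only [PQ, mulVec, dotProduct, map_apply]
  push_cast; rfl

theorem PQ_dual (hd : P.det ≠ 0) (y : Fin n → ℤ) : PQ P *ᵥ dual P y = fun i => (y i : ℚ) := by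
  unfold dual
  rw [mulVec_mulVec, Matrix.mul_nonsing_inv _ (by rw [isUnit_iff_ne_zero]; exact PQ_det P hd), one_mulVec]

theorem PQ_inj (hd : P.det ≠ 0) {v w : Fin n → ℚ} (h : PQ P *ᵥ v = PQ P *ᵥ w) : v = w := by
  have h2 : (PQ P)⁻¹ *ᵥ (PQ P *ᵥ v) = (PQ P)⁻¹ *ᵥ (PQ P *ᵥ w) := by rw [h]
  rw [mulVec_mulVec, mulVec_mulVec, Matrix.nonsing_inv_mul _ (by rw [isUnit_iff_ne_zero]; exact PQ_det P hd),
    one_mulVec, one_mulVec] at h2
  exact h2

/-- the lattice of an isotropic subgroup -/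
def ov (L : AddSubgroup (Coker P)) : Submodule ℤ (Fin n → ℚ) where
  carrier := {v | ∃ z : Fin n → ℤ, PQ P *ᵥ v = (fun i => (z i : ℚ)) ∧ (QuotientAddGroup.mk z : Coker P) ∈ L}
  zero_mem' := ⟨0, by rw [mulVec_zero]; ext i; simp, by
    have : (QuotientAddGroup.mk (0 : Fin n → ℤ) : Coker P) = 0 := rfl
    rw [this]; exact L.zero_mem⟩
  add_mem' := by
    rintro v w ⟨z, hz, hzL⟩ ⟨z', hz', hzL'⟩
    refine ⟨z + z', ?_, ?_⟩
    · rw [mulVec_add, hz, hz']; ext i; simp
    · rw [QuotientAddGroup.mk_add]; exact L.add_mem hzL hzL'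
  smul_mem' := by
    rintro k v ⟨z, hz, hzL⟩
    refine ⟨k • z, ?_, ?_⟩
    · rw [mulVec_smul, hz]; ext i; simp
    · rw [QuotientAddGroup.mk_zsmul]; exact L.zsmul_mem hzL k

theorem mem_ov {L : AddSubgroup (Coker P)} {v : Fin n → ℚ} : v ∈ ov P L ↔
    ∃ z : Fin n → ℤ, PQ P *ᵥ v = (fun i => (z i : ℚ)) ∧ (QuotientAddGroup.mk z : Coker P) ∈ L := Iff.rfl

theorem ov_over (hP : P.transpose = P) (hd : P.det ≠ 0) (L : AddSubgroup (Coker P))
    (hL : ∀ u ∈ L, ∀ v ∈ L, cokPair P hP u v = 0) : Over P (ov P L) where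
  std := by
    intro z
    rw [mem_ov]
    refine ⟨P *ᵥ z, PQ_cast P z, ?_⟩
    have : (QuotientAddGroup.mk (P *ᵥ z) : Coker P) = 0 := by
      rw [QuotientAddGroup.eq_zero_iff, mem_lat]; exact ⟨z, rfl⟩
    rw [this]; exact L.zero_mem
  int := by
    rintro v ⟨z, hz, hzL⟩ w ⟨z', hz', hzL'⟩
    have h1 := hL _ hzL' _ hzL
    rw [cokPair_mk, ZMod.intCast_zmod_eq_zero_iff_dvd, Int.natAbs_dvd] at h1
    obtain ⟨k, hk⟩ := h1
    refine ⟨k, ?_⟩
    rw [hz']
    -- `det • v = adj z`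
    have h2 : (P.det : ℚ) • v = fun i => (((P.adjugate *ᵥ z) i : ℤ) : ℚ) := by
      apply PQ_inj P hd
      rw [mulVec_smul, hz, PQ_cast, mulVec_mulVec, mul_adjugate, smul_mulVec, one_mulVec]
      ext i; simp
    have hdq : (P.det : ℚ) ≠ 0 := by exact_mod_cast hd
    apply mul_left_cancel₀ hdq
    have h3 : (P.det : ℚ) * (v ⬝ᵥ fun i => (z' i : ℚ)) = ((P.det : ℚ) • v) ⬝ᵥ (fun i => (z' i : ℚ)) := by
      rw [smul_dotProduct, smul_eq_mul]
    rw [h3, h2, dotProduct_comm]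
    have h4 : ((fun i => (z' i : ℚ)) ⬝ᵥ fun i => (((P.adjugate *ᵥ z) i : ℤ) : ℚ)) =
        ((z' ⬝ᵥ (P.adjugate *ᵥ z) : ℤ) : ℚ) := by
      simp only [dotProduct]; push_cast; rfl
    rw [h4, hk]; push_cast; ring

end Lat

end Vale.Agent.P160.Half.F.Cnt454
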