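import Vale.Agent.P160.Half.Fin.CntAbs276
import Vale.Agent.P160.Half.Fin.CntH454a
import Vale.Agent.P160.Half.LabVec
import Vale.Agent.P160.Half.LabCok

/-! # P160, rate 1/2: `CntStmt` (helper276; dictionary helper454, vector count helper201) -/

set_option linter.unusedSectionVars false
set_option linter.unusedVariables false

namespace Vale.Agent.P160.Half.F.CntMain276

open Finset Matrix Vale.Agent.P160.Half Vale.Agent.P160.Half.A Vale.Agent.P160.Half.F
  Vale.Agent.P160.Half.Labels Vale.Agent.P160.Half.LabMax Vale.Agent.P160.Half.LabAll Vale.Agent.P160.Half.F.Cnt454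

variable {n : ℕ}

theorem cls_finite (P : Matrix (Fin n) (Fin n) ℤ) (L : Submodule ℤ (Fin n → ℚ)) (X : ℝ) :
    (cls P L 0 X).Finite := by
  refine (Set.finite_range (bz (n := n))).subset ?_
  rintro y ⟨⟨S, hS, hS2⟩, -, -, -⟩
  have hS0 : S = ∅ := by
    rw [← Finset.card_eq_zero]; omega
  subst hS0
  classical
  refine ⟨fun i => decide (y i = 1), ?_⟩
  ext i
  unfold bz
  rcases hS2 i (by simp) with h | h <;> simp [h]

/-- a column whose class lies in an isotropic subgroup belongs to the class of the overlattice -/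
theorem mem_cls {P : Matrix (Fin n) (Fin n) ℤ} (hd : P.det ≠ 0) {x : Fin n → Bool} {v' : Fin n → ℤ}
    {e c : ℤ} (h : Col P x v' e c) {X : ℝ} (hX : 1 ≤ X) (hb : ∀ i, |(v' i : ℝ)| ≤ X * |(e : ℝ)|)
    {L : AddSubgroup (Coker P)} (hL : cl P x ∈ L) : bz x ∈ cls P (ov P L) 0 X := by
  have he := e_ne hd h
  have heQ : (e : ℚ) ≠ 0 := by exact_mod_cast he
  have hk : P *ᵥ v' = - e • bz x := h.ker
  have hdual : dual P (bz x) = fun i => -(v' i : ℚ) / e := by
    apply PQ_inj P hd
    rw [PQ_dual P hd]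
    have h1 : (fun i => -(v' i : ℚ) / e) = (-(1 / (e : ℚ))) • (fun i => ((v' i : ℤ) : ℚ)) := by
      ext i
      simp only [Pi.smul_apply, smul_eq_mul]
      ring
    rw [h1, mulVec_smul, PQ_cast, hk]
    ext i
    simp only [Pi.smul_apply, smul_eq_mul]
    push_cast
    field_simp
  refine ⟨⟨∅, by simp, fun i _ => ?_⟩, ?_, ?_, ?_⟩
  · unfold bz
    by_cases hx : x i <;> simp [hx]
  · intro i
    unfold bz
    by_cases hx : x i <;> simp [hx]
    · exact hX
    · linarith
  · exact ⟨bz x, PQ_dual P hd _, hL⟩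
  · intro i
    rw [hdual]
    push_cast
    have he0 : 0 < |(e : ℝ)| := by
      rw [abs_pos]; exact_mod_cast he
    rw [abs_div, abs_neg, div_le_iff₀ he0]
    exact hb i

theorem tors_le_one {P : Matrix (Fin n) (Fin n) ℤ} (hd : P.det ≠ 0) {p : ℕ} (hp : p.Prime)
    (h : ¬ p ∣ P.det.natAbs) : Nat.card {x : Coker P // p • x = 0} ≤ p := by
  have : Finite (Coker P) := Nat.finite_of_card_ne_zero (by rw [card_coker P hd]; simpa using hd)
  have hsub : Subsingleton {x : Coker P // p • x = 0} := by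
    refine ⟨fun a b => ?_⟩
    have key : ∀ x : {x : Coker P // p • x = 0}, x.1 = 0 := by
      intro x
      have h1 : addOrderOf x.1 ∣ p := addOrderOf_dvd_of_nsmul_eq_zero x.2
      have h2 : addOrderOf x.1 ∣ P.det.natAbs := by
        rw [← card_coker P hd]
        exact addOrderOf_dvd_natCard _
      rcases (Nat.dvd_prime hp).mp h1 with h3 | h3
      · exact AddMonoid.addOrderOf_eq_one_iff.mp h3
      · exact absurd (h3 ▸ h2) h
    exact Subtype.ext ((key a).trans (key b).symm)
  have := Finite.card_le_one_iff_subsingleton.mpr hsub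
  exact this.trans hp.one_lt.le

theorem cnt (ζ : ℝ) (hζ : 0 < ζ) (hζ' : ζ < 1 / 16) : CntStmt ζ := by
  classical
  intro ε W R hε hW
  obtain ⟨n₀, h₀⟩ := Cnt276.cnt_abs ζ ε W R hζ hζ' hε hW
  refine ⟨n₀, fun n hn P hsym hd hdn hcor X M w T hwW hX hM => ?_⟩
  have hP : P.transpose = P := hsym
  have : NeZero P.det.natAbs := ⟨Int.natAbs_ne_zero.mpr hd⟩
  have hfin : Finite (Coker P) := Nat.finite_of_card_ne_zero (by rw [card_coker P hd]; simpa using hd)
  have : Fintype (Coker P) := Fintype.ofFinite _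
  set b := cokPair P hP with hb
  have hs : ∀ x y, b x y = b y x := cokPair_symm P hP
  have hnd : ∀ x, (∀ y, b x y = 0) → x = 0 := cokPair_nondeg P hP hd
  set C := ((univ : Finset (Fin n → Bool)).filter fun x => ∃ (v' : Fin n → ℤ) (e c : ℤ), Col P x v' e c ∧
    (∀ i, |(v' i : ℝ)| ≤ X * |(e : ℝ)|) ∧ (bigSet P e).card ≤ T ∧ lcost ζ n e c ≤ w) with hC
  have hex : ∀ x : Fin n → Bool, ∃ (v' : Fin n → ℤ) (e c : ℤ), x ∈ C → (Col P x v' e c ∧
    (∀ i, |(v' i : ℝ)| ≤ X * |(e : ℝ)|) ∧ (bigSet P e).card ≤ T ∧ lcost ζ n e c ≤ w) := by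
    intro x
    by_cases hx : x ∈ C
    · obtain ⟨v', e, c, h⟩ := (mem_filter.mp hx).2
      exact ⟨v', e, c, fun _ => h⟩
    · exact ⟨0, 0, 0, fun h => absurd h hx⟩
  choose v' e c hall using hex
  have hcol : ∀ x ∈ C, Col P x (v' x) (e x) (c x) := fun x hx => (hall x hx).1
  have hM0 : 0 ≤ M := by
    refine le_trans (by positivity) (hM (ov P ⊥) (ov_over P hP hd ⊥ ?_))
    intro x hx y hy
    rw [AddSubgroup.mem_bot] at hx
    rw [hx]; simp
  set PP := P.det.natAbs.primeFactors.filter fun p => 2 ≤ crk P p with hPP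
  have hcardG : Nat.card (Coker P) = P.det.natAbs := card_coker P hd
  have hkil : ∀ p : ℕ, p.Prime → Nat.card (kil p (Coker P)) ≤ p ^ crk P p :=
    fun p hp => LabCok.card_kil_coker P hd hp
  refine h₀ n hn (Fin n → Bool) C (fun x => (e x).natAbs) (fun x => (c x).natAbs) P.det.natAbs PP
    (crk P) (fun p a => ((Tp b p a).card : ℝ)) M w T (Int.natAbs_ne_zero.mpr hd) hdn ?_ ?_ hwW hM0 ?_ ?_ ?_ ?_ ?_ ?_ ?_
  · intro p hp
    have := (mem_filter.mp hp).1
    exact ⟨Nat.prime_of_mem_primeFactors this, Nat.dvd_of_mem_primeFactors this⟩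
  · intro p hp
    exact hcor p (Nat.prime_of_mem_primeFactors (mem_filter.mp hp).1)
  · intro x hx
    exact det_abs (hcol x hx)
  · intro x hx
    refine le_trans (card_le_card ?_) (hall x hx).2.2.1
    intro p hp
    obtain ⟨a, a1, a2⟩ := mem_filter.mp hp
    exact mem_filter.mpr ⟨a, a1, (mem_filter.mp a2).2⟩
  · intro x hx
    have h1 := (hall x hx).2.2.2
    unfold lcost at h1
    refine le_trans (le_of_eq ?_) h1
    apply sum_congr _ fun p _ => rfl
    ext p
    rw [mem_filter, mem_filter]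
    show _ ∧ qp ζ n p ∣ (e x).natAbs ↔ _ ∧ ((qp ζ n p : ℕ) : ℤ) ∣ e x
    rw [Int.natCast_dvd]
  · intro p _ a
    positivity
  · intro p hp a
    have hpp := Nat.prime_of_mem_primeFactors (mem_filter.mp hp).1
    have h1 : (Tp b p a).card ≤ (p ^ crk P p) ^ a :=
      (LabCok.card_Tp_le_pow b p a).trans (Nat.pow_le_pow_left (hkil p hpp) a)
    rw [← pow_mul, mul_comm] at h1
    exact_mod_cast h1
  · intro p hp a ha
    have hpp := Nat.prime_of_mem_primeFactors (mem_filter.mp hp).1
    have h1 := card_Tp b hs hnd hpp a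
    refine h1.trans ?_
    unfold tb
    rw [hcardG]
    have hp0 : (0 : ℝ) < p := by exact_mod_cast hpp.pos
    have hp1 : (1 : ℝ) ≤ p := by exact_mod_cast hpp.one_lt.le
    split_ifs with h0
    · subst h0
      have : (1 : ℝ) ≤ (p : ℝ) ^ (P.det.natAbs.factorization p - 2 * 0) := one_le_pow₀ hp1
      push_cast
      linarith
    · apply le_of_eq
      rw [pow_sub₀ _ hp0.ne' ha]
      rw [mul_div_assoc]
      rfl
  · intro S a C' hSP hC' hfac hun hT
    have hSsub : ∀ p ∈ S ∪ (PP \ S), p ∈ PP := by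
      intro p hp
      rcases mem_union.mp hp with h | h
      · exact hSP h
      · exact (mem_sdiff.mp h).1
    have hprime : ∀ p ∈ PP, p.Prime := fun p hp => Nat.prime_of_mem_primeFactors (mem_filter.mp hp).1
    have h1 := LabVec.vec_count b hs hnd S (PP \ S) disjoint_sdiff (fun p hp => hprime p (hSsub p hp))
      (by
        intro p hp hpn
        have hpP : p ∉ PP := by
          intro h
          apply hpn
          by_cases hS : p ∈ S
          · exact mem_union_left _ hS
          · exact mem_union_right _ (mem_sdiff.mpr ⟨h, hS⟩)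
        by_cases hdv : p ∣ P.det.natAbs
        · have h2 : ¬ 2 ≤ crk P p := fun h => hpP (mem_filter.mpr
            ⟨Nat.mem_primeFactors.mpr ⟨hp, hdv, Int.natAbs_ne_zero.mpr hd⟩, h⟩)
          rw [LabCok.card_kil_eq]
          calc _ ≤ p ^ crk P p := hkil p hp
            _ ≤ p ^ 1 := Nat.pow_le_pow_right hp.pos (by omega)
            _ = p := pow_one p
        · exact tors_le_one hd hp hdv)
      a T ⌊M⌋₊ C' (fun x => cl P x)
      (by
        intro L hL
        apply Nat.le_floor
        refine le_trans ?_ (hM (ov P L) (ov_over P hP hd L hL))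
        have hfin2 := cls_finite P (ov P L) X
        have h2 : Nat.card {y // y ∈ C' ∧ cl P y ∈ L} ≤ (cls P (ov P L) 0 X).ncard := by
          have : Finite (cls P (ov P L) 0 X) := hfin2
          rw [← Nat.card_coe_set_eq]
          refine Nat.card_le_card_of_injective (fun y => (⟨bz y.1, ?_⟩ : cls P (ov P L) 0 X)) ?_
          · have hy := hC' y.2.1
            exact mem_cls hd (hcol _ hy) hX (hall _ hy).2.1 y.2.2
          · intro y z hyz
            have := congrArg Subtype.val hyz
            exact Subtype.ext (bz_inj this)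
        exact_mod_cast h2)
      (fun x hx => iso_cl hP hd (hcol x (hC' hx)))
      (by
        intro x hx p hp
        rw [order_cl hd (hcol x (hC' hx))]
        exact hfac x hx p hp)
      (by
        intro x hx p hp hpd
        rw [order_cl hd (hcol x (hC' hx))] at hpd ⊢
        obtain ⟨hpP, hpS⟩ := mem_sdiff.mp hp
        obtain ⟨h2, h3⟩ := hun x hx p hpP hpS hpd
        refine ⟨h2, ?_⟩
        rw [hcardG, fact_det hd (hcol x (hC' hx)) p, Nat.factorization_eq_zero_of_not_dvd h3, zero_add])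
      (by
        intro x hx
        refine le_trans (card_le_card ?_) (hT x hx)
        intro p hp
        obtain ⟨a1, a2⟩ := mem_filter.mp hp
        obtain ⟨hpP, hpS⟩ := mem_sdiff.mp a1
        rw [order_cl hd (hcol x (hC' hx))] at a2
        have he := e_ne hd (hcol x (hC' hx))
        exact mem_filter.mpr ⟨Nat.mem_primeFactors.mpr ⟨hprime p hpP, a2, Int.natAbs_ne_zero.mpr he⟩, hpP, hpS⟩)
    calc (C'.card : ℝ) ≤ ((2 ^ T * (∏ p ∈ S, (Tp b p (a p)).card) * ⌊M⌋₊ : ℕ) : ℝ) := by exact_mod_cast h1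
      _ = 2 ^ T * (∏ p ∈ S, ((Tp b p (a p)).card : ℝ)) * (⌊M⌋₊ : ℝ) := by push_cast; rfl
      _ ≤ 2 ^ T * (∏ p ∈ S, ((Tp b p (a p)).card : ℝ)) * M :=
          mul_le_mul_of_nonneg_left (Nat.floor_le hM0)
            (mul_nonneg (pow_nonneg (by norm_num) _) (prod_nonneg fun p _ => Nat.cast_nonneg _))

end Vale.Agent.P160.Half.F.CntMain276
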