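import Mathlib

/-! # P160, rate 1/2: numerics for the column count (helper118) -/

namespace Vale.Agent.P160.Half.CntNum

open Finset Filter Topology Asymptotics

/-- `C n^a log₂ n ≤ ε n` eventually, `a < 1`. -/
theorem rpow_logb_le (C : ℝ) {a ε : ℝ} (ha : a < 1) (hε : 0 < ε) :
    ∃ n₀ : ℕ, ∀ n : ℕ, n₀ ≤ n → C * (n : ℝ) ^ a * Real.logb 2 n ≤ ε * n := by
  have hb : 0 < 1 - a := by linarith
  have h1 : Real.log =o[atTop] fun x : ℝ => x ^ (1 - a) := isLittleO_log_rpow_atTop hb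
  have hc : 0 < ε * Real.log 2 / (|C| + 1) := by
    have := Real.log_pos (by norm_num : (1:ℝ) < 2)
    positivity
  have h2 := (h1.def hc).and (eventually_ge_atTop (1:ℝ))
  obtain ⟨x₀, hx₀⟩ := eventually_atTop.1 h2
  refine ⟨⌈x₀⌉₊, fun n hn => ?_⟩
  have hnx : x₀ ≤ (n:ℝ) := (Nat.le_ceil x₀).trans (by exact_mod_cast hn)
  obtain ⟨h3, h4⟩ := hx₀ n hnx
  have hlog2 : 0 < Real.log 2 := Real.log_pos (by norm_num)
  have hlog : 0 ≤ Real.log n := Real.log_nonneg h4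
  have hnp : (0:ℝ) < n := by linarith
  rw [Real.norm_eq_abs, abs_of_nonneg hlog, Real.norm_eq_abs,
    abs_of_nonneg (Real.rpow_nonneg hnp.le _)] at h3
  have hna : 0 ≤ (n:ℝ) ^ a := Real.rpow_nonneg hnp.le _
  have h5 : C * (n:ℝ) ^ a * Real.logb 2 n ≤ (|C| + 1) * (n:ℝ) ^ a * (Real.log n / Real.log 2) := by
    rw [Real.logb]
    refine mul_le_mul_of_nonneg_right (mul_le_mul_of_nonneg_right ?_ hna) (by positivity)
    linarith [le_abs_self C]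
  refine h5.trans ?_
  have h6 : (|C| + 1) * (n:ℝ) ^ a * (Real.log n / Real.log 2) ≤
      (|C| + 1) * (n:ℝ) ^ a * (ε * Real.log 2 / (|C| + 1) * (n:ℝ) ^ (1 - a) / Real.log 2) := by
    refine mul_le_mul_of_nonneg_left ?_ (by positivity)
    exact div_le_div_of_nonneg_right h3 hlog2.le
  refine h6.trans (le_of_eq ?_)
  have h7 : (n:ℝ) ^ a * (n:ℝ) ^ (1 - a) = n := by
    rw [← Real.rpow_add hnp]; norm_num
  have hC : |C| + 1 ≠ 0 := by positivity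
  calc (|C| + 1) * (n:ℝ) ^ a * (ε * Real.log 2 / (|C| + 1) * (n:ℝ) ^ (1 - a) / Real.log 2) =
      ε * ((n:ℝ) ^ a * (n:ℝ) ^ (1 - a)) := by field_simp
    _ = ε * n := by rw [h7]

/-- `n^(C n^a) ≤ 2^(ε n)` eventually, `a < 1`. -/
theorem rpow_rpow_le (C : ℝ) {a ε : ℝ} (ha : a < 1) (hε : 0 < ε) :
    ∃ n₀ : ℕ, ∀ n : ℕ, n₀ ≤ n → (n : ℝ) ^ (C * (n : ℝ) ^ a) ≤ (2:ℝ) ^ (ε * n) := by
  obtain ⟨n₀, h⟩ := rpow_logb_le C ha hε
  refine ⟨max n₀ 1, fun n hn => ?_⟩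
  have hn1 : (1:ℝ) ≤ n := by exact_mod_cast (le_max_right _ _).trans hn
  have h1 := h n ((le_max_left _ _).trans hn)
  have h2 : (n:ℝ) = (2:ℝ) ^ Real.logb 2 n :=
    (Real.rpow_logb (by norm_num) (by norm_num) (by linarith)).symm
  calc (n:ℝ) ^ (C * (n:ℝ) ^ a) = ((2:ℝ) ^ Real.logb 2 n) ^ (C * (n:ℝ) ^ a) := by rw [← h2]
    _ = (2:ℝ) ^ (C * (n:ℝ) ^ a * Real.logb 2 n) := by
        rw [← Real.rpow_mul (by norm_num)]; congr 1; ring
    _ ≤ (2:ℝ) ^ (ε * n) := Real.rpow_le_rpow_of_exponent_le (by norm_num) h1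

/-- (N1) -/
theorem sq_le {d : ℝ} (hd : 0 < d) : ∃ K : ℝ, 1 ≤ K ∧ ∀ a : ℕ,
    4 * ((a:ℝ) + 1) ^ 2 ≤ K * (2:ℝ) ^ (d * a) := by
  have hl : 0 < Real.log 2 := Real.log_pos (by norm_num)
  set c : ℝ := d * Real.log 2 with hc
  have hcp : 0 < c := by positivity
  -- `1 + c a / 2 ≤ exp (c a / 2)`
  refine ⟨4 * (1 + 2 / c) ^ 2, ?_, fun a => ?_⟩
  · have : (1:ℝ) ≤ (1 + 2 / c) ^ 2 := one_le_pow₀ (by have := div_pos (two_pos : (0:ℝ) < 2) hcp; linarith)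
    linarith
  have h1 : c * a / 2 + 1 ≤ Real.exp (c * a / 2) := Real.add_one_le_exp _
  have ha : (0:ℝ) ≤ a := Nat.cast_nonneg a
  have h2 : (a:ℝ) + 1 ≤ (1 + 2 / c) * Real.exp (c * a / 2) := by
    have h3 : (1 + 2 / c) * (c * a / 2 + 1) ≤ (1 + 2 / c) * Real.exp (c * a / 2) :=
      mul_le_mul_of_nonneg_left h1 (by positivity)
    refine le_trans ?_ h3
    have h4 : (1 + 2 / c) * (c * a / 2 + 1) = c * a / 2 + 1 + a + 2 / c := by
      field_simp; ring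
    rw [h4]
    have : 0 ≤ c * a / 2 := by positivity
    have : 0 < 2 / c := by positivity
    linarith
  have h5 : ((a:ℝ) + 1) ^ 2 ≤ ((1 + 2 / c) * Real.exp (c * a / 2)) ^ 2 :=
    pow_le_pow_left₀ (by linarith) h2 2
  have h6 : (Real.exp (c * a / 2)) ^ 2 = (2:ℝ) ^ (d * a) := by
    rw [← Real.exp_nat_mul, Real.rpow_def_of_pos (by norm_num)]
    congr 1
    rw [hc]; push_cast; ring
  calc 4 * ((a:ℝ) + 1) ^ 2 ≤ 4 * ((1 + 2 / c) * Real.exp (c * a / 2)) ^ 2 := by linarith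
    _ = 4 * (1 + 2 / c) ^ 2 * (Real.exp (c * a / 2)) ^ 2 := by ring
    _ = _ := by rw [h6]

/-- products over a finset, from (N1) -/
theorem prod_sq_le {d : ℝ} (hd : 0 < d) : ∃ K : ℝ, 1 ≤ K ∧ ∀ {ι : Type} (s : Finset ι) (a : ι → ℕ),
    ∏ i ∈ s, (4 * ((a i:ℝ) + 1) ^ 2) ≤ K ^ s.card * (2:ℝ) ^ (d * ∑ i ∈ s, (a i:ℝ)) := by
  obtain ⟨K, hK, h⟩ := sq_le hd
  refine ⟨K, hK, fun s a => ?_⟩
  calc ∏ i ∈ s, (4 * ((a i:ℝ) + 1) ^ 2) ≤ ∏ i ∈ s, (K * (2:ℝ) ^ (d * a i)) :=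
        Finset.prod_le_prod (fun i _ => by positivity) fun i _ => h (a i)
    _ = K ^ s.card * ∏ i ∈ s, (2:ℝ) ^ (d * a i) := by
        rw [Finset.prod_mul_distrib, Finset.prod_const]
    _ = _ := by
        rw [← Real.rpow_sum_of_pos (by norm_num), Finset.mul_sum]

/-- the tail sum of binomial coefficients, `x` version -/
theorem sum_choose_le (N k : ℕ) {x : ℝ} (hx : 0 < x) (hx1 : x ≤ 1) :
    (∑ i ∈ range (k + 1), (N.choose i : ℝ)) ≤ (1 + x) ^ N * (x⁻¹) ^ k := by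
  have h1 : ∀ i ∈ range (k + 1), (N.choose i : ℝ) ≤ (N.choose i : ℝ) * x ^ i * (x⁻¹) ^ k := by
    intro i hi
    have hik : i ≤ k := by simpa [Nat.lt_succ_iff] using hi
    have : (1:ℝ) ≤ x ^ i * (x⁻¹) ^ k := by
      obtain ⟨j, rfl⟩ := Nat.exists_eq_add_of_le hik
      rw [pow_add, ← mul_assoc, ← mul_pow, mul_inv_cancel₀ hx.ne', one_pow, one_mul]
      exact one_le_pow₀ (one_le_inv_iff₀.2 ⟨hx, hx1⟩)
    rw [mul_assoc]
    exact le_mul_of_one_le_right (Nat.cast_nonneg _) this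
  refine (Finset.sum_le_sum h1).trans ?_
  rw [← Finset.sum_mul]
  refine mul_le_mul_of_nonneg_right ?_ (by positivity)
  have h2 : (1 + x) ^ N = ∑ i ∈ range (N + 1), (N.choose i : ℝ) * x ^ i := by
    rw [add_comm, add_pow]
    refine Finset.sum_congr rfl fun i _ => ?_
    rw [one_pow, mul_one, mul_comm]
  rw [h2]
  by_cases hkN : k ≤ N
  · exact Finset.sum_le_sum_of_subset_of_nonneg (Finset.range_mono (by omega))
      fun i _ _ => by positivity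
  · have hNk : N + 1 ≤ k + 1 := by omega
    refine le_of_eq ?_
    symm
    refine Finset.sum_subset (Finset.range_mono hNk) fun i _ hi => ?_
    have : N < i := by simpa [Nat.lt_succ_iff] using hi
    rw [Nat.choose_eq_zero_of_lt this]
    simp

/-- (N2) few elements: `∑_{i ≤ k} C(2n, i) ≤ 2^(ε n)` if `k log₂ n ≤ W n`. -/
theorem sum_choose_two_le (W : ℝ) {ε : ℝ} (hε : 0 < ε) : ∃ n₀ : ℕ, ∀ n : ℕ, n₀ ≤ n → ∀ k : ℕ,
    (k:ℝ) * Real.logb 2 n ≤ W * n →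
    (∑ i ∈ range (k + 1), ((2 * n).choose i : ℝ)) ≤ (2:ℝ) ^ (ε * n) := by
  -- choose `x` with `(1 + x)^2 ≤ 2^(ε/2)`
  have hl : 0 < Real.log 2 := Real.log_pos (by norm_num)
  set x : ℝ := min 1 (ε * Real.log 2 / 4) with hx
  have hx0 : 0 < x := by rw [hx]; positivity
  have hx1 : x ≤ 1 := min_le_left _ _
  have hx2 : x ≤ ε * Real.log 2 / 4 := min_le_right _ _
  set B : ℝ := Real.logb 2 x⁻¹ with hB
  have hB0 : 0 ≤ B := Real.logb_nonneg (by norm_num) (one_le_inv_iff₀.2 ⟨hx0, hx1⟩)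
  -- `B k ≤ ε n / 2` eventually
  have hlim : Tendsto (fun n : ℕ => Real.logb 2 n) atTop atTop :=
    (Real.tendsto_logb_atTop (by norm_num)).comp tendsto_natCast_atTop_atTop
  obtain ⟨n₀, hn₀⟩ := eventually_atTop.1
    (hlim.eventually_ge_atTop (max 1 (2 * B * |W| / ε + 1)))
  refine ⟨n₀, fun n hn k hk => ?_⟩
  have hL := hn₀ n hn
  have hL1 : 1 ≤ Real.logb 2 n := (le_max_left _ _).trans hL
  have hL2 : 2 * B * |W| / ε + 1 ≤ Real.logb 2 n := (le_max_right _ _).trans hL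
  have hk0 : (0:ℝ) ≤ k := Nat.cast_nonneg k
  have hn0 : (0:ℝ) ≤ n := Nat.cast_nonneg n
  have hkB : (k:ℝ) * B ≤ ε / 2 * n := by
    have h1 : (k:ℝ) * (2 * B * |W| / ε) ≤ |W| * n := by
      calc (k:ℝ) * (2 * B * |W| / ε) ≤ k * Real.logb 2 n :=
            mul_le_mul_of_nonneg_left (by linarith) hk0
        _ ≤ W * n := hk
        _ ≤ |W| * n := mul_le_mul_of_nonneg_right (le_abs_self W) hn0
    rcases (abs_nonneg W).eq_or_lt with hW | hW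
    · -- `W = 0`: `k = 0`
      have hW0 : W = 0 := abs_eq_zero.1 hW.symm
      rw [hW0, zero_mul] at hk
      have : (k:ℝ) ≤ 0 := by
        by_contra hcon
        push Not at hcon
        have := mul_pos hcon (by linarith : (0:ℝ) < Real.logb 2 n)
        linarith
      have hk00 : (k:ℝ) = 0 := le_antisymm this hk0
      rw [hk00, zero_mul]
      positivity
    · have h2 : (k:ℝ) * B * (2 * |W| / ε) ≤ ε / 2 * n * (2 * |W| / ε) := by
        have e1 : (k:ℝ) * B * (2 * |W| / ε) = k * (2 * B * |W| / ε) := by ring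
        have e2 : ε / 2 * n * (2 * |W| / ε) = |W| * n := by field_simp
        rw [e1, e2]; exact h1
      exact le_of_mul_le_mul_right h2 (by positivity)
  have h3 := sum_choose_le (2 * n) k hx0 hx1
  refine h3.trans ?_
  have h4 : (1 + x) ^ (2 * n) ≤ (2:ℝ) ^ (ε / 2 * n) := by
    have h5 : 1 + x ≤ Real.exp x := by linarith [Real.add_one_le_exp x]
    calc (1 + x) ^ (2 * n) ≤ (Real.exp x) ^ (2 * n) := pow_le_pow_left₀ (by linarith) h5 _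
      _ = Real.exp (2 * n * x) := by rw [← Real.exp_nat_mul]; push_cast; ring_nf
      _ ≤ Real.exp (Real.log 2 * (ε / 2 * n)) := by
          apply Real.exp_le_exp.2
          have := mul_le_mul_of_nonneg_left hx2 (by positivity : (0:ℝ) ≤ 2 * n)
          linarith
      _ = (2:ℝ) ^ (ε / 2 * n) := by rw [Real.rpow_def_of_pos (by norm_num)]
  have h6 : (x⁻¹) ^ k ≤ (2:ℝ) ^ (ε / 2 * n) := by
    have h7 : x⁻¹ = (2:ℝ) ^ B :=
      (Real.rpow_logb (by norm_num) (by norm_num) (by positivity)).symm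
    calc (x⁻¹) ^ k = ((2:ℝ) ^ B) ^ k := by rw [← h7]
      _ = (2:ℝ) ^ ((k:ℝ) * B) := by rw [← Real.rpow_natCast, ← Real.rpow_mul (by norm_num), mul_comm]
      _ ≤ _ := Real.rpow_le_rpow_of_exponent_le (by norm_num) hkB
  calc (1 + x) ^ (2 * n) * (x⁻¹) ^ k ≤ (2:ℝ) ^ (ε / 2 * n) * (2:ℝ) ^ (ε / 2 * n) :=
        mul_le_mul h4 h6 (by positivity) (by positivity)
    _ = (2:ℝ) ^ (ε * n) := by
        rw [← Real.rpow_add (by norm_num)]; congr 1; ring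

/-- `K^k ≤ 2^(ε n)` if `k log₂ n ≤ W n`. -/
theorem pow_le_of_logb (K W : ℝ) {ε : ℝ} (hK : 1 ≤ K) (hε : 0 < ε) : ∃ n₀ : ℕ, ∀ n : ℕ, n₀ ≤ n →
    ∀ k : ℕ, (k:ℝ) * Real.logb 2 n ≤ W * n → K ^ k ≤ (2:ℝ) ^ (ε * n) := by
  set B : ℝ := Real.logb 2 K with hB
  have hB0 : 0 ≤ B := Real.logb_nonneg (by norm_num) hK
  have hlim : Tendsto (fun n : ℕ => Real.logb 2 n) atTop atTop :=
    (Real.tendsto_logb_atTop (by norm_num)).comp tendsto_natCast_atTop_atTop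
  obtain ⟨n₀, hn₀⟩ := eventually_atTop.1 (hlim.eventually_ge_atTop (max 1 (B * |W| / ε)))
  refine ⟨n₀, fun n hn k hk => ?_⟩
  have hL := hn₀ n hn
  have hL1 : 1 ≤ Real.logb 2 n := (le_max_left _ _).trans hL
  have hL2 : B * |W| / ε ≤ Real.logb 2 n := (le_max_right _ _).trans hL
  have hk0 : (0:ℝ) ≤ k := Nat.cast_nonneg k
  have hn0 : (0:ℝ) ≤ n := Nat.cast_nonneg n
  have hkB : (k:ℝ) * B ≤ ε * n := by
    rcases (abs_nonneg W).eq_or_lt with hW | hW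
    · have hW0 : W = 0 := abs_eq_zero.1 hW.symm
      rw [hW0, zero_mul] at hk
      have : (k:ℝ) ≤ 0 := by
        by_contra hcon
        push Not at hcon
        have := mul_pos hcon (by linarith : (0:ℝ) < Real.logb 2 n)
        linarith
      have hk00 : (k:ℝ) = 0 := le_antisymm this hk0
      rw [hk00, zero_mul]
      positivity
    · have h1 : (k:ℝ) * (B * |W| / ε) ≤ |W| * n := by
        calc (k:ℝ) * (B * |W| / ε) ≤ k * Real.logb 2 n := mul_le_mul_of_nonneg_left hL2 hk0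
          _ ≤ W * n := hk
          _ ≤ |W| * n := mul_le_mul_of_nonneg_right (le_abs_self W) hn0
      have h2 : (k:ℝ) * B * (|W| / ε) ≤ ε * n * (|W| / ε) := by
        have e1 : (k:ℝ) * B * (|W| / ε) = k * (B * |W| / ε) := by ring
        have e2 : ε * n * (|W| / ε) = |W| * n := by field_simp
        rw [e1, e2]; exact h1
      exact le_of_mul_le_mul_right h2 (by positivity)
  have h7 : K = (2:ℝ) ^ B := (Real.rpow_logb (by norm_num) (by norm_num) (by linarith)).symm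
  calc K ^ k = ((2:ℝ) ^ B) ^ k := by rw [← h7]
    _ = (2:ℝ) ^ ((k:ℝ) * B) := by rw [← Real.rpow_natCast, ← Real.rpow_mul (by norm_num), mul_comm]
    _ ≤ _ := Real.rpow_le_rpow_of_exponent_le (by norm_num) hkB

/-- (N3a) `(n^2)^(C √n) ≤ 2^(ε n)` -/
theorem sq_rpow_sqrt_le (C : ℝ) {ε : ℝ} (hε : 0 < ε) : ∃ n₀ : ℕ, ∀ n : ℕ, n₀ ≤ n →
    ((n:ℝ) ^ 2) ^ (C * √(n:ℝ)) ≤ (2:ℝ) ^ (ε * n) := by
  obtain ⟨n₀, h⟩ := rpow_rpow_le (2 * C) (a := 1 / 2) (by norm_num) hε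
  refine ⟨n₀, fun n hn => ?_⟩
  have h1 := h n hn
  rw [Real.sqrt_eq_rpow]
  calc ((n:ℝ) ^ 2) ^ (C * (n:ℝ) ^ (1 / 2 : ℝ)) = (n:ℝ) ^ (2 * C * (n:ℝ) ^ (1 / 2 : ℝ)) := by
        rw [← Real.rpow_natCast, ← Real.rpow_mul (Nat.cast_nonneg n)]
        congr 1; push_cast; ring
    _ ≤ _ := h1

/-- (N3b) `(√n)^(R √n n^(1/4)) ≤ 2^(ε n)` -/
theorem sqrt_rpow_le (R : ℝ) {ε : ℝ} (hε : 0 < ε) : ∃ n₀ : ℕ, ∀ n : ℕ, n₀ ≤ n →
    (√(n:ℝ)) ^ (R * √(n:ℝ) * (n:ℝ) ^ (1 / 4 : ℝ)) ≤ (2:ℝ) ^ (ε * n) := by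
  obtain ⟨n₀, h⟩ := rpow_rpow_le (R / 2) (a := 3 / 4) (by norm_num) hε
  refine ⟨max n₀ 1, fun n hn => ?_⟩
  have h1 := h n ((le_max_left _ _).trans hn)
  have hn1 : (1:ℝ) ≤ n := by exact_mod_cast (le_max_right _ _).trans hn
  have hnp : (0:ℝ) < n := by linarith
  rw [Real.sqrt_eq_rpow]
  calc ((n:ℝ) ^ (1 / 2 : ℝ)) ^ (R * (n:ℝ) ^ (1 / 2 : ℝ) * (n:ℝ) ^ (1 / 4 : ℝ)) =
      (n:ℝ) ^ (R / 2 * (n:ℝ) ^ (3 / 4 : ℝ)) := by
        rw [← Real.rpow_mul hnp.le]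
        congr 1
        have : (n:ℝ) ^ (3 / 4 : ℝ) = (n:ℝ) ^ (1 / 2 : ℝ) * (n:ℝ) ^ (1 / 4 : ℝ) := by
          rw [← Real.rpow_add hnp]; norm_num
        rw [this]; ring
    _ ≤ _ := h1

end Vale.Agent.P160.Half.CntNum
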