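import Vale.Agent.P160.Half.SmallP172
import Mathlib.Analysis.SpecialFunctions.Log.Base

/-! # P160 half: numerical lemmas for `CntStmt` (helper276) -/

namespace Vale.Agent.P160.Half.F.Cnt276

open Finset

theorem pow_lt_of_not_dvd {m p a : ℕ} (hp : p.Prime) (h : ¬ p ^ Nat.clog p m ∣ p ^ a) :
    p ^ a < m := by
  have h1 : a < Nat.clog p m := by
    by_contra hcon
    exact h (pow_dvd_pow p (not_lt.mp hcon))
  exact (Nat.lt_clog_iff_pow_lt hp.one_lt).mp h1

theorem clog_dvd {m p : ℕ} (hp : p.Prime) (h1 : m ≤ p) : p ^ Nat.clog p m ∣ p := by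
  have h2 : Nat.clog p m ≤ 1 := by
    rw [Nat.clog_le_iff_le_pow hp.one_lt]
    simpa using h1
  calc p ^ Nat.clog p m ∣ p ^ 1 := pow_dvd_pow p h2
    _ = p := pow_one p

theorem lam_ineq {δ : ℝ} (hδ : 0 < δ) {v : ℝ} (hv : 1 ≤ v) :
    1 + (δ * Real.log 2) ^ 2 / 32 * (4 * (v + 1) ^ 2) ≤ (2 : ℝ) ^ (δ * v) := by
  have hl : 0 < Real.log 2 := Real.log_pos (by norm_num)
  rw [Real.rpow_def_of_pos (by norm_num : (0 : ℝ) < 2)]
  have hy : 0 ≤ Real.log 2 * (δ * v) := by positivity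
  have h1 := Real.quadratic_le_exp_of_nonneg hy
  have h2 : (v + 1) ^ 2 ≤ 4 * v ^ 2 := by nlinarith
  have h3 : (δ * Real.log 2) ^ 2 / 32 * (4 * (v + 1) ^ 2) ≤
      (δ * Real.log 2) ^ 2 / 32 * (4 * (4 * v ^ 2)) := by
    apply mul_le_mul_of_nonneg_left _ (by positivity)
    linarith
  have h4 : (δ * Real.log 2) ^ 2 / 32 * (4 * (4 * v ^ 2)) = (Real.log 2 * (δ * v)) ^ 2 / 2 := by ring
  linarith

/-- `∑ v_p log₂ p ≤ log₂ D` over any set of primes -/
theorem sum_fact_le {D : ℕ} (hD : D ≠ 0) (S : Finset ℕ) (hS : ∀ p ∈ S, p.Prime) :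
    ∑ p ∈ S, (D.factorization p : ℝ) * Real.logb 2 p ≤ Real.logb 2 D := by
  classical
  have h1 : ∏ p ∈ S, p ^ D.factorization p ∣ D := by
    have h2 : ∏ p ∈ S ∩ D.primeFactors, p ^ D.factorization p = ∏ p ∈ S, p ^ D.factorization p := by
      apply prod_subset inter_subset_left
      intro p hp hp2
      have : p ∉ D.primeFactors := fun h => hp2 (mem_inter.mpr ⟨hp, h⟩)
      rw [← Nat.support_factorization, Finsupp.notMem_support_iff] at this
      rw [this, pow_zero]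
    rw [← h2]
    calc ∏ p ∈ S ∩ D.primeFactors, p ^ D.factorization p ∣ ∏ p ∈ D.primeFactors, p ^ D.factorization p :=
          prod_dvd_prod_of_subset _ _ _ inter_subset_right
      _ = D := Nat.prod_factorization_pow_eq_self hD
  have h2 : (∏ p ∈ S, p ^ D.factorization p : ℕ) ≤ D := Nat.le_of_dvd (Nat.pos_of_ne_zero hD) h1
  have h3 : ∑ p ∈ S, (D.factorization p : ℝ) * Real.logb 2 p =
      Real.logb 2 (∏ p ∈ S, p ^ D.factorization p : ℕ) := by
    push_cast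
    rw [Real.logb_prod]
    · refine sum_congr rfl fun p _ => ?_
      rw [Real.logb_pow]
    · intro p hp
      have := (hS p hp).pos
      positivity
  rw [h3]
  apply Real.logb_le_logb_of_le (by norm_num)
  · have : 0 < ∏ p ∈ S, p ^ D.factorization p := prod_pos fun p hp => pow_pos (hS p hp).pos _
    exact_mod_cast this
  · exact_mod_cast h2

/-- the growth facts: `log₂ n ≤ η n^ζ`, `log₂ n` large -/
theorem evn (ζ η L₀ : ℝ) (hζ : 0 < ζ) (hη : 0 < η) : ∃ n₀ : ℕ, ∀ n : ℕ, n₀ ≤ n →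
    Real.logb 2 n ≤ η * (n : ℝ) ^ ζ ∧ L₀ ≤ Real.logb 2 n ∧ 16 ≤ n := by
  have h1 : Filter.Tendsto (fun n : ℕ => (n : ℝ)) Filter.atTop Filter.atTop := tendsto_natCast_atTop_atTop
  have h2 := (isLittleO_log_rpow_atTop hζ).def
    (by have := Real.log_pos (by norm_num : (1 : ℝ) < 2); positivity : 0 < η * Real.log 2)
  have h3 : ∀ᶠ n : ℕ in Filter.atTop, ‖Real.log (n : ℝ)‖ ≤ η * Real.log 2 * ‖(n : ℝ) ^ ζ‖ :=
    h1.eventually h2
  have h5 : Filter.Tendsto (fun n : ℕ => Real.logb 2 n) Filter.atTop Filter.atTop :=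
    (Real.tendsto_logb_atTop (by norm_num)).comp h1
  have h6 := h3.and ((h5.eventually_ge_atTop L₀).and (Filter.eventually_ge_atTop 16))
  obtain ⟨n₀, hn₀⟩ := Filter.eventually_atTop.mp h6
  refine ⟨n₀, fun n hn => ?_⟩
  obtain ⟨a, c, d⟩ := hn₀ n hn
  refine ⟨?_, c, d⟩
  have hl : 0 < Real.log 2 := Real.log_pos (by norm_num)
  rw [Real.norm_of_nonneg (by positivity : (0 : ℝ) ≤ (n : ℝ) ^ ζ)] at a
  have a' := (le_abs_self _).trans a
  rw [Real.logb, div_le_iff₀ hl]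
  linarith

end Vale.Agent.P160.Half.F.Cnt276
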