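import Vale.Agent.P160.Half.Fin.FStmt

/-! # P160, final assembly: coranks modulo all primes (`CorStmt`) -/

namespace Vale.Agent.P160.Half.F

open Finset Matrix Vale.Agent.P160.Half Vale.Agent.P160.Half.A

theorem rank_prin_univ {m : ℕ} {R : Type*} [Field R] (M : Matrix (Fin m) (Fin m) R) :
    (prin M univ).rank = M.rank := by
  have h : prin M univ = M.submatrix (Equiv.subtypeUnivEquiv (fun a => mem_univ a))
      (Equiv.subtypeUnivEquiv (fun a => mem_univ a)) := rfl
  rw [h, Matrix.rank_submatrix]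

theorem corStmt : CorStmt := by
  classical
  intro C
  set c : ℕ := ⌈C⌉₊ with hc
  refine ⟨1, Real.sqrt (2 * (c + 12)) + 1, fun n hn => ?_⟩
  have hn1 : (1 : ℝ) ≤ n := by exact_mod_cast hn
  set k : ℕ := ⌈Real.sqrt (2 * (c + 12) * n)⌉₊ with hk
  have hk1 : Real.sqrt (2 * (c + 12) * n) ≤ k := Nat.le_ceil _
  have hk2 : (k : ℝ) < Real.sqrt (2 * (c + 12) * n) + 1 := Nat.ceil_lt_add_one (Real.sqrt_nonneg _)
  have hk3 : 2 * (c + 12) * n ≤ k ^ 2 := by
    have h1 : (2 * (c + 12) * n : ℝ) ≤ (k : ℝ) ^ 2 := by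
      calc (2 * (c + 12) * n : ℝ) = Real.sqrt (2 * (c + 12) * n) ^ 2 := (Real.sq_sqrt (by positivity)).symm
        _ ≤ (k : ℝ) ^ 2 := pow_le_pow_left₀ (Real.sqrt_nonneg _) hk1 2
    exact_mod_cast h1
  have hk4 : (k : ℝ) ≤ (Real.sqrt (2 * (c + 12)) + 1) * Real.sqrt n := by
    have h2 : (1 : ℝ) ≤ Real.sqrt n := by
      rw [show (1 : ℝ) = Real.sqrt 1 by simp]
      exact Real.sqrt_le_sqrt hn1
    rw [Real.sqrt_mul (by positivity)] at hk2
    linarith
  have hcor := card_corank_le_exp (α := Fin n) c k (by rw [Fintype.card_fin]; exact hn)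
    (by rw [Fintype.card_fin]; exact hk3)
  rw [Fintype.card_fin] at hcor
  set S := univ.filter fun b : Sym2 (Fin n) → Bool => ∃ (p : ℕ) (_ : Fact p.Prime) (T : Finset (Fin n)),
    (prin ((matZ b).map (Int.cast : ℤ → ZMod p)) T).rank + k ≤ T.card with hS
  have hsub : (univ.filter fun b : Bits n => ¬ CorOK (Real.sqrt (2 * (c + 12)) + 1) (matZ b)) ⊆ S := by
    intro b hb
    have h1 := (mem_filter.1 hb).2
    unfold CorOK at h1
    push Not at h1
    obtain ⟨p, hp, h2⟩ := h1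
    have : Fact p.Prime := ⟨hp⟩
    refine mem_filter.2 ⟨mem_univ _, p, this, univ, ?_⟩
    rw [rank_prin_univ, card_univ, Fintype.card_fin]
    have h3 : k ≤ crk (matZ b) p := by exact_mod_cast (hk4.trans h2.le)
    have h4 : ((matZ b).map (Int.cast : ℤ → ZMod p)).rank ≤ n := by
      have := Matrix.rank_le_card_width ((matZ b).map (Int.cast : ℤ → ZMod p))
      rwa [Fintype.card_fin] at this
    unfold crk at h3
    omega
  have h5 : ((univ.filter fun b : Bits n => ¬ CorOK (Real.sqrt (2 * (c + 12)) + 1) (matZ b)).card : ℝ) ≤ S.card := by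
    exact_mod_cast card_le_card hsub
  have h6 : (S.card : ℝ) * 2 ^ (c * n) ≤ 2 ^ Fintype.card (Sym2 (Fin n)) := by
    have := hcor
    exact_mod_cast this
  have h7 : (2 : ℝ) ^ (C * n) ≤ (2 : ℝ) ^ (c * n) := by
    rw [← Real.rpow_natCast 2 (c * n)]
    refine Real.rpow_le_rpow_of_exponent_le (by norm_num) ?_
    push_cast
    exact mul_le_mul_of_nonneg_right (Nat.le_ceil C) (by positivity)
  have h8 : (0 : ℝ) < (2 : ℝ) ^ (C * n) := Real.rpow_pos_of_pos (by norm_num) _
  refine h5.trans ?_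
  rw [Real.rpow_neg (by norm_num), inv_mul_eq_div, le_div_iff₀ h8]
  exact (mul_le_mul_of_nonneg_left h7 (by positivity)).trans h6

end Vale.Agent.P160.Half.F
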