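import Vale.Agent.P160.Half.Fin.FStmt

/-! # P160, rate 1/2: `CorStmt` of the final assembly (helper363) -/

namespace Vale.Agent.P160.Half.F.Cor363

open Finset Matrix Vale.Agent.P160.Half Vale.Agent.P160.Half.A

theorem rank_prin_univ {α R : Type*} [Fintype α] [DecidableEq α] [CommRing R]
    (M : Matrix α α R) : (prin M (univ : Finset α)).rank = M.rank :=
  Matrix.rank_submatrix M (Equiv.subtypeUnivEquiv fun x => mem_univ x)
    (Equiv.subtypeUnivEquiv fun x => mem_univ x)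

theorem corStmt : CorStmt := by
  classical
  intro C
  set C' : ℕ := ⌈max C 0⌉₊ with hC'
  have hCC : C ≤ C' := (le_max_left C 0).trans (Nat.le_ceil _)
  set D : ℝ := 2 * ((C' : ℝ) + 12) with hD
  have hD0 : 0 ≤ D := by positivity
  refine ⟨1, Real.sqrt D + 1, fun n hn => ?_⟩
  set k : ℕ := ⌈Real.sqrt (D * n)⌉₊ with hkdef
  have hk1 : Real.sqrt (D * n) ≤ k := Nat.le_ceil _
  have hk2 : (k : ℝ) < Real.sqrt (D * n) + 1 := Nat.ceil_lt_add_one (Real.sqrt_nonneg _)
  have hk : 2 * (C' + 12) * Fintype.card (Fin n) ≤ k ^ 2 := by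
    rw [Fintype.card_fin]
    have h2 : D * n ≤ (k : ℝ) ^ 2 := by
      calc D * n = Real.sqrt (D * n) ^ 2 := (Real.sq_sqrt (by positivity)).symm
        _ ≤ (k : ℝ) ^ 2 := pow_le_pow_left₀ (Real.sqrt_nonneg _) hk1 2
    rw [hD] at h2
    exact_mod_cast h2
  have h := card_corank_le_exp (α := Fin n) C' k (by rw [Fintype.card_fin]; exact hn) hk
  have hsub : (univ.filter fun b : Bits n => ¬ CorOK (Real.sqrt D + 1) (matZ b)) ⊆
      univ.filter fun b : Sym2 (Fin n) → Bool => ∃ (p : ℕ) (_ : Fact p.Prime) (T : Finset (Fin n)),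
        (prin ((matZ b).map (Int.cast : ℤ → ZMod p)) T).rank + k ≤ T.card := by
    intro b hb
    rw [mem_filter] at hb ⊢
    refine ⟨mem_univ _, ?_⟩
    have hb2 := hb.2
    unfold CorOK at hb2
    push Not at hb2
    obtain ⟨p, hp, hlt⟩ := hb2
    refine ⟨p, ⟨hp⟩, univ, ?_⟩
    rw [rank_prin_univ, card_univ, Fintype.card_fin]
    have h1 : (1 : ℝ) ≤ Real.sqrt n := by
      rw [Real.one_le_sqrt]
      exact_mod_cast hn
    have h2 : Real.sqrt (D * n) = Real.sqrt D * Real.sqrt n := Real.sqrt_mul hD0 _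
    have h3 : (k : ℝ) < crk (matZ b) p := by
      have h4 : (Real.sqrt D + 1) * Real.sqrt n = Real.sqrt (D * n) + Real.sqrt n := by
        rw [h2]
        ring
      linarith
    have h5 : k < crk (matZ b) p := by exact_mod_cast h3
    unfold crk at h5
    omega
  have hcard := card_le_card hsub
  rw [Fintype.card_fin] at h
  set N1 := (univ.filter fun b : Bits n => ¬ CorOK (Real.sqrt D + 1) (matZ b)).card with hN1
  have h6 : N1 * 2 ^ (C' * n) ≤ 2 ^ Fintype.card (Sym2 (Fin n)) :=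
    (Nat.mul_le_mul_right _ hcard).trans h
  have h7 : (N1 : ℝ) * (2 : ℝ) ^ ((C' : ℝ) * n) ≤ 2 ^ Fintype.card (Sym2 (Fin n)) := by
    have e : (2 : ℝ) ^ ((C' : ℝ) * n) = (2 : ℝ) ^ (C' * n) := by
      rw [← Real.rpow_natCast]
      push_cast
      rfl
    rw [e]
    exact_mod_cast h6
  have h8 : (N1 : ℝ) ≤ (2 : ℝ) ^ (-((C' : ℝ) * n)) * 2 ^ Fintype.card (Sym2 (Fin n)) := by
    rw [Real.rpow_neg (by norm_num), ← div_eq_inv_mul, le_div_iff₀ (by positivity)]
    exact h7
  refine h8.trans (mul_le_mul_of_nonneg_right ?_ (by positivity))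
  refine Real.rpow_le_rpow_of_exponent_le (by norm_num) ?_
  have := mul_le_mul_of_nonneg_right hCC (Nat.cast_nonneg (α := ℝ) n)
  linarith

end Vale.Agent.P160.Half.F.Cor363
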