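import Vale.Agent.P160.Half.Fin.FStmt
import Vale.Agent.P160.Half.HadW136

/-! # P160, rate 1/2: `(M)` with loss `1/(4 β)` from the killed lemma; the case `β = 1` (helper12)

`N2 β P ≤ n / (4 β)` by Hadamard, hence the killed lemma alone gives `StmtM (1/(4 β)) β ζ`. `MidStmt 1` is trivial (there are no
primes with `n ≤ p < n`), so the first loss `1/4` needs no mid primes. -/

set_option linter.unusedVariables false

namespace Vale.Agent.P160.Half.F

open Finset Matrix Vale.Agent.P160.Half Vale.Agent.P160.Half.A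

theorem midSet_one {n : ℕ} (A : Matrix (Fin (n + 1)) (Fin (n + 1)) ℤ) (v : Fin (n + 1) → ℤ)
    (j : Fin (n + 1)) : midSet 1 A v j = ∅ := by
  unfold midSet
  refine filter_eq_empty_iff.2 fun p _ h => ?_
  obtain ⟨h1, h2, -⟩ := h
  rw [Real.rpow_one] at h2
  exact absurd h1 (not_le.2 (by exact_mod_cast h2))

/-- there are no mid primes for `β = 1` -/
theorem midStmt_one : MidStmt 1 := by
  classical
  intro θ δ ε hθ hδ hε
  refine ⟨1, fun n hn => ?_⟩
  have h0 : ((univ : Finset (Bits (n + 1))).filter fun b =>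
      ((matZ b).map (Int.cast : ℤ → ℚ)).rank = n ∧ ∃ v : Fin (n + 1) → ℤ, PrimKer (matZ b) v ∧
      θ * n ≤ ((univ.filter fun j => v j ≠ 0 ∧ δ * n < ((midSet 1 (matZ b) v j).card : ℝ)).card : ℝ)) = ∅ := by
    refine filter_eq_empty_iff.2 fun b _ h => ?_
    obtain ⟨-, v, -, h⟩ := h
    have hn' : (0 : ℝ) < n := by exact_mod_cast hn
    have h1 : (univ.filter fun j => v j ≠ 0 ∧ δ * n < ((midSet 1 (matZ b) v j).card : ℝ)) = ∅ := by
      refine filter_eq_empty_iff.2 fun j _ hj => ?_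
      have h2 := hj.2
      rw [midSet_one, card_empty, Nat.cast_zero] at h2
      have := mul_pos hδ hn'
      linarith
    rw [h1, card_empty, Nat.cast_zero] at h
    have := mul_pos hθ hn'
    linarith
  have h3 : (0 : ℝ) ≤ (2 : ℝ) ^ (-((1 - ε) * n)) * 2 ^ Fintype.card (Sym2 (Fin (n + 1))) := by
    positivity
  convert h3
  exact_mod_cast (by rw [← card_eq_zero] at h0; convert h0)

namespace E12

theorem matZ_abs_le {n : ℕ} (b : Bits n) (i l : Fin n) : |matZ b i l| ≤ ((1 : ℕ) : ℤ) := by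
  have : matZ b i l = 0 ∨ matZ b i l = 1 := by
    unfold matZ
    split_ifs
    · right; rfl
    · left; rfl
  rcases this with h | h <;> rw [h] <;> simp

theorem rankQ_of_det {n : ℕ} (b : Bits n) (h : (matZ b).det ≠ 0) :
    ((matZ b).map (Int.cast : ℤ → ℚ)).rank = n := by
  have h1 : ((matZ b).map (Int.cast : ℤ → ℚ)).det ≠ 0 := by
    have h2 := (Int.castRingHom ℚ).map_det (matZ b)
    intro h3
    apply h
    have h4 : ((matZ b).map (Int.cast : ℤ → ℚ)).det = (((matZ b).det : ℤ) : ℚ) := by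
      rw [show (((matZ b).det : ℤ) : ℚ) = Int.castRingHom ℚ (matZ b).det from rfl, h2]
      rfl
    rw [h3] at h4
    exact_mod_cast h4.symm
  have h5 : IsUnit ((matZ b).map (Int.cast : ℤ → ℚ)) := by
    rw [Matrix.isUnit_iff_isUnit_det]
    exact isUnit_iff_ne_zero.2 h1
  have := Matrix.rank_of_isUnit _ h5
  simpa using this

/-- Hadamard: at most `n / (4 β)` primes `p ≥ n ^ β` with corank at least two -/
theorem N2_le_had {n : ℕ} (hn : 2 ≤ n) (β : ℝ) (hβ : 0 ≤ β) (b : Bits n) (h : (matZ b).det ≠ 0) :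
    4 * β * (N2 β (matZ b) : ℝ) ≤ n := by
  classical
  set B := ((matZ b).det.natAbs.primeFactors.filter fun p : ℕ =>
    (n : ℝ) ^ β ≤ p ∧ 2 ≤ crk (matZ b) p) with hB
  have hN : N2 β (matZ b) = B.card := by
    unfold N2
    rfl
  have hrkQ := rankQ_of_det b h
  have h1 := HadW136.hadW (matZ b) 1 (matZ_abs_le b) B
    (fun p hp => Nat.prime_of_mem_primeFactors (mem_filter.1 hp).1) (fun _ => 2) (fun p hp => by
      have h2 := (mem_filter.1 hp).2.2
      unfold crk at h2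
      rw [hrkQ]
      omega)
  rw [hrkQ, one_pow, one_mul] at h1
  have hn0 : (0 : ℝ) < n := by exact_mod_cast (by omega : 0 < n)
  have hn1 : (1 : ℝ) < n := by exact_mod_cast (by omega : 1 < n)
  have h2 : (n : ℝ) ^ (β * (2 * B.card)) ≤ ((∏ p ∈ B, p ^ 2 : ℕ) : ℝ) := by
    have e1 : (n : ℝ) ^ (β * (2 * B.card)) = ∏ p ∈ B, ((n : ℝ) ^ β) ^ 2 := by
      rw [prod_const, ← pow_mul, Real.rpow_mul hn0.le]
      rw [show (2 * (B.card : ℝ)) = ((2 * B.card : ℕ) : ℝ) by push_cast; ring, Real.rpow_natCast]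
    rw [e1]
    push_cast
    refine prod_le_prod (fun _ _ => by positivity) fun p hp => ?_
    exact pow_le_pow_left₀ (by positivity) (mem_filter.1 hp).2.1 2
  have h3 : (n : ℝ) ^ (4 * β * B.card) ≤ (n : ℝ) ^ (n : ℝ) := by
    calc (n : ℝ) ^ (4 * β * B.card) = ((n : ℝ) ^ (β * (2 * B.card))) ^ (2 : ℕ) := by
          rw [← Real.rpow_natCast, ← Real.rpow_mul hn0.le]
          congr 1
          push_cast
          ring
      _ ≤ ((∏ p ∈ B, p ^ 2 : ℕ) : ℝ) ^ 2 := pow_le_pow_left₀ (by positivity) h2 2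
      _ ≤ ((n ^ n : ℕ) : ℝ) := by exact_mod_cast h1
      _ = (n : ℝ) ^ (n : ℝ) := by rw [Real.rpow_natCast]; push_cast; ring
  rw [hN]
  exact (Real.rpow_le_rpow_left_iff hn1).1 h3

open Classical in
/-- **KILLP**: the killed lemma for nonsingular `P` -/
def KillPStmt (ζ : ℝ) : Prop := ∀ ε : ℝ, 0 < ε → ∃ n₀ : ℕ, ∀ n ≥ n₀, ∀ z : ℕ, (z : ℝ) * Real.logb 2 n ≤ 4 * n →
  (((univ : Finset (Bits n)).filter fun b => (matZ b).det ≠ 0 ∧ Kill ζ (matZ b) z).card : ℝ) ≤
    (2 : ℝ) ^ (-((1 / 2 - ζ) * z * Real.logb 2 n) + ε * n) * 2 ^ Fintype.card (Sym2 (Fin n))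

/-- `(M)` with loss `1/(4 β)`, from the killed lemma alone -/
theorem stmtM_had (β ζ : ℝ) (hβ : 1 ≤ β) (hK : KillPStmt ζ) : StmtM (1 / (4 * β)) β ζ := by
  classical
  intro ε hε
  obtain ⟨n₀, h₀⟩ := hK ε hε
  refine ⟨max n₀ 2, fun n hn z t hz => ?_⟩
  have hn0 : n₀ ≤ n := le_trans (le_max_left _ _) hn
  have hn2 : 2 ≤ n := le_trans (le_max_right _ _) hn
  have hnR : (0 : ℝ) < n := by exact_mod_cast (by omega : 0 < n)
  have hβ0 : 0 < β := by linarith
  rcases le_or_gt (4 * β * t) (n : ℝ) with ht | ht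
  · have h1 := h₀ n hn0 z hz
    have h2 : ((univ : Finset (Bits n)).filter fun b => (matZ b).det ≠ 0 ∧ Kill ζ (matZ b) z ∧ t ≤ N2 β (matZ b)).card ≤
        ((univ : Finset (Bits n)).filter fun b => (matZ b).det ≠ 0 ∧ Kill ζ (matZ b) z).card :=
      card_le_card fun b hb => by
        rw [mem_filter] at hb ⊢
        exact ⟨hb.1, hb.2.1, hb.2.2.1⟩
    refine (Nat.cast_le.2 h2).trans (h1.trans ?_)
    refine mul_le_mul_of_nonneg_right ?_ (by positivity)
    refine Real.rpow_le_rpow_of_exponent_le one_le_two ?_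
    have hlog : 0 ≤ Real.logb 2 n := Real.logb_nonneg one_lt_two (by exact_mod_cast (by omega : 1 ≤ n))
    have h3 : max 0 (1 - 2 * β * (z * Real.logb 2 n / n)) ≤ (1 : ℝ) := by
      refine max_le zero_le_one ?_
      have : 0 ≤ 2 * β * (z * Real.logb 2 n / n) := by positivity
      linarith
    have h5 : (t : ℝ) * max 0 (1 - 2 * β * (z * Real.logb 2 n / n)) ≤ 1 / (4 * β) * n := by
      have h6 : (t : ℝ) ≤ 1 / (4 * β) * n := by
        rw [one_div, ← div_eq_inv_mul, le_div_iff₀ (by positivity)]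
        linarith
      calc (t : ℝ) * max 0 (1 - 2 * β * (z * Real.logb 2 n / n)) ≤ (t : ℝ) * 1 :=
            mul_le_mul_of_nonneg_left h3 (Nat.cast_nonneg _)
        _ ≤ 1 / (4 * β) * n := by linarith
    rw [add_mul (1 / (4 * β)) ε (n : ℝ)]
    linarith
  · have h2 : ((univ : Finset (Bits n)).filter fun b => (matZ b).det ≠ 0 ∧ Kill ζ (matZ b) z ∧ t ≤ N2 β (matZ b)) = ∅ := by
      refine filter_eq_empty_iff.2 fun b _ h => ?_
      have h3 := N2_le_had hn2 β hβ0.le b h.1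
      have h4 : (t : ℝ) ≤ (N2 β (matZ b) : ℝ) := by exact_mod_cast h.2.2
      have h5 : 4 * β * (t : ℝ) ≤ 4 * β * (N2 β (matZ b) : ℝ) := mul_le_mul_of_nonneg_left h4 (by positivity)
      linarith
    rw [h2, card_empty, Nat.cast_zero]
    positivity

/-- loss `1/(4 β)` from the assembly and the killed lemma -/
theorem cor1_had (β : ℝ) (hβ : 1 ≤ β) (hF : FinalStmt) (hR : RichSmall) (hK : ∀ ζ : ℝ, 0 < ζ → ζ < 1 / 16 → KillPStmt ζ)
    (hS : SparseStmt) (hT : TameStmt) (hMid : MidStmt β) (hC : CorStmt) (hN : ∀ ζ : ℝ, 0 < ζ → ζ < 1 / 16 → CntStmt ζ) :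
    Cor1 (1 / (4 * β)) :=
  hF (1 / (4 * β)) β (by positivity) hβ hR (fun ζ h1 h2 => stmtM_had β ζ hβ (hK ζ h1 h2)) hS hT hMid hC hN

/-- loss `1/4` from the assembly and the killed lemma, without mid primes -/
theorem cor1_quarter (hF : FinalStmt) (hR : RichSmall) (hK : ∀ ζ : ℝ, 0 < ζ → ζ < 1 / 16 → KillPStmt ζ)
    (hS : SparseStmt) (hT : TameStmt) (hC : CorStmt) (hN : ∀ ζ : ℝ, 0 < ζ → ζ < 1 / 16 → CntStmt ζ) :
    Cor1 (1 / 4) := by
  have := cor1_had 1 le_rfl hF hR hK hS hT midStmt_one hC hN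
  rwa [mul_one] at this

end E12

end Vale.Agent.P160.Half.F
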