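import Mathlib

/-! # P160, rate 1/2: exponent arithmetic of the final assembly (helper602)

Text: note 11281 (8), interface `Fin/FStmt.lean` v2.  `L = log₂ n`. -/

namespace Vale.Agent.P160.Half.Expo602

/-- the cost of the labels against the gain of `StmtM`: `C = log₂ |c|`, `T` = number of big primes, `t` of them at least `n^β`,
`z + 1` = size of the zero set, `w` = label cost of the selected index. -/
theorem expo (n L β ζ θ δ z t T w C : ℝ) (hn : 0 < n) (hL : 0 ≤ L) (hβ : 0 ≤ β) (hζ : 0 ≤ ζ) (hθ : 0 ≤ θ) (hθ' : θ ≤ 1 / 2)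
    (hz : 0 ≤ z) (ht : 0 ≤ t) (hzL : z * L ≤ 4 * n) (hT : T ≤ t + δ * n) (hC0 : 0 ≤ C) (hC : C ≤ (n / 2 - 2 * β * t) * L)
    (hw : w ≤ (z + 1) * C / ((1 - θ) * n)) :
    T + w - ((1 / 2 - ζ) * z * L + t * max 0 (1 - 2 * β * (z * L / n))) ≤ (δ + 4 * ζ + 4 * θ) * n + L := by
  have h1 : 1 / (1 - θ) ≤ 1 + 2 * θ := by
    rw [div_le_iff₀ (by linarith)]
    nlinarith
  have hpos : 0 ≤ (z + 1) * C / n := by positivity
  have h2 : w ≤ (1 + 2 * θ) * ((z + 1) * C / n) := by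
    refine hw.trans ?_
    have : (z + 1) * C / ((1 - θ) * n) = 1 / (1 - θ) * ((z + 1) * C / n) := by
      have : (1 - θ) ≠ 0 := by linarith
      field_simp
    rw [this]
    exact mul_le_mul_of_nonneg_right h1 hpos
  -- `C / n` in terms of `L`
  have h3 : (z + 1) * C / n ≤ (z + 1) * ((1 / 2 - 2 * β * t / n) * L) := by
    rw [mul_div_assoc]
    refine mul_le_mul_of_nonneg_left ?_ (by linarith)
    rw [div_le_iff₀ hn]
    refine hC.trans (le_of_eq ?_)
    field_simp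
  have h4 : (z + 1) * ((1 / 2 - 2 * β * t / n) * L) ≤ z * L / 2 - 2 * β * t * (z * L / n) + L / 2 := by
    have e1 : (z + 1) * ((1 / 2 - 2 * β * t / n) * L) =
        z * L / 2 - 2 * β * t * (z * L / n) + L / 2 - 2 * β * t / n * L := by
      field_simp
      ring
    rw [e1]
    have : 0 ≤ 2 * β * t / n * L := by positivity
    linarith
  have h5 : (z + 1) * C / n ≤ (z + 1) * L / 2 := by
    refine h3.trans ?_
    have e1 : (z + 1) * ((1 / 2 - 2 * β * t / n) * L) = (z + 1) * L / 2 - (z + 1) * (2 * β * t / n * L) := by ring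
    rw [e1]
    have : 0 ≤ (z + 1) * (2 * β * t / n * L) := by positivity
    linarith
  have h6 : w ≤ z * L / 2 - 2 * β * t * (z * L / n) + L / 2 + θ * ((z + 1) * L) := by
    have : 2 * θ * ((z + 1) * C / n) ≤ θ * ((z + 1) * L) := by
      have := mul_le_mul_of_nonneg_left h5 (by linarith : 0 ≤ 2 * θ)
      linarith
    linarith
  have h7 : t * (1 - 2 * β * (z * L / n)) ≤ t * max 0 (1 - 2 * β * (z * L / n)) :=
    mul_le_mul_of_nonneg_left (le_max_right _ _) ht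
  have h8 : θ * ((z + 1) * L) ≤ 4 * θ * n + L / 2 := by
    have := mul_le_mul_of_nonneg_left hzL hθ
    have := mul_le_mul_of_nonneg_right hθ' hL
    nlinarith
  have h9 : ζ * (z * L) ≤ ζ * (4 * n) := mul_le_mul_of_nonneg_left hzL hζ
  nlinarith

/-- polynomial and logarithmic factors are absorbed -/
theorem absorb (k : ℕ) (ε : ℝ) (hε : 0 < ε) : ∃ n₀ : ℕ, ∀ n ≥ n₀, ((n : ℝ) + 2) ^ k ≤ (2 : ℝ) ^ (ε * n) := by
  have h := (isLittleO_pow_exp_pos_mul_atTop k (b := ε * Real.log 2 / 2) (by positivity))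
  have h1 := (h.comp_tendsto (Filter.tendsto_atTop_add_const_right _ (2 : ℝ) tendsto_natCast_atTop_atTop)).bound
    (c := Real.exp (-(ε * Real.log 2))) (Real.exp_pos _)
  obtain ⟨n₀, hn₀⟩ := Filter.eventually_atTop.1 h1
  refine ⟨n₀, fun n hn => ?_⟩
  have h2 := hn₀ n hn
  simp only [Function.comp_apply, Real.norm_eq_abs, abs_pow, Real.abs_exp] at h2
  rw [abs_of_nonneg (by positivity : (0 : ℝ) ≤ (n : ℝ) + 2)] at h2
  refine h2.trans ?_
  rw [← Real.exp_add, Real.rpow_def_of_pos (by norm_num), Real.exp_le_exp]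
  have : 0 ≤ (n : ℝ) := by positivity
  have : 0 < Real.log 2 := Real.log_pos (by norm_num)
  have : 0 ≤ (n : ℝ) * (ε * Real.log 2) := by positivity
  nlinarith

/-- `log₂ n ≤ ε n` eventually -/
theorem logb_le (ε : ℝ) (hε : 0 < ε) : ∃ n₀ : ℕ, 2 ≤ n₀ ∧ ∀ n ≥ n₀, Real.logb 2 n ≤ ε * n := by
  obtain ⟨n₀, h⟩ := absorb 1 ε hε
  refine ⟨max n₀ 2, le_max_right _ _, fun n hn => ?_⟩
  have h1 := h n ((le_max_left _ _).trans hn)
  have h2 : 2 ≤ n := (le_max_right _ _).trans hn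
  have h3 : (0 : ℝ) < n := by positivity
  rw [Real.logb_le_iff_le_rpow (by norm_num) h3]
  refine le_trans ?_ h1
  simp

/-- **the end of the assembly**: one term of the union bound, and the number of terms -/
theorem expo_end (lam β ε : ℝ) (hβ : 0 ≤ β) (hε : 0 < ε) (k : ℕ) : ∃ ζ θ δ : ℝ, 0 < ζ ∧ ζ < 1 / 16 ∧ 0 < θ ∧ θ ≤ 1 / 2 ∧ 0 < δ ∧
    ∃ n₀ : ℕ, ∀ n ≥ n₀, ∀ z t T w C : ℝ, 0 ≤ z → 0 ≤ t → z * Real.logb 2 n ≤ 4 * n → T ≤ t + δ * n → 0 ≤ C →
      C ≤ (n / 2 - 2 * β * t) * Real.logb 2 n → w ≤ (z + 1) * C / ((1 - θ) * n) →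
      ((n : ℝ) + 2) ^ k * ((2 : ℝ) ^ (-((1 / 2 - ζ) * z * Real.logb 2 n + t * max 0 (1 - 2 * β * (z * Real.logb 2 n / n))) +
        (lam + δ) * n) * ((2 : ℝ) ^ (δ * n) * (2 : ℝ) ^ (T + w + δ * n))) ≤ (2 : ℝ) ^ ((lam + ε) * n) := by
  refine ⟨min (1 / 32) (ε / 64), min (1 / 2) (ε / 64), ε / 16, by positivity, ?_, by positivity, min_le_left _ _, by positivity, ?_⟩
  · exact (min_le_left _ _).trans_lt (by norm_num)
  obtain ⟨n₁, h1⟩ := absorb k (ε / 4) (by positivity)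
  obtain ⟨n₂, -, h2⟩ := logb_le (ε / 8) (by positivity)
  refine ⟨max (max n₁ n₂) 1, fun n hn z t T w C hz ht hzL hT hC0 hC hw => ?_⟩
  have hn1 := h1 n (((le_max_left _ _).trans (le_max_left _ _)).trans hn)
  have hn2 := h2 n (((le_max_right _ _).trans (le_max_left _ _)).trans hn)
  have hn3 : 1 ≤ n := (le_max_right _ _).trans hn
  have hn0 : (0 : ℝ) < n := by positivity
  have hL : 0 ≤ Real.logb 2 n := Real.logb_nonneg (by norm_num) (by exact_mod_cast hn3)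
  have hζ : min (1 / 32 : ℝ) (ε / 64) ≤ ε / 64 := min_le_right _ _
  have hθ : min (1 / 2 : ℝ) (ε / 64) ≤ ε / 64 := min_le_right _ _
  have hmain := expo n (Real.logb 2 n) β (min (1 / 32 : ℝ) (ε / 64)) (min (1 / 2 : ℝ) (ε / 64)) (ε / 16) z t T w C hn0 hL hβ
    (by positivity) (by positivity) (min_le_left _ _) hz ht hzL hT hC0 hC hw
  refine (mul_le_mul_of_nonneg_right hn1 (by positivity)).trans ?_
  rw [← Real.rpow_add (by norm_num), ← Real.rpow_add (by norm_num), ← Real.rpow_add (by norm_num)]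
  refine Real.rpow_le_rpow_of_exponent_le (by norm_num) ?_
  have h3 : (ε / 16 + 4 * min (1 / 32 : ℝ) (ε / 64) + 4 * min (1 / 2 : ℝ) (ε / 64)) * n ≤ (ε / 16 + 4 * (ε / 64) + 4 * (ε / 64)) * n :=
    mul_le_mul_of_nonneg_right (by linarith) hn0.le
  have h4 : 0 ≤ ε * n := by positivity
  nlinarith

end Vale.Agent.P160.Half.Expo602
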