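import Vale.Agent.P160.Half.Fin.FSplit

/-! # P160, rate 1/2: final assembly, union bound -/

set_option linter.unusedVariables false
set_option linter.unusedSectionVars false

namespace Vale.Agent.P160.Half.F

open Finset Matrix Vale.Agent.P160.Half Vale.Agent.P160.Half.A

theorem big (e : ℝ) (he : 0 < e) : ∃ n₀ : ℕ, 2 ≤ n₀ ∧ ∀ n ≥ n₀, ((n : ℝ) + 2) ^ 6 ≤ (2 : ℝ) ^ (e * n) ∧
    0 ≤ Real.logb 2 n ∧ Real.logb 2 n ≤ e * n := by
  have hr : (1 : ℝ) < (2 : ℝ) ^ e := Real.one_lt_rpow (by norm_num) he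
  have h := tendsto_pow_const_div_const_pow_of_one_lt 6 hr
  have h2 := (h.eventually (gt_mem_nhds (show (0 : ℝ) < 1 / 64 by norm_num)))
  obtain ⟨n₁, h3⟩ := Filter.eventually_atTop.1 h2
  refine ⟨max 2 n₁, le_max_left _ _, fun n hn => ?_⟩
  have hn2 : 2 ≤ n := (le_max_left _ _).trans hn
  have hn2' : (2 : ℝ) ≤ n := by exact_mod_cast hn2
  have h4 := h3 n ((le_max_right _ _).trans hn)
  have hpos : (0 : ℝ) < ((2 : ℝ) ^ e) ^ n := by positivity
  have h5 : (n : ℝ) ^ 6 ≤ 1 / 64 * ((2 : ℝ) ^ e) ^ n := by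
    rw [div_lt_iff₀ hpos] at h4
    exact h4.le
  have h6 : ((2 : ℝ) ^ e) ^ n = (2 : ℝ) ^ (e * n) := by
    rw [← Real.rpow_natCast, ← Real.rpow_mul (by norm_num)]
  have h7 : ((n : ℝ) + 2) ^ 6 ≤ (2 : ℝ) ^ (e * n) := by
    calc ((n : ℝ) + 2) ^ 6 ≤ (2 * n) ^ 6 := by
          apply pow_le_pow_left₀ (by positivity)
          linarith
      _ = 64 * (n : ℝ) ^ 6 := by ring
      _ ≤ 64 * (1 / 64 * ((2 : ℝ) ^ e) ^ n) := by linarith
      _ = (2 : ℝ) ^ (e * n) := by rw [h6]; ring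
  refine ⟨h7, Real.logb_nonneg (by norm_num) (by linarith), ?_⟩
  have h8 : (n : ℝ) ≤ (2 : ℝ) ^ (e * n) := by
    refine le_trans ?_ h7
    calc (n : ℝ) ≤ (n : ℝ) + 2 := by linarith
      _ = ((n : ℝ) + 2) ^ 1 := (pow_one _).symm
      _ ≤ ((n : ℝ) + 2) ^ 6 := pow_le_pow_right₀ (by linarith) (by norm_num)
  rw [Real.logb_le_iff_le_rpow (by norm_num) (by linarith)]
  exact h8

/-- the exponents -/
theorem expo (n L z t δ ζ β : ℝ) (hn : 0 < n) (hL : 0 ≤ L) (hz : 0 ≤ z) (ht : 0 ≤ t) (hδ : 0 < δ) (hδ1 : δ ≤ 1 / 2)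
    (hζ : 0 < ζ) (hβ : 1 ≤ β) (hzL : z * L ≤ 4 * n) :
    t + (1 + δ) * (z + 1) * (1 / 2 - 2 * β * t / n) * L ≤
      (1 / 2 - ζ) * z * L + t * max 0 (1 - 2 * β * (z * L / n)) + (4 * ζ + 2 * δ) * n + L := by
  set q : ℝ := 2 * β * t / n with hq
  have hq0 : 0 ≤ q := by rw [hq]; positivity
  have hzL0 : 0 ≤ z * L := mul_nonneg hz hL
  have h1 : t * (1 - 2 * β * (z * L / n)) ≤ t * max 0 (1 - 2 * β * (z * L / n)) :=
    mul_le_mul_of_nonneg_left (le_max_right _ _) ht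
  have h2 : t * (2 * β * (z * L / n)) = q * (z * L) := by rw [hq]; ring
  have h3 : (1 + δ) * (z + 1) * (1 / 2 - q) * L = z * L / 2 - q * (z * L) + (δ * z + 1 + δ) * (1 / 2 - q) * L := by ring
  have h4 : (δ * z + 1 + δ) * (1 / 2 - q) * L ≤ (δ * z + 1 + δ) * (1 / 2) * L := by
    apply mul_le_mul_of_nonneg_right _ hL
    apply mul_le_mul_of_nonneg_left _ (by positivity)
    linarith
  have h5 : (δ * z + 1 + δ) * (1 / 2) * L = δ * (z * L) / 2 + (1 + δ) / 2 * L := by ring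
  have h6 : δ * (z * L) ≤ δ * (4 * n) := mul_le_mul_of_nonneg_left hzL hδ.le
  have h7 : (1 + δ) / 2 * L ≤ L := by nlinarith
  have h8 : ζ * (z * L) ≤ ζ * (4 * n) := mul_le_mul_of_nonneg_left hzL hζ.le
  have h9 : t * (1 - 2 * β * (z * L / n)) = t - q * (z * L) := by rw [mul_sub, mul_one, h2]
  nlinarith

theorem kill_mono (ζ : ℝ) {n : ℕ} (P : Matrix (Fin n) (Fin n) ℤ) {z z' : ℕ} (h : z' ≤ z) (hk : Kill ζ P z) : Kill ζ P z' := by
  rcases hk with h0 | ⟨p, hp, u, h1, h2, h3⟩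
  · left; omega
  · right; exact ⟨p, hp, u, h1, h2, h.trans h3⟩

theorem det_abs_le {n : ℕ} (b : Bits n) (hn : 1 ≤ n) : ((matZ b).det.natAbs : ℝ) ≤ (n : ℝ) ^ n := by
  have h1 : |(matZ b).det| ≤ (n.factorial : ℤ) := by
    have h := Matrix.det_le (A := matZ b) (abv := IsAbsoluteValue.toAbsoluteValue (abs : ℤ → ℤ)) (x := 1) (fun i j => by
      show |matZ b i j| ≤ 1
      exact matZ_abs b i j)
    simpa using h
  have h2 : (((matZ b).det.natAbs : ℤ) : ℤ) ≤ n.factorial := by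
    rw [Int.natCast_natAbs]; exact h1
  have h3 : (matZ b).det.natAbs ≤ n.factorial := by exact_mod_cast h2
  have h4 : n.factorial ≤ n ^ n := Nat.factorial_le_pow n
  exact_mod_cast h3.trans h4

theorem isSymm_matZ {n : ℕ} (b : Bits n) : (matZ b).IsSymm := by
  ext i k
  exact matZ_symm b k i

theorem calc1 (Ec D e n T w X lam L t : ℝ) (hEc : Ec ≤ (2 : ℝ) ^ (-X + (lam + e) * n) * D)
    (hex : t + w ≤ X + (4 * e + 2 * e) * n + L) (hT : T ≤ t + e * n) (hL : L ≤ e * n) (hD : 0 < D) :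
    2 * Ec * ((2 : ℝ) ^ (e * n) * (2 : ℝ) ^ (T + w + e * n)) ≤ 2 * D * ((2 : ℝ) ^ n * (2 : ℝ) ^ (-((1 - lam - 11 * e) * n))) := by
  have h1 : (2 : ℝ) ^ (e * n) * (2 : ℝ) ^ (T + w + e * n) = (2 : ℝ) ^ (e * n + (T + w + e * n)) :=
    (Real.rpow_add (by norm_num) _ _).symm
  have h2 : (2 : ℝ) ^ n * (2 : ℝ) ^ (-((1 - lam - 11 * e) * n)) = (2 : ℝ) ^ (n + -((1 - lam - 11 * e) * n)) :=
    (Real.rpow_add (by norm_num) _ _).symm
  rw [h1, h2]
  calc 2 * Ec * (2 : ℝ) ^ (e * n + (T + w + e * n))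
      ≤ 2 * ((2 : ℝ) ^ (-X + (lam + e) * n) * D) * (2 : ℝ) ^ (e * n + (T + w + e * n)) := by
        apply mul_le_mul_of_nonneg_right _ (by positivity)
        linarith
    _ = 2 * D * ((2 : ℝ) ^ (-X + (lam + e) * n) * (2 : ℝ) ^ (e * n + (T + w + e * n))) := by ring
    _ = 2 * D * (2 : ℝ) ^ ((-X + (lam + e) * n) + (e * n + (T + w + e * n))) := by
        rw [← Real.rpow_add (by norm_num : (0 : ℝ) < 2) (-X + (lam + e) * n)]
    _ ≤ 2 * D * (2 : ℝ) ^ (n + -((1 - lam - 11 * e) * n)) := by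
        apply mul_le_mul_of_nonneg_left _ (by positivity)
        apply Real.rpow_le_rpow_of_exponent_le (by norm_num)
        nlinarith

theorem calc2 (e n L z lam : ℝ) (he : 0 < e) (he1 : e ≤ 1 / 64) (hn : 0 < n) (hL : L ≤ e * n)
    (hz2 : 4 * n - L ≤ z * L) (hlam : 0 ≤ lam) :
    -((1 / 2 - e) * z * L) + (lam + e) * n ≤ -((1 - lam - 11 * e) * n) := by
  have h4 : (1 / 2 - e) * (4 * n - L) ≤ (1 / 2 - e) * (z * L) :=
    mul_le_mul_of_nonneg_left hz2 (by linarith)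
  have h6 : 3 * n ≤ 4 * n - L := by nlinarith
  have h5 : (31 / 64 : ℝ) * (3 * n) ≤ (1 / 2 - e) * (4 * n - L) := by
    apply mul_le_mul (by linarith) h6 (by positivity) (by linarith)
  nlinarith

theorem wle (e n L z t β : ℝ) (he : 0 < e) (he1 : e ≤ 1 / 64) (hn : 0 < n) (hL0 : 0 ≤ L) (hL : L ≤ e * n) (hz : z * L ≤ 4 * n)
    (hz0 : 0 ≤ z) (ht : 0 ≤ t) (hβ : 1 ≤ β) : (1 + e) * (z + 1) * (1 / 2 - 2 * β * t / n) * L ≤ 4 * n := by
  have hy : (1 / 2 : ℝ) - 2 * β * t / n ≤ 1 / 2 := by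
    have : 0 ≤ 2 * β * t / n := by positivity
    linarith
  have h1 : (1 + e) * (z + 1) * (1 / 2 - 2 * β * t / n) * L ≤ (1 + e) * (z + 1) * (1 / 2) * L := by
    apply mul_le_mul_of_nonneg_right _ hL0
    apply mul_le_mul_of_nonneg_left hy (by positivity)
  have h2 : (1 + e) * (z + 1) * (1 / 2) * L = (1 + e) / 2 * (z * L + L) := by ring
  have h3 : (1 + e) / 2 * (z * L + L) ≤ (1 + e) / 2 * (4 * n + e * n) := by
    apply mul_le_mul_of_nonneg_left _ (by positivity)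
    linarith
  have h4 : (1 + e) / 2 * (4 * n + e * n) ≤ 4 * n := by
    have : (1 + e) / 2 * (4 + e) ≤ 4 := by nlinarith
    calc (1 + e) / 2 * (4 * n + e * n) = ((1 + e) / 2 * (4 + e)) * n := by ring
      _ ≤ 4 * n := mul_le_mul_of_nonneg_right this hn.le
  linarith

open Classical in
/-- **one index, one pair of parameters** -/
theorem step (lam β A R e : ℝ) (hlam : 0 ≤ lam) (hβ : 1 ≤ β) (he : 0 < e) (he1 : e ≤ 1 / 64) (hA : 0 ≤ A) (n : ℕ) (hn : 2 ≤ n)
    (hL0 : 0 ≤ Real.logb 2 n) (hL : Real.logb 2 n ≤ e * n)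
    (hM : ∀ z t : ℕ, (z : ℝ) * Real.logb 2 n ≤ 4 * n →
      (((univ : Finset (Bits n)).filter fun b => (matZ b).det ≠ 0 ∧ Kill e (matZ b) z ∧ t ≤ N2 β (matZ b)).card : ℝ) ≤
      (2 : ℝ) ^ (-((1 / 2 - e) * z * Real.logb 2 n + t * max 0 (1 - 2 * β * (z * Real.logb 2 n / n))) + (lam + e) * n) *
        2 ^ Fintype.card (Sym2 (Fin n)))
    (hcor : (((univ : Finset (Bits n)).filter fun b => ¬ CorOK R (matZ b)).card : ℝ) ≤
      (2 : ℝ) ^ (-(2 * n : ℝ)) * 2 ^ Fintype.card (Sym2 (Fin n)))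
    (hrich : (((univ : Finset (Bits n)).filter fun b => (matZ b).det ≠ 0 ∧ ∃ L : Submodule ℤ (Fin n → ℚ),
      Over (matZ b) L ∧ (2 : ℝ) ^ (e * n) < ((cls (matZ b) L 0 ((n : ℝ) ^ A)).ncard : ℝ)).card : ℝ) ≤
      (2 : ℝ) ^ (-(2 * n : ℝ)) * 2 ^ Fintype.card (Sym2 (Fin n)))
    (hcnt : ∀ (P : Matrix (Fin n) (Fin n) ℤ), P.IsSymm → P.det ≠ 0 → (P.det.natAbs : ℝ) ≤ (n : ℝ) ^ n → CorOK R P →
      ∀ (X M w : ℝ) (T : ℕ), w ≤ 4 * n → 1 ≤ X → (∀ L, Over P L → ((cls P L 0 X).ncard : ℝ) ≤ M) →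
      (((univ : Finset (Fin n → Bool)).filter fun x => ∃ (v' : Fin n → ℤ) (e' c : ℤ), Col P x v' e' c ∧
        (∀ i, |(v' i : ℝ)| ≤ X * |(e' : ℝ)|) ∧
        (bigSet P e').card ≤ T ∧ lcost e n e' c ≤ w).card : ℝ) ≤ M * (2 : ℝ) ^ (T + w + e * n))
    (j : Fin (n + 1)) (z t : ℕ) :
    (((univ : Finset (Bits (n + 1))).filter fun b => Good e β e A b j z t).card : ℝ) ≤
      3 * (2 : ℝ) ^ (-((1 - lam - 11 * e) * n)) * 2 ^ Fintype.card (Sym2 (Fin (n + 1))) := by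
  have hn' : (2 : ℝ) ≤ n := by exact_mod_cast hn
  have hn0 : (0 : ℝ) < n := by linarith
  set L := Real.logb 2 n with hLdef
  have hLpos : 0 < L := Real.logb_pos (by norm_num) (by linarith)
  set D : ℝ := (2 : ℝ) ^ Fintype.card (Sym2 (Fin n)) with hD
  have hD0 : 0 < D := by rw [hD]; positivity
  have hD1 : (2 : ℝ) ^ Fintype.card (Sym2 (Fin (n + 1))) = D * 2 ^ (n + 1) := by
    rw [card_sym2_succ, pow_add]
  have hpow : (2 : ℝ) ^ (n + 1) = 2 * (2 : ℝ) ^ (n : ℝ) := by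
    rw [pow_succ, Real.rpow_natCast]; ring
  set Tg : ℝ := (2 : ℝ) ^ (-((1 - lam - 11 * e) * n)) * (D * 2 ^ (n + 1)) with hTg
  have hTg0 : 0 < Tg := by rw [hTg]; positivity
  rw [hD1, mul_assoc]
  change _ ≤ 3 * Tg
  -- exceptional sets
  have hexc : ∀ S : Finset (Bits (n + 1)), ∀ E : Finset (Bits n), (E.card : ℝ) ≤ (2 : ℝ) ^ (-(2 * n : ℝ)) * D →
      (∀ b ∈ S, bj j b ∈ E) → (S.card : ℝ) ≤ Tg := by
    intro S E hE hS
    refine (split_count' j S E hS).trans ?_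
    calc (E.card : ℝ) * 2 ^ (n + 1) ≤ ((2 : ℝ) ^ (-(2 * n : ℝ)) * D) * 2 ^ (n + 1) := by
          apply mul_le_mul_of_nonneg_right hE (by positivity)
      _ ≤ ((2 : ℝ) ^ (-((1 - lam - 11 * e) * n)) * D) * 2 ^ (n + 1) := by
          apply mul_le_mul_of_nonneg_right _ (by positivity)
          apply mul_le_mul_of_nonneg_right _ hD0.le
          apply Real.rpow_le_rpow_of_exponent_le (by norm_num)
          nlinarith [mul_nonneg hlam hn0.le, mul_nonneg he.le hn0.le]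
      _ = Tg := by rw [hTg]; ring
  by_cases hz : (z : ℝ) * L ≤ 4 * n
  · -- main case
    set G := (univ : Finset (Bits (n + 1))).filter fun b => Good e β e A b j z t with hG
    set Ecor := (univ : Finset (Bits n)).filter fun b => ¬ CorOK R (matZ b) with hEcor
    set Erich := (univ : Finset (Bits n)).filter fun b => (matZ b).det ≠ 0 ∧ ∃ L : Submodule ℤ (Fin n → ℚ),
      Over (matZ b) L ∧ (2 : ℝ) ^ (e * n) < ((cls (matZ b) L 0 ((n : ℝ) ^ A)).ncard : ℝ) with hErich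
    have h1 : G ⊆ (G.filter fun b => bj j b ∈ Ecor) ∪ ((G.filter fun b => bj j b ∈ Erich) ∪
        (G.filter fun b => bj j b ∉ Ecor ∧ bj j b ∉ Erich)) := by
      intro b hb
      by_cases h1 : bj j b ∈ Ecor
      · exact mem_union_left _ (mem_filter.2 ⟨hb, h1⟩)
      · by_cases h2 : bj j b ∈ Erich
        · exact mem_union_right _ (mem_union_left _ (mem_filter.2 ⟨hb, h2⟩))
        · exact mem_union_right _ (mem_union_right _ (mem_filter.2 ⟨hb, h1, h2⟩))
    have h2 := (card_le_card h1).trans ((card_union_le _ _).trans (Nat.add_le_add_left (card_union_le _ _) _))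
    have h3 : (G.card : ℝ) ≤ ((G.filter fun b => bj j b ∈ Ecor).card : ℝ) + (((G.filter fun b => bj j b ∈ Erich).card : ℝ) +
        ((G.filter fun b => bj j b ∉ Ecor ∧ bj j b ∉ Erich).card : ℝ)) := by exact_mod_cast h2
    have h4 := hexc (G.filter fun b => bj j b ∈ Ecor) Ecor hcor (fun b hb => (mem_filter.1 hb).2)
    have h5 := hexc (G.filter fun b => bj j b ∈ Erich) Erich hrich (fun b hb => (mem_filter.1 hb).2)
    have h6 : ((G.filter fun b => bj j b ∉ Ecor ∧ bj j b ∉ Erich).card : ℝ) ≤ Tg := by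
      set w : ℝ := (1 + e) * ((z : ℝ) + 1) * (1 / 2 - 2 * β * t / n) * L with hw
      set T : ℕ := t + ⌊e * n⌋₊ with hT
      set X : ℝ := (n : ℝ) ^ A with hX
      set E := (univ : Finset (Bits n)).filter fun b => (matZ b).det ≠ 0 ∧ Kill e (matZ b) z ∧ t ≤ N2 β (matZ b) with hE
      set E' := (E \ Ecor) \ Erich with hE'
      set F : Bits n → Finset (Fin n → Bool) := fun b => (univ : Finset (Fin n → Bool)).filter fun x =>
        ∃ (v' : Fin n → ℤ) (e' c : ℤ), Col (matZ b) x v' e' c ∧ (∀ i, |(v' i : ℝ)| ≤ X * |(e' : ℝ)|) ∧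
        (bigSet (matZ b) e').card ≤ T ∧ lcost e n e' c ≤ w with hF
      have hTr : (T : ℝ) ≤ t + e * n := by
        rw [hT]; push_cast
        have := Nat.floor_le (show (0 : ℝ) ≤ e * n by positivity)
        linarith
      have hTr2 : (t : ℝ) + e * n < T + 1 := by
        rw [hT]; push_cast
        have := Nat.lt_floor_add_one (e * n)
        linarith
      have hzn : (0 : ℝ) ≤ z := Nat.cast_nonneg z
      have htn : (0 : ℝ) ≤ t := Nat.cast_nonneg t
      have hwW : w ≤ 4 * n := wle e n L z t β he he1 hn0 hL0 hL hz hzn htn hβ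
      have hX1 : 1 ≤ X := by rw [hX]; exact Real.one_le_rpow (by linarith) hA
      have hFN : ∀ b ∈ E', ((F b).card : ℝ) ≤ (2 : ℝ) ^ (e * n) * (2 : ℝ) ^ (T + w + e * n) := by
        intro b hb
        have hb1 := mem_sdiff.1 hb
        have hb2 := mem_sdiff.1 hb1.1
        have hbE := (mem_filter.1 hb2.1).2
        have hbc : CorOK R (matZ b) := by
          by_contra hc
          exact hb2.2 (mem_filter.2 ⟨mem_univ _, hc⟩)
        refine hcnt (matZ b) (isSymm_matZ b) hbE.1 (det_abs_le b (by omega)) hbc X _ w T hwW hX1 ?_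
        intro L' hL'
        by_contra hc
        push Not at hc
        exact hb1.2 (mem_filter.2 ⟨mem_univ _, hbE.1, L', hL', hc⟩)
      have hcount := split_count j (G.filter fun b => bj j b ∉ Ecor ∧ bj j b ∉ Erich) E' F _ (by
        intro b hb
        have hb1 := mem_filter.1 hb
        have hb2 := (mem_filter.1 hb1.1).2
        exact mem_sdiff.2 ⟨mem_sdiff.2 ⟨mem_filter.2 ⟨mem_univ _, hb2.1, hb2.2.1, hb2.2.2.1⟩, hb1.2.1⟩, hb1.2.2⟩) (by
        intro b hb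
        have hb1 := mem_filter.1 hb
        have hb2 := (mem_filter.1 hb1.1).2
        obtain ⟨v', e', c, hc1, hc2, hc3, hc4⟩ := hb2.2.2.2.2.2
        refine mem_filter.2 ⟨mem_univ _, v', e', c, hc1, hc2, ?_, hc4⟩
        have h1 : ((bigSet (matZ (bj j b)) e').card : ℝ) < T + 1 := lt_of_le_of_lt hc3 hTr2
        have h2 : (bigSet (matZ (bj j b)) e').card < T + 1 := by exact_mod_cast h1
        omega) hFN
      have hEc : (E'.card : ℝ) ≤ (2 : ℝ) ^ (-((1 / 2 - e) * z * L + t * max 0 (1 - 2 * β * (z * L / n))) + (lam + e) * n) * D := by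
        refine le_trans ?_ (hM z t hz)
        exact_mod_cast card_le_card (sdiff_subset.trans sdiff_subset)
      refine hcount.trans ?_
      have hex := expo n L z t e e β hn0 hL0 hzn htn he (by linarith) he hβ hz
      rw [← hw] at hex
      refine (calc1 _ D e n T w _ lam L t hEc hex hTr hL hD0).trans (le_of_eq ?_)
      rw [hTg, hpow]
      ring
    linarith
  · -- many zeros
    push Not at hz
    set z' : ℕ := ⌊4 * n / L⌋₊ with hz'
    have hz1 : (z' : ℝ) * L ≤ 4 * n := by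
      have := Nat.floor_le (show (0 : ℝ) ≤ 4 * n / L by positivity)
      rw [← hz', le_div_iff₀ hLpos] at this
      exact this
    have hz2 : 4 * (n : ℝ) - L ≤ z' * L := by
      have := Nat.lt_floor_add_one (4 * (n : ℝ) / L)
      rw [← hz', div_lt_iff₀ hLpos] at this
      linarith
    have hz3 : z' ≤ z := by
      have h1 : (z' : ℝ) ≤ z := by
        by_contra hc
        push Not at hc
        have := mul_lt_mul_of_pos_right hc hLpos
        linarith
      exact_mod_cast h1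
    set E := (univ : Finset (Bits n)).filter fun b => (matZ b).det ≠ 0 ∧ Kill e (matZ b) z' ∧ 0 ≤ N2 β (matZ b) with hE
    have h1 := split_count' j ((univ : Finset (Bits (n + 1))).filter fun b => Good e β e A b j z t) E (by
      intro b hb
      have hb2 := (mem_filter.1 hb).2
      exact mem_filter.2 ⟨mem_univ _, hb2.1, kill_mono e _ hz3 hb2.2.1, Nat.zero_le _⟩)
    have h2 := hM z' 0 hz1
    have h3 : (((univ : Finset (Bits (n + 1))).filter fun b => Good e β e A b j z t).card : ℝ) ≤ Tg := by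
      refine h1.trans ?_
      calc (E.card : ℝ) * 2 ^ (n + 1) ≤ ((2 : ℝ) ^ (-((1 / 2 - e) * z' * L + (0 : ℕ) * max 0 (1 - 2 * β * (z' * L / n))) +
            (lam + e) * n) * D) * 2 ^ (n + 1) := mul_le_mul_of_nonneg_right h2 (by positivity)
        _ ≤ ((2 : ℝ) ^ (-((1 - lam - 11 * e) * n)) * D) * 2 ^ (n + 1) := by
            apply mul_le_mul_of_nonneg_right _ (by positivity)
            apply mul_le_mul_of_nonneg_right _ hD0.le
            apply Real.rpow_le_rpow_of_exponent_le (by norm_num)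
            rw [Nat.cast_zero, zero_mul, add_zero]
            exact calc2 e n L z' lam he he1 hn0 hL hz2 hlam
        _ = Tg := by rw [hTg]; ring
    linarith

open Classical in
/-- **the assembly** -/
theorem final (hsel : SelStmt) : FinalStmt := by
  intro lam β hlam hβ hR hM hS hT hMid hC hCnt ε hε
  set e : ℝ := min ε 1 / 64 with hedef
  have he : 0 < e := by rw [hedef]; have := lt_min hε one_pos; positivity
  have he1 : e ≤ 1 / 64 := by rw [hedef]; have := min_le_right ε 1; linarith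
  have he2 : 64 * e ≤ ε := by rw [hedef]; have := min_le_left ε 1; linarith
  obtain ⟨A, n1, h1⟩ := hT (e / 8) e (by positivity) he
  obtain ⟨n2, h2⟩ := hS (e / 2) e (by positivity) he
  obtain ⟨n3, h3⟩ := hMid (e / 8) e e (by positivity) he he
  obtain ⟨n4, R, h4⟩ := hC 2
  obtain ⟨n5, h5⟩ := hCnt e he (by linarith) e 4 R he (by norm_num)
  obtain ⟨n6, h6⟩ := hM e he (by linarith) e he
  obtain ⟨n7, h7⟩ := hR e 2 (2 * |A| + 1) he
  obtain ⟨n8, h8⟩ := hsel e β e A he (by linarith) hβ he (by linarith)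
  obtain ⟨n9, hn92, h9⟩ := big e he
  refine ⟨n1 + n2 + n3 + n4 + n5 + n6 + n7 + n8 + n9 + ⌈1 / e⌉₊ + 1, fun N hN => ?_⟩
  obtain ⟨n, rfl⟩ : ∃ n, N = n + 1 := ⟨N - 1, by omega⟩
  have hn2 : 2 ≤ n := by omega
  have hn' : (2 : ℝ) ≤ n := by exact_mod_cast hn2
  have hn0 : (0 : ℝ) < n := by linarith
  obtain ⟨hb1, hb2, hb3⟩ := h9 n (by omega)
  have hne : 1 ≤ e * n := by
    have h : ⌈1 / e⌉₊ ≤ n := by omega
    have h2 : 1 / e ≤ (n : ℝ) := (Nat.le_ceil _).trans (by exact_mod_cast h)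
    rw [div_le_iff₀ he] at h2
    linarith
  set DD : ℝ := (2 : ℝ) ^ Fintype.card (Sym2 (Fin (n + 1))) with hDD
  have hDD0 : 0 < DD := by rw [hDD]; positivity
  set U : ℝ := (2 : ℝ) ^ (-((1 - lam - 11 * e) * n)) * DD with hU
  have hU0 : 0 < U := by rw [hU]; positivity
  set S := (univ : Finset (Bits (n + 1))).filter fun b => ((matZ b).map (Int.cast : ℤ → ℚ)).rank + 1 = n + 1 with hSdef
  set S1 := (univ : Finset (Bits (n + 1))).filter fun b => ∃ p : ℕ, p.Prime ∧ ∃ u : Fin (n + 1) → ZMod p, u ≠ 0 ∧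
    ((univ.filter fun i => u i ≠ 0).card : ℝ) ≤ ((n + 1 : ℕ) : ℝ) ^ (1 - e / 2) ∧
    (matZ b).map (Int.cast : ℤ → ZMod p) *ᵥ u = 0 with hS1
  set S2 := (univ : Finset (Bits (n + 1))).filter fun b => ∃ (v : Fin (n + 1) → ℝ) (i : Fin (n + 1)),
    (∀ k, ∑ j, (if b s(k, j) then v j else 0) = 0) ∧
    e / 8 * ((n + 1 : ℕ) : ℝ) ≤ ((univ.filter fun j => |v j| * ((n + 1 : ℕ) : ℝ) ^ A < |v i|).card : ℝ) with hS2
  set S3 := (univ : Finset (Bits (n + 1))).filter fun b => ((matZ b).map (Int.cast : ℤ → ℚ)).rank = n ∧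
    ∃ v : Fin (n + 1) → ℤ, PrimKer (matZ b) v ∧
    e / 8 * n ≤ ((univ.filter fun j => v j ≠ 0 ∧ e * n < ((midSet β (matZ b) v j).card : ℝ)).card : ℝ) with hS3
  set I : Finset (Fin (n + 1) × ℕ × ℕ) := (univ : Finset (Fin (n + 1))) ×ˢ (range (n + 1) ×ˢ range (n + 1)) with hI
  set G : Fin (n + 1) × ℕ × ℕ → Finset (Bits (n + 1)) := fun q =>
    (univ : Finset (Bits (n + 1))).filter fun b => Good e β e (2 * |A| + 1) b q.1 q.2.1 q.2.2 with hG
  have hsub : S ⊆ S1 ∪ (S2 ∪ (S3 ∪ I.biUnion G)) := by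
    intro b hb
    have hr : ((matZ b).map (Int.cast : ℤ → ℚ)).rank = n := by
      have := (mem_filter.1 hb).2
      omega
    by_cases c1 : b ∈ S1
    · exact mem_union_left _ c1
    by_cases c2 : b ∈ S2
    · exact mem_union_right _ (mem_union_left _ c2)
    by_cases c3 : b ∈ S3
    · exact mem_union_right _ (mem_union_right _ (mem_union_left _ c3))
    obtain ⟨j, z, t, hg⟩ := h8 n (by omega) b hr (fun h => c1 (mem_filter.2 ⟨mem_univ _, h⟩))
      (fun h => c2 (mem_filter.2 ⟨mem_univ _, h⟩)) (fun h => c3 (mem_filter.2 ⟨mem_univ _, hr, h⟩))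
    refine mem_union_right _ (mem_union_right _ (mem_union_right _ (mem_biUnion.2 ⟨(j, z, t), ?_, ?_⟩)))
    · have ht : t ≤ n := hg.2.2.2.1
      have hz : z ≤ n := hg.2.2.2.2.1
      exact mem_product.2 ⟨mem_univ _, mem_product.2 ⟨mem_range.2 (Nat.lt_succ_of_le hz), mem_range.2 (Nat.lt_succ_of_le ht)⟩⟩
    · exact mem_filter.2 ⟨mem_univ _, hg⟩
  have hcardN : S.card ≤ S1.card + (S2.card + (S3.card + ∑ q ∈ I, (G q).card)) :=
    (card_le_card hsub).trans ((card_union_le _ _).trans (Nat.add_le_add_left ((card_union_le _ _).trans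
      (Nat.add_le_add_left ((card_union_le _ _).trans (Nat.add_le_add_left card_biUnion_le _)) _)) _))
  have hcard : (S.card : ℝ) ≤ S1.card + (S2.card + (S3.card + ∑ q ∈ I, ((G q).card : ℝ))) := by exact_mod_cast hcardN
  have hle : ∀ x : ℝ, (1 - e) * n ≤ x → (2 : ℝ) ^ (-x) * DD ≤ U := by
    intro x hx
    rw [hU]
    apply mul_le_mul_of_nonneg_right _ hDD0.le
    apply Real.rpow_le_rpow_of_exponent_le (by norm_num)
    nlinarith [mul_nonneg hlam hn0.le, mul_nonneg he.le hn0.le]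
  have g1 : (S1.card : ℝ) ≤ U := (h2 (n + 1) (by omega)).trans (hle _ (by push_cast; nlinarith))
  have g2 : (S2.card : ℝ) ≤ U := (h1 (n + 1) (by omega)).trans (hle _ (by push_cast; nlinarith))
  have g3 : (S3.card : ℝ) ≤ U := (h3 n (by omega)).trans (hle _ le_rfl)
  have g4 : ∀ q ∈ I, ((G q).card : ℝ) ≤ 3 * U := by
    intro q _
    have h := step lam β (2 * |A| + 1) R e hlam hβ he he1 (by positivity) n hn2 hb2 hb3 (h6 n (by omega)) (h4 n (by omega))
      (h7 n (by omega)) (h5 n (by omega)) q.1 q.2.1 q.2.2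
    refine h.trans (le_of_eq ?_)
    rw [hU, hDD]; ring
  have g5 : ∑ q ∈ I, ((G q).card : ℝ) ≤ ((n : ℝ) + 1) ^ 3 * (3 * U) := by
    refine (sum_le_sum g4).trans (le_of_eq ?_)
    rw [sum_const, nsmul_eq_mul, hI, card_product, card_product, card_univ, Fintype.card_fin, card_range]
    push_cast
    ring
  have g6 : (S.card : ℝ) ≤ ((n : ℝ) + 2) ^ 6 * U := by
    have h1 : (1 : ℝ) ≤ ((n : ℝ) + 1) ^ 3 := one_le_pow₀ (by linarith)
    have h2 : 6 * ((n : ℝ) + 1) ^ 3 ≤ ((n : ℝ) + 2) ^ 6 := by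
      have h3 : ((n : ℝ) + 1) ^ 3 ≤ ((n : ℝ) + 2) ^ 3 := pow_le_pow_left₀ (by linarith) (by linarith) 3
      have h4 : (6 : ℝ) ≤ ((n : ℝ) + 2) ^ 3 := by
        calc (6 : ℝ) ≤ 4 ^ 3 := by norm_num
          _ ≤ ((n : ℝ) + 2) ^ 3 := pow_le_pow_left₀ (by norm_num) (by linarith) 3
      calc 6 * ((n : ℝ) + 1) ^ 3 ≤ ((n : ℝ) + 2) ^ 3 * ((n : ℝ) + 2) ^ 3 := by
            apply mul_le_mul h4 h3 (by positivity) (by positivity)
        _ = ((n : ℝ) + 2) ^ 6 := by ring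
    calc (S.card : ℝ) ≤ 3 * U + ((n : ℝ) + 1) ^ 3 * (3 * U) := by linarith
      _ ≤ 6 * ((n : ℝ) + 1) ^ 3 * U := by nlinarith
      _ ≤ ((n : ℝ) + 2) ^ 6 * U := mul_le_mul_of_nonneg_right h2 hU0.le
  refine g6.trans ?_
  calc ((n : ℝ) + 2) ^ 6 * U ≤ (2 : ℝ) ^ (e * n) * U := mul_le_mul_of_nonneg_right hb1 hU0.le
    _ = (2 : ℝ) ^ (e * n + -((1 - lam - 11 * e) * n)) * DD := by
        rw [hU, Real.rpow_add (by norm_num)]; ring
    _ ≤ (2 : ℝ) ^ (-((1 - lam - ε) * ((n + 1 : ℕ) : ℝ))) * DD := by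
        apply mul_le_mul_of_nonneg_right _ hDD0.le
        apply Real.rpow_le_rpow_of_exponent_le (by norm_num)
        push_cast
        nlinarith

end Vale.Agent.P160.Half.F
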