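import Vale.Agent.P160.Half.Fin.FSplit
import Vale.Agent.P160.Half.Fin.Expo602

/-! # P160, rate 1/2: final assembly, union bound from `SelStmt` -/

set_option linter.unusedVariables false

namespace Vale.Agent.P160.Half.F.FMain363

open Finset Matrix Vale.Agent.P160.Half Vale.Agent.P160.Half.A Vale.Agent.P160.Half.F

theorem det_le {n : ℕ} (b : Bits n) : ((matZ b).det.natAbs : ℝ) ≤ (n : ℝ) ^ n := by
  have h := Matrix.det_le (A := matZ b) (abv := AbsoluteValue.abs) (x := (1 : ℤ)) (by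
    intro i j
    show |matZ b i j| ≤ 1
    exact matZ_abs b i j)
  have h1 : |(matZ b).det| ≤ (n.factorial : ℤ) := by
    simpa using h
  have h2 : (matZ b).det.natAbs ≤ n.factorial := by
    rw [Int.abs_eq_natAbs] at h1
    exact_mod_cast h1
  have h3 : (matZ b).det.natAbs ≤ n ^ n := h2.trans (Nat.factorial_le_pow n)
  exact_mod_cast h3

theorem lcost_nonneg (ζ : ℝ) (n : ℕ) (e c : ℤ) : 0 ≤ lcost ζ n e c := by
  unfold lcost
  refine sum_nonneg fun p hp => mul_nonneg (Nat.cast_nonneg _) ?_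
  have hp' : p.Prime := Nat.prime_of_mem_primeFactors (mem_filter.1 hp).1
  exact Real.logb_nonneg (by norm_num) (by exact_mod_cast hp'.one_lt.le)

theorem kill_mono {ζ : ℝ} {n : ℕ} {P : Matrix (Fin n) (Fin n) ℤ} {z z₀ : ℕ} (h : z₀ ≤ z) (hk : Kill ζ P z) : Kill ζ P z₀ := by
  rcases hk with rfl | ⟨p, hp, u, h1, h2, h3⟩
  · left; omega
  · right; exact ⟨p, hp, u, h1, h2, h.trans h3⟩

/-- the rich minors -/
def RichB (α X : ℝ) {m : ℕ} (b : Bits m) : Prop := (matZ b).det ≠ 0 ∧ ∃ L : Submodule ℤ (Fin m → ℚ),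
    Over (matZ b) L ∧ (2 : ℝ) ^ (α * m) < ((cls (matZ b) L 0 X).ncard : ℝ)

/-- a set of matrices with a bound for the number of its elements -/
def Few {m : ℕ} (S : Bits m → Prop) (N : ℝ) : Prop := ∃ E : Finset (Bits m), (∀ b, S b → b ∈ E) ∧ (E.card : ℝ) ≤ N * 2 ^ Fintype.card (Sym2 (Fin m))

/-- columns -/
def ColOK (ζ X w : ℝ) (T : ℕ) {m : ℕ} (P : Matrix (Fin m) (Fin m) ℤ) (x : Fin m → Bool) : Prop :=
  ∃ (v' : Fin m → ℤ) (e c : ℤ), Col P x v' e c ∧ (∀ i, |(v' i : ℝ)| ≤ X * |(e : ℝ)|) ∧ (bigSet P e).card ≤ T ∧ lcost ζ m e c ≤ w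

theorem few_of {m : ℕ} {S : Bits m → Prop} {inst : DecidablePred S} {N : ℝ}
    (h : ((@Finset.filter _ S inst univ).card : ℝ) ≤ N * 2 ^ Fintype.card (Sym2 (Fin m))) : Few S N :=
  ⟨_, fun b hb => mem_filter.2 ⟨mem_univ _, hb⟩, h⟩

theorem exG_of {m : ℕ} {S : (Fin m → Bool) → Prop} {inst : DecidablePred S} {K : ℝ}
    (h : ((@Finset.filter _ S inst univ).card : ℝ) ≤ K) : ∃ G : Finset (Fin m → Bool), (∀ x, S x → x ∈ G) ∧ (G.card : ℝ) ≤ K :=
  ⟨_, fun b hb => mem_filter.2 ⟨mem_univ _, hb⟩, h⟩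

theorem few_union {m : ℕ} {S S' : Bits m → Prop} {N N' : ℝ} (h : Few S N) (h' : Few S' N') : Few (fun b => S b ∨ S' b) (N + N') := by
  classical
  obtain ⟨E, h1, h2⟩ := h
  obtain ⟨E', h1', h2'⟩ := h'
  refine ⟨E ∪ E', fun b hb => ?_, ?_⟩
  · rcases hb with hb | hb
    · exact mem_union_left _ (h1 b hb)
    · exact mem_union_right _ (h1' b hb)
  · have : ((E ∪ E').card : ℝ) ≤ E.card + E'.card := by exact_mod_cast card_union_le E E'
    rw [add_mul]; linarith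

theorem few_mono {m : ℕ} {S S' : Bits m → Prop} {N N' : ℝ} (h : Few S N) (hS : ∀ b, S' b → S b) (hN : N ≤ N') : Few S' N' := by
  obtain ⟨E, h1, h2⟩ := h
  exact ⟨E, fun b hb => h1 b (hS b hb), h2.trans (mul_le_mul_of_nonneg_right hN (by positivity))⟩

theorem few_iUnion {m : ℕ} {ι : Type*} [Fintype ι] {S : ι → Bits m → Prop} {N : ℝ} (h : ∀ i, Few (S i) N) :
    Few (fun b => ∃ i, S i b) (Fintype.card ι * N) := by
  classical
  choose E h1 h2 using h
  refine ⟨univ.biUnion E, fun b hb => ?_, ?_⟩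
  · obtain ⟨i, hi⟩ := hb
    exact mem_biUnion.2 ⟨i, mem_univ _, h1 i b hi⟩
  · have h3 : ((univ.biUnion E).card : ℝ) ≤ ∑ i, ((E i).card : ℝ) := by exact_mod_cast card_biUnion_le
    refine h3.trans ((sum_le_sum fun i _ => h2 i).trans ?_)
    rw [sum_const, card_univ, nsmul_eq_mul, mul_assoc]

theorem two_pow_sym (m : ℕ) : (2 : ℝ) ^ Fintype.card (Sym2 (Fin (m + 1))) = 2 ^ Fintype.card (Sym2 (Fin m)) * 2 ^ (m + 1) := by
  rw [card_sym2_succ, pow_add]

/-- only the minor -/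
theorem few_minor {m : ℕ} (j : Fin (m + 1)) {S : Bits m → Prop} {N : ℝ} (h : Few S N) : Few (fun b => S (bj j b)) N := by
  classical
  obtain ⟨E, h1, h2⟩ := h
  refine ⟨univ.filter fun b => S (bj j b), fun b hb => mem_filter.2 ⟨mem_univ _, hb⟩, ?_⟩
  refine (split_count' j _ E fun b hb => h1 _ (mem_filter.1 hb).2).trans ?_
  rw [two_pow_sym, ← mul_assoc]
  exact mul_le_mul_of_nonneg_right h2 (by positivity)

/-- minor and column -/
theorem few_col {m : ℕ} (j : Fin (m + 1)) {S : Bits m → Prop} {C : Bits m → (Fin m → Bool) → Prop} {N K : ℝ} (hK : 0 ≤ K) (h : Few S N)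
    (hC : ∀ b, S b → ∃ G : Finset (Fin m → Bool), (∀ x, C b x → x ∈ G) ∧ (G.card : ℝ) ≤ K) :
    Few (fun b => S (bj j b) ∧ C (bj j b) (xj j b)) (N * K / 2 ^ m) := by
  classical
  obtain ⟨E, h1, h2⟩ := h
  refine ⟨univ.filter fun b => S (bj j b) ∧ C (bj j b) (xj j b), fun b hb => mem_filter.2 ⟨mem_univ _, hb⟩, ?_⟩
  refine (split_count j _ (E.filter fun b => S b) (fun b => univ.filter fun x => C b x) K (fun b hb => ?_) (fun b hb => ?_) (fun b hb => ?_)).trans ?_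
  · exact mem_filter.2 ⟨h1 _ (mem_filter.1 hb).2.1, (mem_filter.1 hb).2.1⟩
  · exact mem_filter.2 ⟨mem_univ _, (mem_filter.1 hb).2.2⟩
  · obtain ⟨G, hG, hG2⟩ := hC b (mem_filter.1 hb).2
    refine le_trans ?_ hG2
    exact_mod_cast card_le_card fun x hx => hG x (mem_filter.1 hx).2
  · have h3 : ((E.filter fun b => S b).card : ℝ) ≤ E.card := by exact_mod_cast card_filter_le _ _
    have h4 : ((E.filter fun b => S b).card : ℝ) ≤ N * 2 ^ Fintype.card (Sym2 (Fin m)) := h3.trans h2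
    rw [two_pow_sym]
    have h5 : 2 * ((E.filter fun b => S b).card : ℝ) * K ≤ 2 * (N * 2 ^ Fintype.card (Sym2 (Fin m))) * K := by
      gcongr
    refine h5.trans (le_of_eq ?_)
    have h6 : (2 : ℝ) ^ m ≠ 0 := by positivity
    field_simp
    ring

theorem few_false {m : ℕ} {S : Bits m → Prop} (h : ∀ b, ¬ S b) {N : ℝ} (hN : 0 ≤ N) : Few S N :=
  ⟨∅, fun b hb => absurd hb (h b), by simp only [card_empty, Nat.cast_zero]; positivity⟩

/-- one term -/
theorem jzt (m : ℕ) (hm : 2 ≤ m) (lam β ζ η A' R : ℝ) (hlam : 0 ≤ lam) (hβ : 1 ≤ β) (hζ : 0 < ζ) (hζη : ζ = η) (hη' : η ≤ 1 / 40)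
    (hL : Real.logb 2 m ≤ η * m)
    (hRich : Few (fun b : Bits m => RichB η ((m : ℝ) ^ A') b) ((2 : ℝ) ^ (-(2 * (m : ℝ)))))
    (hCor : Few (fun b : Bits m => ¬ CorOK R (matZ b)) ((2 : ℝ) ^ (-(2 * (m : ℝ)))))
    (hM : ∀ z t : ℕ, (z : ℝ) * Real.logb 2 m ≤ 4 * m → Few (fun b : Bits m => (matZ b).det ≠ 0 ∧ Kill ζ (matZ b) z ∧ t ≤ N2 β (matZ b))
      ((2 : ℝ) ^ (-((1 / 2 - ζ) * z * Real.logb 2 m + t * max 0 (1 - 2 * β * (z * Real.logb 2 m / m))) + (lam + η) * m)))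
    (hCnt : ∀ b : Bits m, (matZ b).det ≠ 0 → CorOK R (matZ b) → ¬ RichB η ((m : ℝ) ^ A') b → ∀ (w : ℝ) (T : ℕ), w ≤ 5 * m →
      ∃ G : Finset (Fin m → Bool), (∀ x, ColOK ζ ((m : ℝ) ^ A') w T (matZ b) x → x ∈ G) ∧
        (G.card : ℝ) ≤ (2 : ℝ) ^ (η * m) * (2 : ℝ) ^ (T + w + η * m))
    (j : Fin (m + 1)) (z t : ℕ) :
    Few (fun b : Bits (m + 1) => Good ζ β η A' b j z t) (3 * (2 : ℝ) ^ (-((1 - lam - 13 * η) * m))) := by
  have hη : 0 < η := hζη ▸ hζ
  have hm0 : (0 : ℝ) < m := by positivity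
  have hLpos : 0 < Real.logb 2 m := Real.logb_pos (by norm_num) (by exact_mod_cast (by omega : 1 < m))
  set L := Real.logb 2 m with hLdef
  have hbig : (2 : ℝ) ^ (-(2 * (m : ℝ))) ≤ (2 : ℝ) ^ (-((1 - lam - 13 * η) * m)) := by
    refine Real.rpow_le_rpow_of_exponent_le (by norm_num) ?_
    nlinarith
  -- the main part
  have key : Few (fun b : Bits (m + 1) => Good ζ β η A' b j z t ∧ CorOK R (matZ (bj j b)) ∧ ¬ RichB η ((m : ℝ) ^ A') (bj j b))
      ((2 : ℝ) ^ (-((1 - lam - 13 * η) * m))) := by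
    by_cases hz : (z : ℝ) * L ≤ 4 * m
    · set w : ℝ := (1 + η) * ((z : ℝ) + 1) * (1 / 2 - 2 * β * t / m) * L with hw
      by_cases hC : 0 ≤ (1 / 2 - 2 * β * t / m)
      · have ht0 : (0 : ℝ) ≤ 2 * β * t / m := by positivity
        have hw5 : w ≤ 5 * m := by
          have h1 : w ≤ 2 * ((z : ℝ) + 1) * (1 / 2) * L := by
            rw [hw]
            have : (1 + η) * ((z : ℝ) + 1) ≤ 2 * ((z : ℝ) + 1) := by nlinarith
            gcongr <;> linarith
          nlinarith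
        have h1 := few_col j (C := fun b x => ColOK ζ ((m : ℝ) ^ A') w ⌊(t : ℝ) + η * m⌋₊ (matZ b) x)
          (S := fun b : Bits m => ((matZ b).det ≠ 0 ∧ Kill ζ (matZ b) z ∧ t ≤ N2 β (matZ b)) ∧ CorOK R (matZ b) ∧
            ¬ RichB η ((m : ℝ) ^ A') b) (K := (2 : ℝ) ^ (η * m) * (2 : ℝ) ^ (((⌊(t : ℝ) + η * m⌋₊ : ℕ) : ℝ) + w + η * m)) (by positivity)
          (few_mono (hM z t hz) (fun b hb => hb.1) le_rfl)
          (fun b hb => hCnt b hb.1.1 hb.2.1 hb.2.2 w _ hw5)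
        refine few_mono h1 ?_ ?_
        · rintro b ⟨⟨g1, g2, g3, g4, g5, v', e, c, g6, g7, g8, g9⟩, g10, g11⟩
          refine ⟨⟨⟨g1, g2, g3⟩, g10, g11⟩, v', e, c, g6, g7, ?_, g9⟩
          exact Nat.le_floor g8
        · have hT : ((⌊(t : ℝ) + η * m⌋₊ : ℕ) : ℝ) ≤ t + η * m := Nat.floor_le (by positivity)
          have hex := Expo602.expo m L β ζ η η z t (⌊(t : ℝ) + η * m⌋₊ : ℕ) w ((m / 2 - 2 * β * t) * L) hm0 hLpos.le (by linarith) hζ.le hη.le
            (by linarith) (by positivity) (by positivity) hz hT (by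
              have : (m : ℝ) / 2 - 2 * β * t = m * (1 / 2 - 2 * β * t / m) := by field_simp
              rw [this]; positivity) le_rfl (by
              have h2 : ((z : ℝ) + 1) * ((m / 2 - 2 * β * t) * L) / ((1 - η) * m) =
                  1 / (1 - η) * ((z : ℝ) + 1) * (1 / 2 - 2 * β * t / m) * L := by
                have : (1 - η) ≠ 0 := by linarith
                field_simp
              rw [h2, hw]
              have h3 : 1 + η ≤ 1 / (1 - η) := by
                rw [le_div_iff₀ (by linarith)]; nlinarith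
              gcongr)
          rw [mul_div_assoc, ← Real.rpow_natCast 2 m, ← Real.rpow_add (by norm_num), ← Real.rpow_sub (by norm_num),
            ← Real.rpow_add (by norm_num)]
          refine Real.rpow_le_rpow_of_exponent_le (by norm_num) ?_
          rw [hζη] at hex ⊢
          nlinarith
      · refine few_false ?_ (by positivity)
        rintro b ⟨⟨g1, g2, g3, g4, g5, v', e, c, g6, g7, g8, g9⟩, g10, g11⟩
        push Not at hC
        have h0 := lcost_nonneg ζ m e c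
        have h1 : (1 + η) * ((z : ℝ) + 1) * (1 / 2 - 2 * β * t / m) * L < 0 := by
          have : 0 < (1 + η) * ((z : ℝ) + 1) * L := by positivity
          nlinarith
        linarith
    · push Not at hz
      have h4 : (0 : ℝ) ≤ 4 * m / L := by positivity
      have hz0 : ((⌊4 * (m : ℝ) / L⌋₊ : ℕ) : ℝ) * L ≤ 4 * m := by
        have := Nat.floor_le h4
        calc _ ≤ 4 * (m : ℝ) / L * L := mul_le_mul_of_nonneg_right this hLpos.le
          _ = 4 * m := by field_simp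
      have hz1 : 4 * (m : ℝ) - L ≤ ((⌊4 * (m : ℝ) / L⌋₊ : ℕ) : ℝ) * L := by
        have := (Nat.lt_floor_add_one (4 * (m : ℝ) / L)).le
        have h5 : 4 * (m : ℝ) / L * L ≤ (((⌊4 * (m : ℝ) / L⌋₊ : ℕ) : ℝ) + 1) * L := mul_le_mul_of_nonneg_right this hLpos.le
        have h6 : 4 * (m : ℝ) / L * L = 4 * m := by field_simp
        linarith
      have hz2 : ⌊4 * (m : ℝ) / L⌋₊ ≤ z := by
        have : 4 * (m : ℝ) / L ≤ z := by
          rw [div_le_iff₀ hLpos]; exact hz.le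
        exact Nat.floor_le_of_le this
      refine few_mono (few_minor j (hM ⌊4 * (m : ℝ) / L⌋₊ 0 hz0)) ?_ ?_
      · rintro b ⟨⟨g1, g2, g3, g4, g5, g6⟩, g10, g11⟩
        exact ⟨g1, kill_mono hz2 g2, Nat.zero_le _⟩
      · refine Real.rpow_le_rpow_of_exponent_le (by norm_num) ?_
        rw [Nat.cast_zero, zero_mul, add_zero, mul_assoc]
        have h7 : (1 / 2 - ζ) * (4 * (m : ℝ) - L) ≤ (1 / 2 - ζ) * (((⌊4 * (m : ℝ) / L⌋₊ : ℕ) : ℝ) * L) :=
          mul_le_mul_of_nonneg_left hz1 (by linarith)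
        nlinarith
  have h := few_union (few_union key (few_minor j hRich)) (few_minor j hCor)
  refine few_mono h (fun b hb => ?_) (by linarith)
  by_cases h1 : CorOK R (matZ (bj j b))
  · by_cases h2 : RichB η ((m : ℝ) ^ A') (bj j b)
    · exact Or.inl (Or.inr h2)
    · exact Or.inl (Or.inl ⟨hb, h1, h2⟩)
  · exact Or.inr h1

/-- **the union bound** -/
theorem final_of (hSel : SelStmt) : FinalStmt := by
  intro lam β hlam hβ hRich hM hSp hTame hMid hCor hCnt ε hε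
  obtain ⟨η, hη, hη1, hηε⟩ : ∃ η : ℝ, 0 < η ∧ η ≤ 1 / 40 ∧ 40 * η ≤ ε := by
    refine ⟨min ε 1 / 40, by positivity, ?_, ?_⟩
    · have := min_le_right ε 1; linarith
    · have := min_le_left ε 1; linarith
  obtain ⟨A, n₁, h1⟩ := hTame (η / 8) η (by positivity) hη
  obtain ⟨n₂, h2⟩ := hSel η β η A hη (by linarith) hβ hη (by linarith)
  obtain ⟨n₃, h3⟩ := hRich η 2 (2 * |A| + 1) hη
  obtain ⟨n₄, R, h4⟩ := hCor 2
  obtain ⟨n₅, h5⟩ := hCnt η hη (by linarith) η 5 R hη (by norm_num)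
  obtain ⟨n₆, h6⟩ := hM η hη (by linarith) η hη
  obtain ⟨n₇, h7⟩ := hSp (η / 2) η (by positivity) hη
  obtain ⟨n₈, h8⟩ := hMid (η / 8) η η (by positivity) hη hη
  obtain ⟨n₉, -, h9⟩ := Expo602.logb_le η hη
  obtain ⟨n₁₀, h10⟩ := Expo602.absorb 4 η hη
  refine ⟨n₁ + n₂ + n₃ + n₄ + n₅ + n₆ + n₇ + n₈ + n₉ + n₁₀ + ⌈1 / η⌉₊ + 4, fun n hn => ?_⟩
  obtain ⟨m, rfl⟩ : ∃ m, n = m + 1 := ⟨n - 1, by omega⟩
  have hm2 : 2 ≤ m := by omega
  have hmη : 1 ≤ η * m := by
    have h : ((⌈1 / η⌉₊ : ℕ) : ℝ) ≤ m := by exact_mod_cast (by omega : ⌈1 / η⌉₊ ≤ m)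
    have h' := (Nat.le_ceil (1 / η)).trans h
    rw [div_le_iff₀ hη] at h'
    linarith
  have hm0 : (0 : ℝ) < m := by positivity
  have hm1 : (1 : ℝ) ≤ m := by exact_mod_cast (by omega : 1 ≤ m)
  set Q : ℝ := (2 : ℝ) ^ (-((1 - lam - 13 * η) * m)) with hQ
  have hQ0 : 0 < Q := by positivity
  -- sparse
  have f7 : Few (fun b : Bits (m + 1) => ∃ p : ℕ, p.Prime ∧ ∃ u : Fin (m + 1) → ZMod p, u ≠ 0 ∧
      ((univ.filter fun i => u i ≠ 0).card : ℝ) ≤ ((m + 1 : ℕ) : ℝ) ^ (1 - η / 2) ∧ (matZ b).map (Int.cast : ℤ → ZMod p) *ᵥ u = 0) Q := by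
    refine few_mono (few_of (h7 (m + 1) (by omega))) (fun b hb => hb) ?_
    refine Real.rpow_le_rpow_of_exponent_le (by norm_num) ?_
    push_cast
    nlinarith
  have f1 : Few (fun b : Bits (m + 1) => ∃ (v : Fin (m + 1) → ℝ) (i : Fin (m + 1)), (∀ k, ∑ j, (if b s(k, j) then v j else 0) = 0) ∧
      η / 8 * ((m + 1 : ℕ) : ℝ) ≤ ((univ.filter fun j => |v j| * ((m + 1 : ℕ) : ℝ) ^ A < |v i|).card : ℝ)) Q := by
    refine few_mono (few_of (h1 (m + 1) (by omega))) (fun b hb => hb) ?_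
    refine Real.rpow_le_rpow_of_exponent_le (by norm_num) ?_
    push_cast
    nlinarith
  have f8 : Few (fun b : Bits (m + 1) => ((matZ b).map (Int.cast : ℤ → ℚ)).rank = m ∧ ∃ v : Fin (m + 1) → ℤ, PrimKer (matZ b) v ∧
      η / 8 * m ≤ ((univ.filter fun j => v j ≠ 0 ∧ η * m < ((midSet β (matZ b) v j).card : ℝ)).card : ℝ)) Q := by
    refine few_mono (few_of (h8 m (by omega))) (fun b hb => hb) ?_
    refine Real.rpow_le_rpow_of_exponent_le (by norm_num) ?_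
    nlinarith
  have f3 : Few (fun b : Bits m => RichB η ((m : ℝ) ^ (2 * |A| + 1)) b) ((2 : ℝ) ^ (-(2 * (m : ℝ)))) :=
    few_of (h3 m (by omega))
  have f4 : Few (fun b : Bits m => ¬ CorOK R (matZ b)) ((2 : ℝ) ^ (-(2 * (m : ℝ)))) :=
    few_of (h4 m (by omega))
  have f0 : ∀ i : Fin (m + 1) × Fin (m + 1) × Fin (m + 1),
      Few (fun b : Bits (m + 1) => Good η β η (2 * |A| + 1) b i.1 i.2.1 i.2.2) (3 * Q) := by
    intro i
    refine jzt m hm2 lam β η η (2 * |A| + 1) R hlam hβ hη rfl hη1 (h9 m (by omega)) f3 f4 ?_ ?_ i.1 i.2.1 i.2.2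
    · intro z t hz
      exact few_of (h6 m (by omega) z t hz)
    · intro b hb hR hr w T hw
      refine exG_of (h5 m (by omega) (matZ b) ?_ hb (det_le b) hR ((m : ℝ) ^ (2 * |A| + 1))
        ((2 : ℝ) ^ (η * m)) w T hw (Real.one_le_rpow hm1 (by positivity)) ?_)
      · ext i k; exact matZ_symm b k i
      · intro L hL
        by_contra hc
        push Not at hc
        exact hr ⟨hb, L, hL, hc⟩
  have hall := few_union (few_union (few_union f7 f1) f8) (few_iUnion f0)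
  obtain ⟨E, hE1, hE2⟩ := hall
  have hsub : (((univ : Finset (Bits (m + 1))).filter fun b => ((matZ b).map (Int.cast : ℤ → ℚ)).rank + 1 = m + 1).card : ℝ) ≤ E.card := by
    refine Nat.cast_le.2 (card_le_card fun b hb => hE1 b ?_)
    have hb' : ((matZ b).map (Int.cast : ℤ → ℚ)).rank = m := by
      have := (mem_filter.1 hb).2
      omega
    by_contra hc
    push Not at hc
    obtain ⟨⟨⟨c1, c2⟩, c3⟩, c4⟩ := hc
    obtain ⟨j, z, t, hg⟩ := h2 m (by omega) b hb' (fun h => by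
        obtain ⟨p, hp, u, h1, h2, h3⟩ := h
        exact c1 p hp u h1 h2 h3) (fun h => by
        obtain ⟨v, i, h1, h2⟩ := h
        exact absurd h2 (not_le.2 (c2 v i h1))) (fun h => by
        obtain ⟨v, h1, h2⟩ := h
        exact absurd h2 (not_le.2 (c3 hb' v h1)))
    have ht := hg.2.2.2.1
    have hz := hg.2.2.2.2.1
    exact c4 (j, ⟨z, by omega⟩, ⟨t, by omega⟩) hg
  refine hsub.trans (hE2.trans ?_)
  refine mul_le_mul_of_nonneg_right ?_ (by positivity)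
  have hc : (Fintype.card (Fin (m + 1) × Fin (m + 1) × Fin (m + 1)) : ℝ) = ((m : ℝ) + 1) ^ 3 := by
    rw [Fintype.card_prod, Fintype.card_prod, Fintype.card_fin]; push_cast; ring
  rw [hc]
  have hp : Q + Q + Q + ((m : ℝ) + 1) ^ 3 * (3 * Q) ≤ ((m : ℝ) + 2) ^ 4 * Q := by
    have : (3 + 3 * ((m : ℝ) + 1) ^ 3) ≤ ((m : ℝ) + 2) ^ 4 := by
      nlinarith [pow_pos hm0 2, pow_pos hm0 3, pow_pos hm0 4]
    nlinarith
  refine hp.trans ((mul_le_mul_of_nonneg_right (h10 m (by omega)) hQ0.le).trans ?_)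
  rw [hQ, ← Real.rpow_add (by norm_num)]
  refine Real.rpow_le_rpow_of_exponent_le (by norm_num) ?_
  push_cast
  nlinarith

end Vale.Agent.P160.Half.F.FMain363
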