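import Vale.Agent.P160.Half.Fin.FSplit

/-! # P160, rate 1/2: union bound of the final assembly (helper801) -/

set_option linter.unusedVariables false

namespace Vale.Agent.P160.Half.F.FM801

open Finset Matrix Vale.Agent.P160.Half Vale.Agent.P160.Half.A Vale.Agent.P160.Half.F

theorem kill_mono {ζ : ℝ} {n : ℕ} {P : Matrix (Fin n) (Fin n) ℤ} {z z' : ℕ} (h : z' ≤ z)
    (hk : Kill ζ P z) : Kill ζ P z' := by
  rcases hk with hz | ⟨p, hp, u, h1, h2, h3⟩
  · left; omega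
  · right; exact ⟨p, hp, u, h1, h2, h.trans h3⟩

theorem det_le_pow {n : ℕ} (b : Bits n) : ((matZ b).det.natAbs : ℝ) ≤ (n : ℝ) ^ n := by
  have h := Matrix.det_le (A := matZ b) (abv := AbsoluteValue.abs) (x := (1 : ℤ)) (fun i j => by
    show |matZ b i j| ≤ 1
    show |(if b s(i, j) then (1 : ℤ) else 0)| ≤ 1
    split_ifs <;> simp)
  rw [one_pow, Fintype.card_fin, nsmul_eq_mul, mul_one] at h
  have h1 : |(matZ b).det| ≤ (Nat.factorial n : ℤ) := h
  have h2 : (matZ b).det.natAbs ≤ n ^ n := by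
    have h3 : ((matZ b).det.natAbs : ℤ) ≤ (Nat.factorial n : ℤ) := by rw [Int.natCast_natAbs]; exact h1
    exact (Int.ofNat_le.1 h3).trans (Nat.factorial_le_pow n)
  exact_mod_cast h2

theorem lcost_nonneg (ζ : ℝ) (n : ℕ) (e c : ℤ) : 0 ≤ lcost ζ n e c := by
  unfold lcost
  refine sum_nonneg fun p hp => mul_nonneg (Nat.cast_nonneg _) ?_
  have hp1 : p.Prime := Nat.prime_of_mem_primeFactors (mem_filter.1 hp).1
  exact Real.logb_nonneg (by norm_num) (by exact_mod_cast hp1.one_lt.le)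

/-- the exponent -/
theorem expo {n L z t β η : ℝ} (hn : 1 ≤ n) (hL : 0 ≤ L) (hLn : L ≤ n) (hz : 0 ≤ z) (ht : 0 ≤ t) (hβ : 1 ≤ β)
    (hη : 0 < η) (hη1 : η ≤ 1 / 32) (hzL : z * L ≤ 4 * n) :
    (1 + η) * (z + 1) * (1 / 2 - 2 * β * t / n) * L ≤ 4 * n ∧
    -((1 / 2 - η) * z * L + t * max 0 (1 - 2 * β * (z * L / n))) + (t + (1 + η) * (z + 1) * (1 / 2 - 2 * β * t / n) * L) ≤
      6 * η * n + L := by
  have hn0 : 0 < n := by linarith
  set s := 1 / 2 - 2 * β * t / n with hs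
  have hs2 : s ≤ 1 / 2 := by
    have : 0 ≤ 2 * β * t / n := by positivity
    rw [hs]; linarith
  have hzL0 : 0 ≤ z * L := mul_nonneg hz hL
  -- key: `w ≤ z L s + 2 η n + (33/64) L`
  have hw : (1 + η) * (z + 1) * s * L ≤ z * L * s + 2 * η * n + L := by
    rcases le_or_gt 0 s with h0 | h0
    · have e1 : (1 + η) * (z + 1) * s * L = z * L * s + η * (z * L) * s + (1 + η) * s * L := by ring
      rw [e1]
      have e2 : η * (z * L) * s ≤ η * (4 * n) * (1 / 2) := by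
        have : η * (z * L) ≤ η * (4 * n) := mul_le_mul_of_nonneg_left hzL hη.le
        calc η * (z * L) * s ≤ η * (4 * n) * s := mul_le_mul_of_nonneg_right this h0
          _ ≤ η * (4 * n) * (1 / 2) := mul_le_mul_of_nonneg_left hs2 (by positivity)
      have e3 : (1 + η) * s * L ≤ 1 * L := by
        refine mul_le_mul_of_nonneg_right ?_ hL
        have : (1 + η) * s ≤ (1 + η) * (1 / 2) := mul_le_mul_of_nonneg_left hs2 (by linarith)
        linarith
      linarith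
    · have e1 : (1 + η) * (z + 1) * s * L = z * L * s + (η * (z * L) + (1 + η) * L) * s := by ring
      have e2 : (η * (z * L) + (1 + η) * L) * s ≤ 0 :=
        mul_nonpos_of_nonneg_of_nonpos (by positivity) h0.le
      have e3 : 0 ≤ 2 * η * n := by positivity
      rw [e1]; linarith
  have hzs : z * L * s = z * L / 2 - t * (2 * β * (z * L / n)) := by
    rw [hs]; field_simp
  constructor
  · have e1 : z * L * s ≤ 2 * n := by
      rcases le_or_gt 0 s with h0 | h0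
      · calc z * L * s ≤ 4 * n * s := mul_le_mul_of_nonneg_right hzL h0
          _ ≤ 4 * n * (1 / 2) := mul_le_mul_of_nonneg_left hs2 (by linarith)
          _ = 2 * n := by ring
      · have := mul_nonpos_of_nonneg_of_nonpos hzL0 h0.le
        linarith
    have e2 : 2 * η * n ≤ n := by nlinarith
    linarith
  · have e1 : t * (1 - 2 * β * (z * L / n)) ≤ t * max 0 (1 - 2 * β * (z * L / n)) :=
      mul_le_mul_of_nonneg_left (le_max_right _ _) ht
    have e2 : η * (z * L) ≤ η * (4 * n) := mul_le_mul_of_nonneg_left hzL hη.le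
    have e3 : (1 / 2 - η) * z * L = z * L / 2 - η * (z * L) := by ring
    rw [e3]
    nlinarith

open Classical in
theorem union_bound {n : ℕ} (S S1 S2 S3 : Finset (Bits (n + 1))) (G : Fin (n + 1) → ℕ → ℕ → Finset (Bits (n + 1)))
    (h : ∀ b ∈ S, b ∈ S1 ∨ b ∈ S2 ∨ b ∈ S3 ∨ ∃ j z t, z ≤ n ∧ t ≤ n ∧ b ∈ G j z t) (q1 q2 q3 g : ℝ)
    (h1 : (S1.card : ℝ) ≤ q1) (h2 : (S2.card : ℝ) ≤ q2) (h3 : (S3.card : ℝ) ≤ q3)
    (hG : ∀ j z t, z ≤ n → t ≤ n → ((G j z t).card : ℝ) ≤ g) :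
    (S.card : ℝ) ≤ q1 + q2 + q3 + ((n : ℝ) + 1) ^ 3 * g := by
  have hsub : S ⊆ S1 ∪ (S2 ∪ (S3 ∪ (univ : Finset (Fin (n + 1))).biUnion fun j => (range (n + 1)).biUnion fun z =>
      (range (n + 1)).biUnion fun t => G j z t)) := by
    intro b hb
    rcases h b hb with h | h | h | ⟨j, z, t, hz, ht, h⟩
    · exact mem_union_left _ h
    · exact mem_union_right _ (mem_union_left _ h)
    · exact mem_union_right _ (mem_union_right _ (mem_union_left _ h))
    · refine mem_union_right _ (mem_union_right _ (mem_union_right _ ?_))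
      exact mem_biUnion.2 ⟨j, mem_univ _, mem_biUnion.2 ⟨z, mem_range.2 (by omega), mem_biUnion.2 ⟨t, mem_range.2 (by omega), h⟩⟩⟩
  have hU : ((((univ : Finset (Fin (n + 1))).biUnion fun j => (range (n + 1)).biUnion fun z =>
      (range (n + 1)).biUnion fun t => G j z t).card : ℕ) : ℝ) ≤ ((n : ℝ) + 1) ^ 3 * g := by
    have e1 : (((univ : Finset (Fin (n + 1))).biUnion fun j => (range (n + 1)).biUnion fun z =>
      (range (n + 1)).biUnion fun t => G j z t).card) ≤ ∑ j : Fin (n + 1), ∑ z ∈ range (n + 1), ∑ t ∈ range (n + 1), (G j z t).card :=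
      card_biUnion_le.trans (sum_le_sum fun j _ => card_biUnion_le.trans (sum_le_sum fun z _ => card_biUnion_le))
    have e2 : ((∑ j : Fin (n + 1), ∑ z ∈ range (n + 1), ∑ t ∈ range (n + 1), (G j z t).card : ℕ) : ℝ) ≤
        ∑ j : Fin (n + 1), ∑ z ∈ range (n + 1), ∑ t ∈ range (n + 1), g := by
      push_cast
      refine sum_le_sum fun j _ => sum_le_sum fun z hz => sum_le_sum fun t ht => hG j z t ?_ ?_
      · have := mem_range.1 hz; omega
      · have := mem_range.1 ht; omega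
    have e3 : (∑ j : Fin (n + 1), ∑ z ∈ range (n + 1), ∑ t ∈ range (n + 1), g) = ((n : ℝ) + 1) ^ 3 * g := by
      simp only [sum_const, card_univ, Fintype.card_fin, card_range, nsmul_eq_mul]
      push_cast; ring
    rw [← e3]
    exact (Nat.cast_le.2 e1).trans e2
  have hc : S.card ≤ S1.card + (S2.card + (S3.card + ((univ : Finset (Fin (n + 1))).biUnion fun j => (range (n + 1)).biUnion fun z =>
      (range (n + 1)).biUnion fun t => G j z t).card)) :=
    (card_le_card hsub).trans ((card_union_le _ _).trans (Nat.add_le_add_left ((card_union_le _ _).trans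
      (Nat.add_le_add_left (card_union_le _ _) _)) _))
  have hc' : (S.card : ℝ) ≤ S1.card + (S2.card + (S3.card + (((univ : Finset (Fin (n + 1))).biUnion fun j => (range (n + 1)).biUnion fun z =>
      (range (n + 1)).biUnion fun t => G j z t).card : ℝ))) := by exact_mod_cast hc
  linarith

/-- polynomial factor -/
theorem num (ε : ℝ) (hε : 0 < ε) : ∃ n₀ : ℕ, ∀ n ≥ n₀, 6 * ((n : ℝ) + 1) ^ 4 ≤ (2 : ℝ) ^ (ε * ((n : ℝ) + 1)) := by
  have h1 : Filter.Tendsto (fun x : ℝ => x ^ (4 : ℕ) * Real.exp (-(ε * Real.log 2) * x)) Filter.atTop (nhds 0) := by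
    have := Real.tendsto_pow_mul_exp_neg_atTop_nhds_zero 4
    have hc : 0 < ε * Real.log 2 := mul_pos hε (Real.log_pos (by norm_num))
    have h2 := (this.comp (Filter.tendsto_id.const_mul_atTop hc)).const_mul ((ε * Real.log 2) ^ 4)⁻¹
    rw [mul_zero] at h2
    refine h2.congr fun x => ?_
    simp only [Function.comp, id]
    have hne : (ε * Real.log 2) ^ 4 ≠ 0 := (pow_pos hc 4).ne'
    rw [show (ε * Real.log 2 * x) ^ 4 = (ε * Real.log 2) ^ 4 * x ^ 4 by ring,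
      show -(ε * Real.log 2) * x = -(ε * Real.log 2 * x) by ring, ← mul_assoc, ← mul_assoc,
      inv_mul_cancel₀ hne, one_mul]
  have h2 := (h1.comp (Filter.tendsto_atTop_add_const_right _ (1 : ℝ) tendsto_natCast_atTop_atTop)).eventually
    (gt_mem_nhds (show (0 : ℝ) < 1 / 6 by norm_num))
  obtain ⟨n₀, hn₀⟩ := Filter.eventually_atTop.1 h2
  refine ⟨n₀, fun n hn => ?_⟩
  have h3 := hn₀ n hn
  simp only [Function.comp] at h3
  have h4 : (2 : ℝ) ^ (ε * ((n : ℝ) + 1)) = Real.exp (ε * Real.log 2 * ((n : ℝ) + 1)) := by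
    rw [Real.rpow_def_of_pos (by norm_num)]; ring_nf
  rw [h4]
  have h5 : Real.exp (-(ε * Real.log 2) * ((n : ℝ) + 1)) = (Real.exp (ε * Real.log 2 * ((n : ℝ) + 1)))⁻¹ := by
    rw [← Real.exp_neg]; ring_nf
  rw [h5, ← div_eq_mul_inv, div_lt_iff₀ (Real.exp_pos _)] at h3
  linarith

theorem two_pow_card (n : ℕ) : (2 : ℝ) ^ Fintype.card (Sym2 (Fin (n + 1))) =
    2 ^ Fintype.card (Sym2 (Fin n)) * 2 ^ (n + 1) := by
  rw [card_sym2_succ, pow_add]

open Classical in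
/-- few matrices are good for given `j`, `z`, `t` -/
theorem good_count {lam β η A' R : ℝ} {n : ℕ} (hlam : 0 ≤ lam) (hβ : 1 ≤ β) (hη : 0 < η) (hη1 : η ≤ 1 / 32)
    (hn : 2 ≤ n) (hA' : 0 ≤ A')
    (hRich : (((univ : Finset (Bits n)).filter fun b => (matZ b).det ≠ 0 ∧ ∃ L : Submodule ℤ (Fin n → ℚ),
      Over (matZ b) L ∧ (2 : ℝ) ^ (η * n) < ((cls (matZ b) L 0 ((n : ℝ) ^ A')).ncard : ℝ)).card : ℝ) ≤
      (2 : ℝ) ^ (-((2 : ℝ) * n)) * 2 ^ Fintype.card (Sym2 (Fin n)))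
    (hCor : (((univ : Finset (Bits n)).filter fun b => ¬ CorOK R (matZ b)).card : ℝ) ≤
      (2 : ℝ) ^ (-((2 : ℝ) * n)) * 2 ^ Fintype.card (Sym2 (Fin n)))
    (hM : ∀ z t : ℕ, (z : ℝ) * Real.logb 2 n ≤ 4 * n →
      (((univ : Finset (Bits n)).filter fun b => (matZ b).det ≠ 0 ∧ Kill η (matZ b) z ∧ t ≤ N2 β (matZ b)).card : ℝ) ≤
      (2 : ℝ) ^ (-((1 / 2 - η) * z * Real.logb 2 n + t * max 0 (1 - 2 * β * (z * Real.logb 2 n / n))) + (lam + η) * n) *
        2 ^ Fintype.card (Sym2 (Fin n)))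
    (hCnt : ∀ (P : Matrix (Fin n) (Fin n) ℤ), P.IsSymm → P.det ≠ 0 → (P.det.natAbs : ℝ) ≤ (n : ℝ) ^ n → CorOK R P →
      ∀ (X M w : ℝ) (T : ℕ), w ≤ 4 * n → 1 ≤ X → (∀ L, Over P L → ((cls P L 0 X).ncard : ℝ) ≤ M) →
      (((univ : Finset (Fin n → Bool)).filter fun x => ∃ (v' : Fin n → ℤ) (e c : ℤ), Col P x v' e c ∧
        (∀ i, |(v' i : ℝ)| ≤ X * |(e : ℝ)|) ∧ (bigSet P e).card ≤ T ∧ lcost η n e c ≤ w).card : ℝ) ≤
        M * (2 : ℝ) ^ (T + w + η * n))
    (j : Fin (n + 1)) (z t : ℕ) :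
    (((univ : Finset (Bits (n + 1))).filter fun b => Good η β η A' b j z t).card : ℝ) ≤
      (2 * n + 2) * ((2 : ℝ) ^ (-((n : ℝ) + 1) + (lam + 10 * η) * n) * 2 ^ Fintype.card (Sym2 (Fin (n + 1)))) := by
  set L : ℝ := Real.logb 2 n with hLdef
  have hn1 : (2 : ℝ) ≤ n := by exact_mod_cast hn
  have hn0 : (0 : ℝ) < n := by linarith
  have hL1 : 1 ≤ L := by
    rw [hLdef, Real.le_logb_iff_rpow_le (by norm_num) hn0, Real.rpow_one]; exact hn1
  have hLn : L ≤ n := by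
    rw [hLdef, Real.logb_le_iff_le_rpow (by norm_num) hn0, Real.rpow_natCast]
    exact_mod_cast (Nat.lt_two_pow_self).le
  have h2L : (2 : ℝ) ^ L = n := Real.rpow_logb (by norm_num) (by norm_num) hn0
  set Kn : ℝ := 2 ^ Fintype.card (Sym2 (Fin n)) with hKn
  have hKn0 : 0 < Kn := by positivity
  have hK1 : (2 : ℝ) ^ Fintype.card (Sym2 (Fin (n + 1))) = Kn * 2 ^ (n + 1) := two_pow_card n
  have hQ : (2 : ℝ) ^ (-((n : ℝ) + 1) + (lam + 10 * η) * n) * (Kn * 2 ^ (n + 1)) = (2 : ℝ) ^ ((lam + 10 * η) * n) * Kn := by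
    have e1 : (2 : ℝ) ^ (n + 1) = (2 : ℝ) ^ ((n : ℝ) + 1) := by
      rw [← Real.rpow_natCast]; push_cast; rfl
    rw [e1]
    calc _ = ((2 : ℝ) ^ (-((n : ℝ) + 1) + (lam + 10 * η) * n) * (2 : ℝ) ^ ((n : ℝ) + 1)) * Kn := by ring
      _ = _ := by rw [← Real.rpow_add (by norm_num)]; ring_nf
  rw [hK1, hQ]
  have e2 : (2 : ℝ) ^ (n + 1) = (2 : ℝ) ^ ((n : ℝ) + 1) := by
    rw [← Real.rpow_natCast]; push_cast; rfl
  rcases le_or_gt ((z : ℝ) * L) (4 * n) with hzL | hzL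
  · -- the main case
    obtain ⟨hw4, hex⟩ := expo (n := n) (L := L) (z := z) (t := t) (β := β) (η := η) (by linarith) (by linarith) hLn
      (Nat.cast_nonneg z) (Nat.cast_nonneg t) hβ hη hη1 hzL
    set w : ℝ := (1 + η) * (z + 1) * (1 / 2 - 2 * β * t / n) * L with hw
    set ER : Finset (Bits n) := (univ : Finset (Bits n)).filter fun b => (matZ b).det ≠ 0 ∧ ∃ L : Submodule ℤ (Fin n → ℚ),
      Over (matZ b) L ∧ (2 : ℝ) ^ (η * n) < ((cls (matZ b) L 0 ((n : ℝ) ^ A')).ncard : ℝ) with hER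
    set EC : Finset (Bits n) := (univ : Finset (Bits n)).filter fun b => ¬ CorOK R (matZ b) with hEC
    set T : ℕ := ⌊(t : ℝ) + η * n⌋₊ with hT
    have hT1 : (T : ℝ) ≤ t + η * n := Nat.floor_le (by positivity)
    set Fx : Bits n → Finset (Fin n → Bool) := fun b => (univ : Finset (Fin n → Bool)).filter fun x =>
      ∃ (v' : Fin n → ℤ) (e c : ℤ), Col (matZ b) x v' e c ∧
        (∀ i, |(v' i : ℝ)| ≤ (n : ℝ) ^ A' * |(e : ℝ)|) ∧ (bigSet (matZ b) e).card ≤ T ∧ lcost η n e c ≤ w with hFx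
    set E1 : Finset (Bits n) := (univ : Finset (Bits n)).filter fun b => ((matZ b).det ≠ 0 ∧ Kill η (matZ b) z ∧ t ≤ N2 β (matZ b)) ∧
      b ∉ ER ∧ b ∉ EC with hE1
    have hE1card : (E1.card : ℝ) ≤ (2 : ℝ) ^ (-((1 / 2 - η) * z * L + t * max 0 (1 - 2 * β * (z * L / n))) + (lam + η) * n) * Kn := by
      refine le_trans (Nat.cast_le.2 (card_le_card ?_)) (hM z t hzL)
      intro b hb
      exact mem_filter.2 ⟨mem_univ _, (mem_filter.1 hb).2.1⟩
    have hsub : ((univ : Finset (Bits (n + 1))).filter fun b => Good η β η A' b j z t) ⊆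
        ((univ : Finset (Bits (n + 1))).filter fun b => bj j b ∈ ER) ∪
        (((univ : Finset (Bits (n + 1))).filter fun b => bj j b ∈ EC) ∪
        ((univ : Finset (Bits (n + 1))).filter fun b => Good η β η A' b j z t ∧ bj j b ∉ ER ∧ bj j b ∉ EC)) := by
      intro b hb
      have hg := (mem_filter.1 hb).2
      by_cases h1 : bj j b ∈ ER
      · exact mem_union_left _ (mem_filter.2 ⟨mem_univ _, h1⟩)
      · by_cases h2 : bj j b ∈ EC
        · exact mem_union_right _ (mem_union_left _ (mem_filter.2 ⟨mem_univ _, h2⟩))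
        · exact mem_union_right _ (mem_union_right _ (mem_filter.2 ⟨mem_univ _, hg, h1, h2⟩))
    have hsmall : (2 : ℝ) ^ (-((2 : ℝ) * n)) * Kn * 2 ^ (n + 1) ≤ (2 : ℝ) ^ ((lam + 10 * η) * n) * Kn := by
      rw [e2]
      calc (2 : ℝ) ^ (-((2 : ℝ) * n)) * Kn * (2 : ℝ) ^ ((n : ℝ) + 1) =
          ((2 : ℝ) ^ (-((2 : ℝ) * n)) * (2 : ℝ) ^ ((n : ℝ) + 1)) * Kn := by ring
        _ = (2 : ℝ) ^ (-((2 : ℝ) * n) + ((n : ℝ) + 1)) * Kn := by rw [← Real.rpow_add (by norm_num)]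
        _ ≤ _ := by
          refine mul_le_mul_of_nonneg_right (Real.rpow_le_rpow_of_exponent_le (by norm_num) ?_) hKn0.le
          have : 0 ≤ (lam + 10 * η) * n := by positivity
          linarith
    have ha : ((((univ : Finset (Bits (n + 1))).filter fun b => bj j b ∈ ER).card : ℕ) : ℝ) ≤ (2 : ℝ) ^ ((lam + 10 * η) * n) * Kn := by
      refine (split_count' j _ ER fun b hb => (mem_filter.1 hb).2).trans (le_trans ?_ hsmall)
      exact mul_le_mul_of_nonneg_right hRich (by positivity)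
    have hb : ((((univ : Finset (Bits (n + 1))).filter fun b => bj j b ∈ EC).card : ℕ) : ℝ) ≤ (2 : ℝ) ^ ((lam + 10 * η) * n) * Kn := by
      refine (split_count' j _ EC fun b hb => (mem_filter.1 hb).2).trans (le_trans ?_ hsmall)
      exact mul_le_mul_of_nonneg_right hCor (by positivity)
    have hc : ((((univ : Finset (Bits (n + 1))).filter fun b => Good η β η A' b j z t ∧ bj j b ∉ ER ∧ bj j b ∉ EC).card : ℕ) : ℝ) ≤
        2 * E1.card * ((2 : ℝ) ^ (η * n) * (2 : ℝ) ^ ((T : ℝ) + w + η * n)) := by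
      refine split_count j _ E1 Fx _ ?_ ?_ ?_
      · intro b hb
        obtain ⟨hg, h1, h2⟩ := (mem_filter.1 hb).2
        exact mem_filter.2 ⟨mem_univ _, ⟨hg.1, hg.2.1, hg.2.2.1⟩, h1, h2⟩
      · intro b hb
        obtain ⟨hg, h1, h2⟩ := (mem_filter.1 hb).2
        obtain ⟨_, _, _, _, _, v', e, c, hcol, hbd, hbig, hlc⟩ := hg
        exact mem_filter.2 ⟨mem_univ _, v', e, c, hcol, hbd, Nat.le_floor hbig, hlc⟩
      · intro b hb
        obtain ⟨⟨hdet, _, _⟩, h1, h2⟩ := (mem_filter.1 hb).2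
        refine hCnt (matZ b) ?_ hdet (det_le_pow b) ?_ ((n : ℝ) ^ A') ((2 : ℝ) ^ (η * n)) w T hw4
          (Real.one_le_rpow (by linarith) hA') ?_
        · exact Matrix.IsSymm.ext fun i k => matZ_symm b k i
        · by_contra hno
          exact h2 (mem_filter.2 ⟨mem_univ _, hno⟩)
        · intro M hM'
          by_contra hno
          exact h1 (mem_filter.2 ⟨mem_univ _, hdet, M, hM', not_le.1 hno⟩)
    have hc2 : 2 * (E1.card : ℝ) * ((2 : ℝ) ^ (η * n) * (2 : ℝ) ^ ((T : ℝ) + w + η * n)) ≤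
        2 * n * ((2 : ℝ) ^ ((lam + 10 * η) * n) * Kn) := by
      have hpos : 0 ≤ (2 : ℝ) ^ (η * n) * (2 : ℝ) ^ ((T : ℝ) + w + η * n) := by positivity
      calc 2 * (E1.card : ℝ) * ((2 : ℝ) ^ (η * n) * (2 : ℝ) ^ ((T : ℝ) + w + η * n))
          ≤ 2 * ((2 : ℝ) ^ (-((1 / 2 - η) * z * L + t * max 0 (1 - 2 * β * (z * L / n))) + (lam + η) * n) * Kn) *
            ((2 : ℝ) ^ (η * n) * (2 : ℝ) ^ ((T : ℝ) + w + η * n)) :=
            mul_le_mul_of_nonneg_right (mul_le_mul_of_nonneg_left hE1card (by norm_num)) hpos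
        _ = 2 * (2 : ℝ) ^ ((-((1 / 2 - η) * z * L + t * max 0 (1 - 2 * β * (z * L / n))) + (lam + η) * n) + (η * n + ((T : ℝ) + w + η * n))) * Kn := by
            rw [Real.rpow_add (by norm_num) (-((1 / 2 - η) * z * L + t * max 0 (1 - 2 * β * (z * L / n))) + (lam + η) * n),
              Real.rpow_add (by norm_num) (η * n)]
            ring
        _ ≤ 2 * (2 : ℝ) ^ (L + (lam + 10 * η) * n) * Kn := by
            refine mul_le_mul_of_nonneg_right (mul_le_mul_of_nonneg_left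
              (Real.rpow_le_rpow_of_exponent_le (by norm_num) ?_) (by norm_num)) hKn0.le
            linarith
        _ = 2 * n * ((2 : ℝ) ^ ((lam + 10 * η) * n) * Kn) := by
            rw [Real.rpow_add (by norm_num), h2L]; ring
    have htot := (card_le_card hsub).trans ((card_union_le _ _).trans (Nat.add_le_add_left (card_union_le _ _) _))
    have htot' : ((((univ : Finset (Bits (n + 1))).filter fun b => Good η β η A' b j z t).card : ℕ) : ℝ) ≤
        (((univ : Finset (Bits (n + 1))).filter fun b => bj j b ∈ ER).card : ℝ) +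
        ((((univ : Finset (Bits (n + 1))).filter fun b => bj j b ∈ EC).card : ℝ) +
        (((univ : Finset (Bits (n + 1))).filter fun b => Good η β η A' b j z t ∧ bj j b ∉ ER ∧ bj j b ∉ EC).card : ℝ)) := by
      exact_mod_cast htot
    have hc3 := hc.trans hc2
    have : (2 * (n : ℝ) + 2) * ((2 : ℝ) ^ ((lam + 10 * η) * n) * Kn) =
      (2 : ℝ) ^ ((lam + 10 * η) * n) * Kn + ((2 : ℝ) ^ ((lam + 10 * η) * n) * Kn + 2 * n * ((2 : ℝ) ^ ((lam + 10 * η) * n) * Kn)) := by ring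
    rw [this]
    linarith
  · -- many zeros
    set z1 : ℕ := ⌊4 * (n : ℝ) / L⌋₊ with hz1
    have hL0 : 0 < L := by linarith
    have h1 : (z1 : ℝ) ≤ 4 * n / L := Nat.floor_le (by positivity)
    have h1' : (z1 : ℝ) * L ≤ 4 * n := by rwa [le_div_iff₀ hL0] at h1
    have h2 : 4 * (n : ℝ) / L < z1 + 1 := Nat.lt_floor_add_one _
    have h2' : 4 * (n : ℝ) < (z1 + 1) * L := by rwa [div_lt_iff₀ hL0] at h2
    have hzz : z1 ≤ z := by
      have : (z1 : ℝ) * L < z * L := lt_of_le_of_lt h1' hzL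
      have := lt_of_mul_lt_mul_right this hL0.le
      exact_mod_cast this.le
    have hE := hM z1 0 h1'
    refine (split_count' j _ ((univ : Finset (Bits n)).filter fun b => (matZ b).det ≠ 0 ∧ Kill η (matZ b) z1 ∧ 0 ≤ N2 β (matZ b)) ?_).trans ?_
    · intro b hb
      have hg := (mem_filter.1 hb).2
      exact mem_filter.2 ⟨mem_univ _, hg.1, kill_mono hzz hg.2.1, Nat.zero_le _⟩
    · refine (mul_le_mul_of_nonneg_right hE (by positivity)).trans ?_
      rw [e2]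
      calc (2 : ℝ) ^ (-((1 / 2 - η) * z1 * L + ((0 : ℕ) : ℝ) * max 0 (1 - 2 * β * (z1 * L / n))) + (lam + η) * n) * Kn * (2 : ℝ) ^ ((n : ℝ) + 1)
          = (2 : ℝ) ^ ((-((1 / 2 - η) * z1 * L + ((0 : ℕ) : ℝ) * max 0 (1 - 2 * β * (z1 * L / n))) + (lam + η) * n) + ((n : ℝ) + 1)) * Kn := by
            rw [Real.rpow_add (by norm_num) (-((1 / 2 - η) * z1 * L + ((0 : ℕ) : ℝ) * max 0 (1 - 2 * β * (z1 * L / n))) + (lam + η) * n)]
            ring
        _ ≤ (2 : ℝ) ^ (L + (lam + 10 * η) * n) * Kn := by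
            refine mul_le_mul_of_nonneg_right (Real.rpow_le_rpow_of_exponent_le (by norm_num) ?_) hKn0.le
            rw [Nat.cast_zero, zero_mul, add_zero]
            have h3 : (15 / 32 : ℝ) * (z1 * L) ≤ (1 / 2 - η) * z1 * L := by
              have : (15 / 32 : ℝ) ≤ 1 / 2 - η := by linarith
              calc (15 / 32 : ℝ) * (z1 * L) ≤ (1 / 2 - η) * (z1 * L) := mul_le_mul_of_nonneg_right this (by positivity)
                _ = _ := by ring
            have h4 : 0 ≤ η * n := by positivity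
            nlinarith
        _ = n * ((2 : ℝ) ^ ((lam + 10 * η) * n) * Kn) := by
            rw [Real.rpow_add (by norm_num), h2L]; ring
        _ ≤ _ := by
            refine mul_le_mul_of_nonneg_right ?_ (by positivity)
            linarith

open Classical in
/-- **the union bound**: selection of the index gives the assembly -/
theorem final_of_sel (hSel : SelStmt) : FinalStmt := by
  intro lam β hlam hβ hRich hM hSparse hTame hMid hCor hCnt ε hε
  obtain ⟨η, hη0, hη1, hη2⟩ : ∃ η : ℝ, 0 < η ∧ η ≤ 1 / 32 ∧ 32 * η ≤ ε :=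
    ⟨min ε 1 / 32, by positivity, by have := min_le_right ε 1; linarith, by have := min_le_left ε 1; linarith⟩
  obtain ⟨n1, h1⟩ := hSparse (η / 2) (ε / 2) (by positivity) (by positivity)
  obtain ⟨A, n2, h2⟩ := hTame (η / 8) (ε / 2) (by positivity) (by positivity)
  obtain ⟨n3, h3⟩ := hMid (η / 8) η (ε / 2) (by positivity) hη0 (by positivity)
  obtain ⟨n4, h4⟩ := hSel η β η A hη0 (by linarith) hβ hη0 (by linarith)
  obtain ⟨n5, h5⟩ := hRich η 2 (2 * |A| + 1) hη0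
  obtain ⟨n6, R, h6⟩ := hCor 2
  obtain ⟨n7, h7⟩ := hM η hη0 (by linarith) η hη0
  obtain ⟨n8, h8⟩ := hCnt η hη0 (by linarith) η 4 R hη0 (by norm_num)
  obtain ⟨n9, h9⟩ := num (ε / 2) (by positivity)
  refine ⟨n1 + n2 + n3 + n4 + n5 + n6 + n7 + n8 + n9 + 3, fun N hN => ?_⟩
  obtain ⟨n, rfl⟩ : ∃ n, N = n + 1 := ⟨N - 1, by omega⟩
  have g1 := h1 (n + 1) (by omega)
  have g2 := h2 (n + 1) (by omega)
  have g3 := h3 n (by omega)
  have g4 := h4 n (by omega)
  have g5 := h5 n (by omega)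
  have g6 := h6 n (by omega)
  have g7 := h7 n (by omega)
  have g8 := h8 n (by omega)
  have g9 := h9 n (by omega)
  have hn2 : 2 ≤ n := by omega
  have hnr : (2 : ℝ) ≤ n := by exact_mod_cast hn2
  set K1 : ℝ := 2 ^ Fintype.card (Sym2 (Fin (n + 1))) with hK1
  have hK0 : 0 < K1 := by positivity
  set Q : ℝ := (2 : ℝ) ^ (-((1 - lam - ε / 2) * ((n : ℝ) + 1))) * K1 with hQ
  have hQ0 : 0 < Q := by positivity
  have hG : ∀ (j : Fin (n + 1)) (z t : ℕ), z ≤ n → t ≤ n →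
      ((((univ : Finset (Bits (n + 1))).filter fun b => Good η β η (2 * |A| + 1) b j z t).card : ℕ) : ℝ) ≤ (2 * n + 2) * Q := by
    intro j z t _ _
    refine (good_count (lam := lam) (β := β) (η := η) (A' := 2 * |A| + 1) (R := R) hlam hβ hη0 hη1 hn2 (by positivity)
      g5 g6 g7 g8 j z t).trans ?_
    refine mul_le_mul_of_nonneg_left ?_ (by positivity)
    refine mul_le_mul_of_nonneg_right (Real.rpow_le_rpow_of_exponent_le (by norm_num) ?_) hK0.le
    have e1 : 10 * η ≤ ε / 2 := by linarith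
    have e2 : 10 * η * n ≤ ε / 2 * n := mul_le_mul_of_nonneg_right e1 (by positivity)
    nlinarith
  have q1 : ((((univ : Finset (Bits (n + 1))).filter fun b => ∃ p : ℕ, p.Prime ∧ ∃ u : Fin (n + 1) → ZMod p, u ≠ 0 ∧
      ((univ.filter fun i => u i ≠ 0).card : ℝ) ≤ ((n + 1 : ℕ) : ℝ) ^ (1 - η / 2) ∧
      (matZ b).map (Int.cast : ℤ → ZMod p) *ᵥ u = 0).card : ℕ) : ℝ) ≤ Q := by
    refine g1.trans (mul_le_mul_of_nonneg_right (Real.rpow_le_rpow_of_exponent_le (by norm_num) ?_) hK0.le)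
    push_cast
    nlinarith
  have q2 : ((((univ : Finset (Bits (n + 1))).filter fun b => ∃ (v : Fin (n + 1) → ℝ) (i : Fin (n + 1)),
      (∀ k, ∑ j, (if b s(k, j) then v j else 0) = 0) ∧
      η / 8 * ((n + 1 : ℕ) : ℝ) ≤ ((univ.filter fun j => |v j| * ((n + 1 : ℕ) : ℝ) ^ A < |v i|).card : ℝ)).card : ℕ) : ℝ) ≤ Q := by
    refine g2.trans (mul_le_mul_of_nonneg_right (Real.rpow_le_rpow_of_exponent_le (by norm_num) ?_) hK0.le)
    push_cast
    nlinarith
  have q3 : ((((univ : Finset (Bits (n + 1))).filter fun b => ((matZ b).map (Int.cast : ℤ → ℚ)).rank = n ∧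
      ∃ v : Fin (n + 1) → ℤ, PrimKer (matZ b) v ∧
      η / 8 * n ≤ ((univ.filter fun j => v j ≠ 0 ∧ η * n < ((midSet β (matZ b) v j).card : ℝ)).card : ℝ)).card : ℕ) : ℝ) ≤ 2 * Q := by
    refine g3.trans ?_
    have e1 : 2 * Q = (2 : ℝ) ^ (1 + -((1 - lam - ε / 2) * ((n : ℝ) + 1))) * K1 := by
      rw [Real.rpow_add (by norm_num), Real.rpow_one, hQ]; ring
    rw [e1]
    refine mul_le_mul_of_nonneg_right (Real.rpow_le_rpow_of_exponent_le (by norm_num) ?_) hK0.le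
    nlinarith
  have hS := union_bound ((univ : Finset (Bits (n + 1))).filter fun b => ((matZ b).map (Int.cast : ℤ → ℚ)).rank + 1 = n + 1)
    _ _ _ (fun j z t => (univ : Finset (Bits (n + 1))).filter fun b => Good η β η (2 * |A| + 1) b j z t) ?_ Q Q (2 * Q) ((2 * n + 2) * Q)
    q1 q2 q3 hG
  · refine hS.trans ?_
    have e1 : Q + Q + 2 * Q + ((n : ℝ) + 1) ^ 3 * ((2 * n + 2) * Q) ≤ (6 * ((n : ℝ) + 1) ^ 4) * Q := by
      have : 1 ≤ ((n : ℝ) + 1) ^ 4 := one_le_pow₀ (by linarith)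
      have e3 : Q + Q + 2 * Q + ((n : ℝ) + 1) ^ 3 * ((2 * n + 2) * Q) = (4 + 2 * ((n : ℝ) + 1) ^ 4) * Q := by ring
      rw [e3]
      exact mul_le_mul_of_nonneg_right (by linarith) hQ0.le
    refine e1.trans ((mul_le_mul_of_nonneg_right g9 hQ0.le).trans (le_of_eq ?_))
    rw [hQ, ← mul_assoc, ← Real.rpow_add (by norm_num)]
    congr 2
    push_cast
    ring
  · intro b hb
    have hr : ((matZ b).map (Int.cast : ℤ → ℚ)).rank = n := by
      have := (mem_filter.1 hb).2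
      omega
    by_cases c1 : ∃ p : ℕ, p.Prime ∧ ∃ u : Fin (n + 1) → ZMod p, u ≠ 0 ∧
      ((univ.filter fun i => u i ≠ 0).card : ℝ) ≤ ((n + 1 : ℕ) : ℝ) ^ (1 - η / 2) ∧
      (matZ b).map (Int.cast : ℤ → ZMod p) *ᵥ u = 0
    · exact Or.inl (mem_filter.2 ⟨mem_univ _, c1⟩)
    by_cases c2 : ∃ (v : Fin (n + 1) → ℝ) (i : Fin (n + 1)),
      (∀ k, ∑ j, (if b s(k, j) then v j else 0) = 0) ∧
      η / 8 * ((n + 1 : ℕ) : ℝ) ≤ ((univ.filter fun j => |v j| * ((n + 1 : ℕ) : ℝ) ^ A < |v i|).card : ℝ)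
    · exact Or.inr (Or.inl (mem_filter.2 ⟨mem_univ _, c2⟩))
    by_cases c3 : ∃ v : Fin (n + 1) → ℤ, PrimKer (matZ b) v ∧
      η / 8 * n ≤ ((univ.filter fun j => v j ≠ 0 ∧ η * n < ((midSet β (matZ b) v j).card : ℝ)).card : ℝ)
    · exact Or.inr (Or.inr (Or.inl (mem_filter.2 ⟨mem_univ _, hr, c3⟩)))
    obtain ⟨j, z, t, hgood⟩ := g4 b hr c1 c2 c3
    exact Or.inr (Or.inr (Or.inr ⟨j, z, t, hgood.2.2.2.2.1, hgood.2.2.2.1, mem_filter.2 ⟨mem_univ _, hgood⟩⟩))

end Vale.Agent.P160.Half.F.FM801
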