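import Vale.Agent.P160.Half.Fin.FStmt
import Vale.Agent.P160.Half.Adj729

/-! # P160, rate 1/2: final assembly, splitting `A` at the index `j` -/

set_option linter.unusedVariables false

namespace Vale.Agent.P160.Half.F

open Finset Matrix Vale.Agent.P160.Half Vale.Agent.P160.Half.A

/-- bits of the minor `A_j` -/
def bj {n : ℕ} (j : Fin (n + 1)) (b : Bits (n + 1)) : Bits n := fun s => b (Sym2.map j.succAbove s)

/-- column `j` without the diagonal entry -/
def xj {n : ℕ} (j : Fin (n + 1)) (b : Bits (n + 1)) : Fin n → Bool := fun i => b s(j, j.succAbove i)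

theorem matZ_bj {n : ℕ} (j : Fin (n + 1)) (b : Bits (n + 1)) :
    matZ (bj j b) = (matZ b).submatrix j.succAbove j.succAbove := by
  rfl

theorem split_inj {n : ℕ} (j : Fin (n + 1)) :
    Function.Injective fun b : Bits (n + 1) => (bj j b, xj j b, b s(j, j)) := by
  intro b b' h
  have h1 : bj j b = bj j b' := (Prod.mk.inj h).1
  have h2 : xj j b = xj j b' := (Prod.mk.inj (Prod.mk.inj h).2).1
  have h3 : b s(j, j) = b' s(j, j) := (Prod.mk.inj (Prod.mk.inj h).2).2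
  funext s
  induction s using Sym2.inductionOn with
  | _ i k =>
    rcases Fin.eq_self_or_eq_succAbove j i with hi | ⟨i', hi⟩
    · rcases Fin.eq_self_or_eq_succAbove j k with hk | ⟨k', hk⟩
      · rw [hi, hk]; exact h3
      · rw [hi, hk]; exact congrFun h2 k'
    · rcases Fin.eq_self_or_eq_succAbove j k with hk | ⟨k', hk⟩
      · rw [hi, hk, Sym2.eq_swap]; exact congrFun h2 i'
      · rw [hi, hk]
        have := congrFun h1 s(i', k')
        simpa [bj] using this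

theorem card_sym2_succ (n : ℕ) : Fintype.card (Sym2 (Fin (n + 1))) = Fintype.card (Sym2 (Fin n)) + (n + 1) := by
  rw [Sym2.card, Sym2.card, Fintype.card_fin, Fintype.card_fin, Nat.choose_succ_succ' (n + 1) 1, Nat.choose_one_right]
  show n + 1 + (n + 1).choose 2 = (n + 1).choose 2 + (n + 1)
  omega

open Classical in
/-- counting by the minor and the column -/
theorem split_count {n : ℕ} (j : Fin (n + 1)) (S : Finset (Bits (n + 1))) (E : Finset (Bits n)) (F : Bits n → Finset (Fin n → Bool)) (N : ℝ)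
    (hE : ∀ b ∈ S, bj j b ∈ E) (hF : ∀ b ∈ S, xj j b ∈ F (bj j b)) (hN : ∀ b ∈ E, ((F b).card : ℝ) ≤ N) :
    (S.card : ℝ) ≤ 2 * E.card * N := by
  have h1 : S.card ≤ ((E.sigma F) ×ˢ (univ : Finset Bool)).card := by
    refine card_le_card_of_injOn (fun b => (⟨bj j b, xj j b⟩, b s(j, j))) ?_ ?_
    · intro b hb
      exact mem_coe.2 (mem_product.2 ⟨mem_sigma.2 ⟨hE b hb, hF b hb⟩, mem_univ _⟩)
    · intro b _ b' _ h
      apply split_inj j
      have h1 := (Prod.mk.inj h).1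
      have h2 := (Prod.mk.inj h).2
      have h3 := Sigma.mk.inj h1
      exact Prod.ext h3.1 (Prod.ext (eq_of_heq h3.2) h2)
  rw [card_product, card_sigma, card_univ, Fintype.card_bool] at h1
  have h2 : (S.card : ℝ) ≤ (∑ b ∈ E, ((F b).card : ℝ)) * 2 := by exact_mod_cast h1
  refine h2.trans ?_
  have h3 : (∑ b ∈ E, ((F b).card : ℝ)) ≤ ∑ _b ∈ E, N := sum_le_sum hN
  rw [sum_const, nsmul_eq_mul] at h3
  linarith

open Classical in
/-- if only the minor matters -/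
theorem split_count' {n : ℕ} (j : Fin (n + 1)) (S : Finset (Bits (n + 1))) (E : Finset (Bits n))
    (hE : ∀ b ∈ S, bj j b ∈ E) : (S.card : ℝ) ≤ E.card * 2 ^ (n + 1) := by
  have := split_count j S E (fun _ => univ) (2 ^ n) hE (fun _ _ => mem_univ _) (fun b _ => by
    rw [card_univ, Fintype.card_fun, Fintype.card_bool, Fintype.card_fin]; push_cast; exact le_rfl)
  refine this.trans (le_of_eq ?_)
  rw [pow_succ]; ring

/-- **structure of a corank 1 matrix at the index `j`** -/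
theorem col_of {n : ℕ} (b : Bits (n + 1)) (v : Fin (n + 1) → ℤ) (c : ℤ) (a : Fin (n + 1) → ℤ) (ha : ∑ i, a i * v i = 1)
    (hv : matZ b *ᵥ v = 0) (j : Fin (n + 1))
    (hdet : ((matZ b).submatrix j.succAbove j.succAbove).det = c * v j ^ 2) :
    Col (matZ (bj j b)) (xj j b) (fun i => v (j.succAbove i)) (v j) c := by
  have hrow : ∀ i, ∑ k, matZ b i k * v k = 0 := fun i => congrFun hv i
  refine ⟨by rw [matZ_bj]; exact hdet, ?_, ?_, ?_⟩
  · funext i
    have h := hrow (j.succAbove i)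
    rw [Fin.sum_univ_succAbove _ j] at h
    have h2 : (matZ (bj j b) *ᵥ fun i => v (j.succAbove i)) i = ∑ k, matZ b (j.succAbove i) (j.succAbove k) * v (j.succAbove k) := by
      rw [matZ_bj]; rfl
    rw [h2]
    have h3 : matZ b (j.succAbove i) j = if xj j b i then 1 else 0 := by
      rw [matZ_symm]; rfl
    rw [h3] at h
    have h4 : (-(v j) • fun i => if xj j b i then (1 : ℤ) else 0) i = -(v j) * (if xj j b i then 1 else 0) := rfl
    rw [h4]
    linarith
  · have h := hrow j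
    rw [Fin.sum_univ_succAbove _ j] at h
    have h3 : ∀ i, matZ b j (j.succAbove i) * v (j.succAbove i) = if xj j b i then v (j.succAbove i) else 0 := by
      intro i
      show (if b s(j, j.succAbove i) then (1 : ℤ) else 0) * _ = if b s(j, j.succAbove i) then _ else _
      split_ifs <;> simp
    rw [sum_congr rfl fun i _ => h3 i] at h
    refine ⟨-(matZ b j j), ?_⟩
    linarith
  · refine ⟨fun i => a (j.succAbove i), a j, ?_⟩
    rw [Fin.sum_univ_succAbove _ j] at ha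
    linarith

/-! ## Selection of the index -/

/-- the index `j` is good with parameters `z`, `t` -/
def Good (ζ β δ A : ℝ) {n : ℕ} (b : Bits (n + 1)) (j : Fin (n + 1)) (z t : ℕ) : Prop :=
  (matZ (bj j b)).det ≠ 0 ∧ Kill ζ (matZ (bj j b)) z ∧ t ≤ N2 β (matZ (bj j b)) ∧ t ≤ n ∧ z ≤ n ∧
  ∃ (v' : Fin n → ℤ) (e c : ℤ), Col (matZ (bj j b)) (xj j b) v' e c ∧ (∀ i, |(v' i : ℝ)| ≤ (n : ℝ) ^ A * |(e : ℝ)|) ∧
    ((bigSet (matZ (bj j b)) e).card : ℝ) ≤ t + δ * n ∧
    lcost ζ n e c ≤ (1 + δ) * ((z : ℝ) + 1) * (1 / 2 - 2 * β * t / n) * Real.logb 2 n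

/-- **SEL** (selection of `j`, deterministic). PROOF. `Adj729.adj_struct` gives `v, c`; `G` = indices which are tame (then `v j ≠ 0` and
`|v i| ≤ (n+1)^A |v j| ≤ n^(2|A|+1) |v j|`) and have at most `δ n` mid primes, `|G| ≥ (1 - δ/4)(n + 1)`; `Sel150.select` with `P` = prime factors of `c`,
`Z p = {j : q_p ∣ v j}`, `w p = v_p(c) log₂ p`, `W = log₂ |c|`; `z = |Z p| - 1` (`z = 0` if the cost is `0`); `Kill` by `v'` modulo `q_p`, unit
coordinates = coordinates nonzero mod `p`, more than `(n+1)^(1-ζ/2) - 1 ≥ n^(1-ζ)` of them because `A` has no sparse kernel vector;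
`t` = number of `p ∣ v j`, `p ≥ n^β`, `crk ≥ 2`; `log₂|c| + 2 log₂|v j| = log₂|det P| ≤ (n/2) log₂ n` (`HadN.det_sq_le`), `log₂|v j| ≥ t β log₂ n`. -/
def SelStmt : Prop := ∀ ζ β δ A : ℝ, 0 < ζ → ζ < 1 / 16 → 1 ≤ β → 0 < δ → δ ≤ 1 / 2 → ∃ n₀ : ℕ, ∀ n ≥ n₀, ∀ b : Bits (n + 1),
  ((matZ b).map (Int.cast : ℤ → ℚ)).rank = n →
  (¬ ∃ p : ℕ, p.Prime ∧ ∃ u : Fin (n + 1) → ZMod p, u ≠ 0 ∧
    ((univ.filter fun i => u i ≠ 0).card : ℝ) ≤ ((n + 1 : ℕ) : ℝ) ^ (1 - ζ / 2) ∧ (matZ b).map (Int.cast : ℤ → ZMod p) *ᵥ u = 0) →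
  (¬ ∃ (v : Fin (n + 1) → ℝ) (i : Fin (n + 1)), (∀ k, ∑ j, (if b s(k, j) then v j else 0) = 0) ∧
    δ / 8 * ((n + 1 : ℕ) : ℝ) ≤ ((univ.filter fun j => |v j| * ((n + 1 : ℕ) : ℝ) ^ A < |v i|).card : ℝ)) →
  (¬ ∃ v : Fin (n + 1) → ℤ, PrimKer (matZ b) v ∧
    δ / 8 * n ≤ ((univ.filter fun j => v j ≠ 0 ∧ δ * n < ((midSet β (matZ b) v j).card : ℝ)).card : ℝ)) →
  ∃ (j : Fin (n + 1)) (z t : ℕ), Good ζ β δ (2 * |A| + 1) b j z t

end Vale.Agent.P160.Half.F
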