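import Vale.Agent.P160.Half.Fin.FSplit
import Vale.Agent.P160.Half.HadN
import Vale.Agent.P160.Half.Select150

/-! # P160, rate 1/2: selection of the deleted index (`SelStmt`) -/

open Finset Matrix Vale.Agent.P160.Half Vale.Agent.P160.Half.A

namespace Vale.Agent.P160.Half.F.Sel255

theorem abs_cast (c : ℤ) : ((c.natAbs : ℕ) : ℝ) = |(c : ℝ)| := by
  rw [Nat.cast_natAbs]; push_cast; rfl

/-- `∑ v_p(c) log₂ p = log₂ |c|` -/
theorem log_c (c : ℤ) (hc : c ≠ 0) :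
    ∑ p ∈ c.natAbs.primeFactors, (c.natAbs.factorization p : ℝ) * Real.logb 2 p =
      Real.logb 2 |(c : ℝ)| := by
  have hc' : c.natAbs ≠ 0 := Int.natAbs_ne_zero.2 hc
  rw [← abs_cast]
  have h2 : ((c.natAbs : ℕ) : ℝ) =
      ∏ p ∈ c.natAbs.primeFactors, (p : ℝ) ^ (c.natAbs.factorization p) := by
    conv_lhs => rw [← Nat.prod_factorization_pow_eq_self hc']
    rw [Finsupp.prod, Nat.support_factorization]
    push_cast; rfl
  rw [h2, Real.logb_prod]
  · exact sum_congr rfl fun p _ => (Real.logb_pow _ _ _).symm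
  · intro p hp
    have := (Nat.prime_of_mem_primeFactors hp).pos
    positivity

theorem prod_le_e (e : ℤ) (he : e ≠ 0) (T : Finset ℕ) (hT : T ⊆ e.natAbs.primeFactors) (x : ℝ)
    (hx0 : 0 ≤ x) (hx : ∀ p ∈ T, x ≤ (p : ℝ)) : x ^ T.card ≤ |(e : ℝ)| := by
  have h1 : ∏ p ∈ T, p ∣ e.natAbs :=
    (Finset.prod_dvd_prod_of_subset _ _ _ hT).trans (Nat.prod_primeFactors_dvd _)
  have h2 : ∏ p ∈ T, p ≤ e.natAbs :=
    Nat.le_of_dvd (Nat.pos_of_ne_zero (Int.natAbs_ne_zero.2 he)) h1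
  calc x ^ T.card = ∏ _p ∈ T, x := by rw [prod_const]
    _ ≤ ∏ p ∈ T, (p : ℝ) := prod_le_prod (fun _ _ => hx0) hx
    _ = ((∏ p ∈ T, p : ℕ) : ℝ) := by push_cast; rfl
    _ ≤ (e.natAbs : ℝ) := by exact_mod_cast h2
    _ = |(e : ℝ)| := abs_cast e

theorem log_det {n : ℕ} (b : Bits n) (c e : ℤ) (h : (matZ b).det = c * e ^ 2) (hc : c ≠ 0)
    (he : e ≠ 0) :
    Real.logb 2 |(c : ℝ)| + 2 * Real.logb 2 |(e : ℝ)| ≤ n / 2 * Real.logb 2 n := by
  have h1 := HadN.det_sq_le (matZ b) (matZ_abs b)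
  rw [h, Fintype.card_fin] at h1
  have h2 : (|(c : ℝ)| * |(e : ℝ)| ^ 2) ^ 2 ≤ (n : ℝ) ^ n := by
    have h3 : (((c * e ^ 2) ^ 2 : ℤ) : ℝ) ≤ (((n : ℤ) ^ n : ℤ) : ℝ) := by exact_mod_cast h1
    push_cast at h3
    calc (|(c : ℝ)| * |(e : ℝ)| ^ 2) ^ 2 = ((c : ℝ) * (e : ℝ) ^ 2) ^ 2 := by
          rw [mul_pow, mul_pow, sq_abs, sq_abs]
      _ ≤ _ := h3
  have hc0 : 0 < |(c : ℝ)| := abs_pos.2 (by exact_mod_cast hc)
  have he0 : 0 < |(e : ℝ)| := abs_pos.2 (by exact_mod_cast he)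
  have h4 := Real.logb_le_logb_of_le (b := 2) (by norm_num) (by positivity) h2
  rw [Real.logb_pow, Real.logb_pow, Real.logb_mul hc0.ne' (by positivity), Real.logb_pow] at h4
  push_cast at h4
  linarith

theorem card_succAbove {n : ℕ} (f : Fin (n + 1) → Prop) [DecidablePred f] (j : Fin (n + 1)) (hf : f j) :
    (univ.filter fun i : Fin n => f (j.succAbove i)).card + 1 = (univ.filter f).card := by
  rw [card_filter, card_filter, Fin.sum_univ_succAbove _ j, if_pos hf, add_comm]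

theorem card_succAbove' {n : ℕ} (f : Fin (n + 1) → Prop) [DecidablePred f] (j : Fin (n + 1)) (hf : ¬ f j) :
    (univ.filter fun i : Fin n => f (j.succAbove i)).card = (univ.filter f).card := by
  rw [card_filter, card_filter, Fin.sum_univ_succAbove _ j, if_neg hf, zero_add]

theorem ker_mod {n : ℕ} (b : Bits (n + 1)) (v : Fin (n + 1) → ℤ) (hv : matZ b *ᵥ v = 0) (q : ℕ) :
    (matZ b).map (Int.cast : ℤ → ZMod q) *ᵥ (fun i => ((v i : ℤ) : ZMod q)) = 0 := by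
  funext i
  have h1 := congrArg (Int.cast : ℤ → ZMod q) (congrFun hv i)
  rw [mulVec, dotProduct] at h1
  push_cast at h1
  rw [mulVec, dotProduct]
  simpa using h1

theorem ker_minor {n : ℕ} (b : Bits (n + 1)) (v : Fin (n + 1) → ℤ) (hv : matZ b *ᵥ v = 0) (q : ℕ)
    (j : Fin (n + 1)) (hj : (q : ℤ) ∣ v j) :
    (matZ (bj j b)).map (Int.cast : ℤ → ZMod q) *ᵥ (fun i => ((v (j.succAbove i) : ℤ) : ZMod q)) = 0 := by
  have hj0 : ((v j : ℤ) : ZMod q) = 0 := (ZMod.intCast_zmod_eq_zero_iff_dvd _ q).2 hj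
  funext i
  have h1 := congrArg (Int.cast : ℤ → ZMod q) (congrFun hv (j.succAbove i))
  rw [mulVec, dotProduct, Fin.sum_univ_succAbove _ j] at h1
  push_cast at h1
  rw [hj0, mul_zero, zero_add] at h1
  rw [matZ_bj, mulVec, dotProduct]
  simpa using h1

/-- transfer of the killed event to the minor -/
theorem kill_tr {n : ℕ} {ζ : ℝ} (hζ : 0 < ζ) (hζ1 : ζ < 1 / 16) (hn : 1 ≤ n) (b : Bits (n + 1))
    (v a : Fin (n + 1) → ℤ) (ha : ∑ i, a i * v i = 1) (hv : matZ b *ᵥ v = 0)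
    (hsp : ¬ ∃ p : ℕ, p.Prime ∧ ∃ u : Fin (n + 1) → ZMod p, u ≠ 0 ∧
      ((univ.filter fun i => u i ≠ 0).card : ℝ) ≤ ((n + 1 : ℕ) : ℝ) ^ (1 - ζ / 2) ∧
      (matZ b).map (Int.cast : ℤ → ZMod p) *ᵥ u = 0)
    (j : Fin (n + 1)) (p : ℕ) (hp : p.Prime) (hpq : p ∣ qp ζ n p) (hj : ((qp ζ n p : ℕ) : ℤ) ∣ v j)
    (z : ℕ) (hz : z + 1 ≤ (univ.filter fun i => ((qp ζ n p : ℕ) : ℤ) ∣ v i).card) :
    Kill ζ (matZ (bj j b)) z := by
  classical
  have : Fact p.Prime := ⟨hp⟩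
  have hjp : (p : ℤ) ∣ v j := (Int.natCast_dvd_natCast.2 hpq).trans hj
  refine Or.inr ⟨p, hp, fun i => ((v (j.succAbove i) : ℤ) : ZMod (qp ζ n p)), ?_,
    ker_minor b v hv _ j hj, ?_⟩
  · have h0 : (fun i => ((v i : ℤ) : ZMod p)) ≠ 0 := by
      intro h
      have h1 := congrArg (Int.cast : ℤ → ZMod p) ha
      push_cast at h1
      have h2 : ∀ i, ((v i : ℤ) : ZMod p) = 0 := fun i => congrFun h i
      simp only [h2, mul_zero, sum_const_zero] at h1
      exact zero_ne_one h1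
    have h3 : ((n + 1 : ℕ) : ℝ) ^ (1 - ζ / 2) <
        ((univ.filter fun i => ((v i : ℤ) : ZMod p) ≠ 0).card : ℝ) := by
      by_contra hcon
      exact hsp ⟨p, hp, _, h0, not_lt.1 hcon, ker_mod b v hv p⟩
    have h4 : (n : ℝ) ^ (1 - ζ) ≤ ((n + 1 : ℕ) : ℝ) ^ (1 - ζ / 2) := by
      have hn1 : (1 : ℝ) ≤ n := by exact_mod_cast hn
      calc (n : ℝ) ^ (1 - ζ) ≤ (n : ℝ) ^ (1 - ζ / 2) :=
            Real.rpow_le_rpow_of_exponent_le hn1 (by linarith)
        _ ≤ ((n + 1 : ℕ) : ℝ) ^ (1 - ζ / 2) := by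
            apply Real.rpow_le_rpow (by positivity) _ (by linarith)
            push_cast; linarith
    have h5 : (univ.filter fun i => ((v i : ℤ) : ZMod p) ≠ 0).card ≤
        Nat.card {i : Fin n // IsUnit ((v (j.succAbove i) : ℤ) : ZMod (qp ζ n p))} := by
      rw [← card_succAbove' (fun i => ((v i : ℤ) : ZMod p) ≠ 0) j
        (by rw [not_not]; exact (ZMod.intCast_zmod_eq_zero_iff_dvd _ p).2 hjp),
        Nat.card_eq_fintype_card, Fintype.card_subtype]
      apply card_le_card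
      intro i hi
      rw [mem_filter] at hi ⊢
      refine ⟨mem_univ _, ?_⟩
      rw [ZMod.coe_int_isUnit_iff_isCoprime]
      unfold qp
      push_cast
      apply IsCoprime.pow_left
      rw [Prime.coprime_iff_not_dvd (Nat.prime_iff_prime_int.1 hp)]
      intro hd
      exact hi.2 ((ZMod.intCast_zmod_eq_zero_iff_dvd _ p).2 hd)
    calc (n : ℝ) ^ (1 - ζ) ≤ _ := h4
      _ ≤ _ := h3.le
      _ ≤ _ := by exact_mod_cast h5
  · have h6 := card_succAbove (fun i => ((qp ζ n p : ℕ) : ℤ) ∣ v i) j hj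
    rw [Nat.card_eq_fintype_card, Fintype.card_subtype]
    have h7 : (univ.filter fun i : Fin n => ((qp ζ n p : ℕ) : ℤ) ∣ v (j.succAbove i)) =
        univ.filter fun i : Fin n => ((v (j.succAbove i) : ℤ) : ZMod (qp ζ n p)) = 0 := by
      ext i
      rw [mem_filter, mem_filter, ZMod.intCast_zmod_eq_zero_iff_dvd]
    rw [← h7]
    omega

theorem dvd_qp {ζ : ℝ} (hζ1 : ζ < 1 / 16) {n : ℕ} (hn : 2 ≤ n) {p : ℕ} (hp : p.Prime) :
    p ∣ qp ζ n p := by
  unfold qp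
  apply dvd_pow_self
  have h1 : (1 : ℝ) < (n : ℝ) ^ (1 / 2 - ζ) :=
    Real.one_lt_rpow (by exact_mod_cast (by omega : 1 < n)) (by linarith)
  have h2 : 1 < ⌈(n : ℝ) ^ (1 / 2 - ζ)⌉₊ := by
    rw [Nat.lt_ceil]; exact_mod_cast h1
  exact (Nat.clog_pos hp.one_lt h2).ne'

/-- logarithmic size of `c` against the large primes -/
theorem log_size {n : ℕ} (hn : 2 ≤ n) {β : ℝ} (hβ : 1 ≤ β) (b : Bits n) (c e : ℤ)
    (h : (matZ b).det = c * e ^ 2) (hc : c ≠ 0) (he : e ≠ 0) (T : Finset ℕ)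
    (hT : T ⊆ e.natAbs.primeFactors) (hx : ∀ p ∈ T, (n : ℝ) ^ β ≤ (p : ℝ)) :
    0 ≤ Real.logb 2 |(c : ℝ)| ∧
    Real.logb 2 |(c : ℝ)| ≤ n * ((1 / 2 - 2 * β * T.card / n) * Real.logb 2 n) ∧ T.card ≤ n := by
  have hn0 : (0 : ℝ) < n := by exact_mod_cast (by omega : 0 < n)
  have hn1 : (1 : ℝ) < n := by exact_mod_cast (by omega : 1 < n)
  have hlog : 0 < Real.logb 2 n := Real.logb_pos (by norm_num) hn1
  have hc1 : (1 : ℝ) ≤ |(c : ℝ)| := by exact_mod_cast Int.one_le_abs hc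
  have he1 : (1 : ℝ) ≤ |(e : ℝ)| := by exact_mod_cast Int.one_le_abs he
  have hL : 0 ≤ Real.logb 2 |(c : ℝ)| := Real.logb_nonneg (by norm_num) hc1
  have h1 := log_det b c e h hc he
  have h2 := prod_le_e e he T hT ((n : ℝ) ^ β) (by positivity) hx
  have h3 := Real.logb_le_logb_of_le (b := 2) (by norm_num) (by positivity) h2
  rw [Real.logb_pow, Real.logb_rpow_eq_mul_logb_of_pos hn0] at h3
  have h4 : Real.logb 2 |(c : ℝ)| ≤ n / 2 * Real.logb 2 n - 2 * (T.card * (β * Real.logb 2 n)) := by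
    linarith
  refine ⟨hL, ?_, ?_⟩
  · refine h4.trans (le_of_eq ?_)
    field_simp
  · have h5 : (2 * (T.card : ℝ) * β) * Real.logb 2 n ≤ (n / 2) * Real.logb 2 n := by nlinarith
    have h6 := le_of_mul_le_mul_right h5 hlog
    have h7 : (T.card : ℝ) * 1 ≤ T.card * β := mul_le_mul_of_nonneg_left hβ (by positivity)
    have h8 : (T.card : ℝ) ≤ n := by linarith
    exact_mod_cast h8

theorem lcost_eq {ζ : ℝ} (hζ1 : ζ < 1 / 16) {n : ℕ} (hn : 2 ≤ n) (v : Fin (n + 1) → ℤ) (c : ℤ)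
    (j : Fin (n + 1)) (hvj : v j ≠ 0) :
    lcost ζ n (v j) c = ∑ p ∈ c.natAbs.primeFactors with
      j ∈ univ.filter (fun i => ((qp ζ n p : ℕ) : ℤ) ∣ v i),
      (c.natAbs.factorization p : ℝ) * Real.logb 2 p := by
  unfold lcost
  symm
  apply sum_subset
  · intro p hp
    rw [mem_filter, mem_filter] at hp
    rw [mem_filter]
    have hpp := Nat.prime_of_mem_primeFactors hp.1
    have hd : (p : ℤ) ∣ v j := (Int.natCast_dvd_natCast.2 (dvd_qp hζ1 hn hpp)).trans hp.2.2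
    exact ⟨Nat.mem_primeFactors.2 ⟨hpp, Int.natCast_dvd.1 hd, Int.natAbs_ne_zero.2 hvj⟩, hp.2.2⟩
  · intro p hp hp2
    rw [mem_filter] at hp
    have h1 : p ∉ c.natAbs.primeFactors := by
      intro h
      exact hp2 (mem_filter.2 ⟨h, mem_filter.2 ⟨mem_univ _, hp.2⟩⟩)
    have h2 : c.natAbs.factorization p = 0 := by
      rw [← Finsupp.notMem_support_iff, Nat.support_factorization]
      exact h1
    rw [h2]; simp

theorem sel : SelStmt := by
  classical
  intro ζ β δ A hζ hζ1 hβ hδ hδ1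
  refine ⟨2, fun n hn b hr hsp htame hmid => ?_⟩
  obtain ⟨v, c, a, ha, hc, hv, -, hdet⟩ := Adj.adj_struct (matZ b) (fun i j => matZ_symm b i j) hr
  have hn0 : (0 : ℝ) < n := by exact_mod_cast (by omega : 0 < n)
  have hn2 : (2 : ℝ) ≤ n := by exact_mod_cast hn
  -- the maximal coordinate
  obtain ⟨i0, -, hi0⟩ := Finset.exists_max_image (univ : Finset (Fin (n + 1)))
    (fun i => |(v i : ℝ)|) univ_nonempty
  have hpos : 0 < |(v i0 : ℝ)| := by
    by_contra hcon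
    have h1 : ∀ i, v i = 0 := by
      intro i
      have h2 := (hi0 i (mem_univ i)).trans (not_lt.1 hcon)
      have h3 : (v i : ℝ) = 0 := abs_eq_zero.1 (le_antisymm h2 (abs_nonneg _))
      exact_mod_cast h3
    simp [h1] at ha
  -- bad sets
  set B1 : Finset (Fin (n + 1)) := univ.filter fun j =>
    |(v j : ℝ)| * ((n + 1 : ℕ) : ℝ) ^ A < |(v i0 : ℝ)| with hB1def
  have hB1 : (B1.card : ℝ) < δ / 8 * ((n + 1 : ℕ) : ℝ) := by
    by_contra hcon
    refine htame ⟨fun i => (v i : ℝ), i0, ?_, not_lt.1 hcon⟩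
    intro k
    have h1 : ((∑ j, matZ b k j * v j : ℤ) : ℝ) = 0 := by
      have h2 : ∑ j, matZ b k j * v j = 0 := congrFun hv k
      rw [h2]; simp
    refine Eq.trans ?_ h1
    rw [Int.cast_sum]
    refine sum_congr rfl fun j _ => ?_
    simp only [matZ]
    split_ifs <;> simp
  set B2 : Finset (Fin (n + 1)) := univ.filter fun j =>
    v j ≠ 0 ∧ δ * n < ((midSet β (matZ b) v j).card : ℝ) with hB2def
  have hB2 : (B2.card : ℝ) < δ / 8 * n := by
    by_contra hcon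
    exact hmid ⟨v, ⟨hv, a, ha⟩, not_lt.1 hcon⟩
  set G : Finset (Fin (n + 1)) := univ.filter fun j => j ∉ B1 ∧ j ∉ B2 with hGdef
  have hGcard : (n + 1 : ℝ) ≤ G.card + B1.card + B2.card := by
    have h1 : (univ : Finset (Fin (n + 1))) ⊆ (G ∪ B1) ∪ B2 := by
      intro j _
      by_cases h1 : j ∈ B1
      · exact mem_union_left _ (mem_union_right _ h1)
      by_cases h2 : j ∈ B2
      · exact mem_union_right _ h2
      · exact mem_union_left _ (mem_union_left _ (mem_filter.2 ⟨mem_univ _, h1, h2⟩))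
    have h2 := card_le_card h1
    rw [card_univ, Fintype.card_fin] at h2
    have h3 := (h2.trans (card_union_le _ _)).trans (Nat.add_le_add_right (card_union_le _ _) _)
    exact_mod_cast h3
  push_cast at hB1
  have hG1 : (1 - δ / 4) * (n + 1) ≤ (G.card : ℝ) := by nlinarith
  have hGpos : 0 < (G.card : ℝ) := by nlinarith
  have hGne : G.Nonempty := card_pos.1 (by exact_mod_cast hGpos)
  have hGn : (n : ℝ) ≤ (1 + δ) * G.card := by
    have h1 : (1 + δ) * ((1 - δ / 4) * (n + 1)) ≤ (1 + δ) * G.card :=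
      mul_le_mul_of_nonneg_left hG1 (by linarith)
    have h2 : (1 : ℝ) ≤ (1 + δ) * (1 - δ / 4) := by nlinarith
    nlinarith
  -- selection
  obtain ⟨j, hjG, hsel⟩ := Sel150.select G hGne c.natAbs.primeFactors
    (fun p => univ.filter fun i => ((qp ζ n p : ℕ) : ℤ) ∣ v i)
    (fun p => (c.natAbs.factorization p : ℝ) * Real.logb 2 p)
    (fun p hp => mul_nonneg (by positivity) (Real.logb_nonneg (by norm_num)
      (by exact_mod_cast (Nat.prime_of_mem_primeFactors hp).one_lt.le))) (le_of_eq (log_c c hc))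
  obtain ⟨hj1, hj2⟩ := (mem_filter.1 hjG).2
  have hj1' : |(v i0 : ℝ)| ≤ |(v j : ℝ)| * ((n + 1 : ℕ) : ℝ) ^ A := by
    by_contra hcon
    exact hj1 (mem_filter.2 ⟨mem_univ _, not_le.1 hcon⟩)
  have hvj : v j ≠ 0 := by
    intro h
    rw [h] at hj1'
    simp only [Int.cast_zero, abs_zero, zero_mul] at hj1'
    linarith
  have hmidj : ((midSet β (matZ b) v j).card : ℝ) ≤ δ * n := by
    by_contra hcon
    exact hj2 (mem_filter.2 ⟨mem_univ _, hvj, not_le.1 hcon⟩)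
  rw [← lcost_eq hζ1 hn v c j hvj] at hsel
  -- kill and cost
  have hkey : ∃ z : ℕ, Kill ζ (matZ (bj j b)) z ∧ z ≤ n ∧
      lcost ζ n (v j) c * (G.card : ℝ) ≤ Real.logb 2 |(c : ℝ)| * ((z : ℝ) + 1) := by
    rcases hsel with h | ⟨p, hp, hjp, -, -, h⟩
    · refine ⟨0, Or.inl rfl, Nat.zero_le _, ?_⟩
      rw [h, zero_mul]
      have hc1 : (1 : ℝ) ≤ |(c : ℝ)| := by exact_mod_cast Int.one_le_abs hc
      have := Real.logb_nonneg (b := 2) (by norm_num) hc1
      positivity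
    · have hpp := Nat.prime_of_mem_primeFactors hp
      have hK : 1 ≤ (univ.filter fun i => ((qp ζ n p : ℕ) : ℤ) ∣ v i).card := card_pos.2 ⟨j, hjp⟩
      have hK2 : (univ.filter fun i => ((qp ζ n p : ℕ) : ℤ) ∣ v i).card ≤ n + 1 := by
        refine (card_le_univ _).trans ?_
        rw [Fintype.card_fin]
      refine ⟨(univ.filter fun i => ((qp ζ n p : ℕ) : ℤ) ∣ v i).card - 1,
        kill_tr hζ hζ1 (by omega) b v a ha hv hsp j p hpp (dvd_qp hζ1 hn hpp)
          (mem_filter.1 hjp).2 _ (by omega), by omega, ?_⟩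
      have h2 : (((univ.filter fun i => ((qp ζ n p : ℕ) : ℤ) ∣ v i).card - 1 : ℕ) : ℝ) + 1 =
          ((univ.filter fun i => ((qp ζ n p : ℕ) : ℤ) ∣ v i).card : ℝ) := by
        rw [Nat.cast_sub hK]; push_cast; ring
      rw [h2]
      exact h
  obtain ⟨z, hkill, hzn, hcost⟩ := hkey
  -- large primes
  set T : Finset ℕ := (v j).natAbs.primeFactors.filter fun p : ℕ =>
    (n : ℝ) ^ β ≤ p ∧ 2 ≤ crk (matZ (bj j b)) p with hTdef
  have hdetj : (matZ (bj j b)).det = c * v j ^ 2 := by rw [matZ_bj]; exact hdet j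
  have hdet0 : (matZ (bj j b)).det ≠ 0 := by
    rw [hdetj]; exact mul_ne_zero hc (pow_ne_zero _ hvj)
  obtain ⟨hL0, hL1, hTn⟩ := log_size hn hβ (bj j b) c (v j) hdetj hc hvj T (filter_subset _ _)
    (fun p hp => (mem_filter.1 hp).2.1)
  refine ⟨j, z, T.card, hdet0, hkill, ?_, hTn, hzn, fun i => v (j.succAbove i), v j, c,
    col_of b v c a ha hv j (hdet j), ?_, ?_, ?_⟩
  · -- t ≤ N2
    unfold N2
    apply card_le_card
    intro p hp
    rw [mem_filter] at hp ⊢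
    refine ⟨?_, hp.2⟩
    refine Nat.primeFactors_mono ?_ (Int.natAbs_ne_zero.2 hdet0) hp.1
    rw [Int.natAbs_dvd_natAbs, hdetj]
    exact Dvd.intro_left (c * v j) (by ring)
  · -- tame
    intro i
    have h1 := hi0 (j.succAbove i) (mem_univ _)
    have h2 : ((n + 1 : ℕ) : ℝ) ^ A ≤ (n : ℝ) ^ (2 * |A| + 1) := by
      have hn1 : (1 : ℝ) ≤ n := by linarith
      calc ((n + 1 : ℕ) : ℝ) ^ A ≤ ((n + 1 : ℕ) : ℝ) ^ |A| :=
            Real.rpow_le_rpow_of_exponent_le (by push_cast; linarith) (le_abs_self A)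
        _ ≤ ((n : ℝ) ^ (2 : ℝ)) ^ |A| := by
            apply Real.rpow_le_rpow (by positivity) _ (abs_nonneg A)
            rw [Real.rpow_two]
            push_cast
            nlinarith
        _ = (n : ℝ) ^ (2 * |A|) := by rw [← Real.rpow_mul hn0.le]
        _ ≤ _ := Real.rpow_le_rpow_of_exponent_le hn1 (by linarith)
    calc |((v (j.succAbove i) : ℤ) : ℝ)| ≤ |(v i0 : ℝ)| := h1
      _ ≤ |(v j : ℝ)| * ((n + 1 : ℕ) : ℝ) ^ A := hj1'
      _ ≤ |(v j : ℝ)| * (n : ℝ) ^ (2 * |A| + 1) := mul_le_mul_of_nonneg_left h2 (abs_nonneg _)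
      _ = _ := mul_comm _ _
  · -- bigSet
    have h1 : bigSet (matZ (bj j b)) (v j) ⊆ T ∪ midSet β (matZ b) v j := by
      intro p hp
      unfold bigSet at hp
      rw [mem_filter] at hp
      rcases le_or_gt ((n : ℝ) ^ β) p with h | h
      · exact mem_union_left _ (mem_filter.2 ⟨hp.1, h, hp.2.2⟩)
      · refine mem_union_right _ ?_
        unfold midSet
        exact mem_filter.2 ⟨hp.1, hp.2.1, h, hp.2.2⟩
    have h2 : ((bigSet (matZ (bj j b)) (v j)).card : ℝ) ≤ T.card + (midSet β (matZ b) v j).card := by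
      exact_mod_cast (card_le_card h1).trans (card_union_le _ _)
    linarith
  · -- cost
    have hQ0 : 0 ≤ (1 / 2 - 2 * β * T.card / n) * Real.logb 2 n := by
      have h1 := hL0.trans hL1
      exact nonneg_of_mul_nonneg_right h1 hn0
    have h1 : lcost ζ n (v j) c * (G.card : ℝ) ≤
        ((1 + δ) * ((z : ℝ) + 1) * (1 / 2 - 2 * β * T.card / n) * Real.logb 2 n) * G.card := by
      set Q := (1 / 2 - 2 * β * T.card / n) * Real.logb 2 n with hQ
      have hz0 : (0 : ℝ) ≤ (z : ℝ) + 1 := by positivity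
      calc lcost ζ n (v j) c * (G.card : ℝ) ≤ Real.logb 2 |(c : ℝ)| * ((z : ℝ) + 1) := hcost
        _ ≤ (n * Q) * ((z : ℝ) + 1) := mul_le_mul_of_nonneg_right hL1 hz0
        _ ≤ ((1 + δ) * G.card * Q) * ((z : ℝ) + 1) :=
            mul_le_mul_of_nonneg_right (mul_le_mul_of_nonneg_right hGn hQ0) hz0
        _ = _ := by rw [hQ]; ring
    exact le_of_mul_le_mul_right h1 hGpos

end Vale.Agent.P160.Half.F.Sel255
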