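import Vale.Agent.P160.Half.Fin.FMain801
import Vale.Agent.P160.Half.Fin.Sel255

/-! # P160, rate 1/2: the assembly `FinalStmt` (helper801, helper255) -/

namespace Vale.Agent.P160.Half.F.FM801

/-- **the assembly** -/
theorem final : FinalStmt := final_of_sel Sel255.sel

end Vale.Agent.P160.Half.F.FM801
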