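import Vale.Agent.P160.Half.Fin.FStmt
import Vale.Agent.P160.Half.Had797

/-! # P160, rate 1/2: (M) with the deterministic loss `lam = 1 / (4 β)` from the killed lemma (helper573)

`N2_le`: Hadamard, `N2 β P ≤ n / (4 β)` for a nonsingular 0/1 matrix. `M14.stmtM_of_kill : KillStmt ζ → StmtM (1 / (4 β)) β ζ`. -/

set_option linter.unusedVariables false

namespace Vale.Agent.P160.Half.F

open Finset Matrix Vale.Agent.P160.Half Vale.Agent.P160.Half.A

open Classical in
/-- **KILL** (11281 (6)): the killed event of a nonsingular matrix costs `n^(-(1/2-ζ))` per zero. -/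
def KillStmt (ζ : ℝ) : Prop := ∀ ε : ℝ, 0 < ε → ∃ n₀ : ℕ, ∀ n ≥ n₀, ∀ z : ℕ, (z : ℝ) * Real.logb 2 n ≤ 4 * n →
  (((univ : Finset (Bits n)).filter fun b => (matZ b).det ≠ 0 ∧ Kill ζ (matZ b) z).card : ℝ) ≤
    (2 : ℝ) ^ (-((1 / 2 - ζ) * z * Real.logb 2 n) + ε * n) * 2 ^ Fintype.card (Sym2 (Fin n))

namespace M14

theorem matZ_abs_le {n : ℕ} (b : Bits n) (i j : Fin n) : |((matZ b i j : ℤ) : ℝ)| ≤ 1 := by
  unfold matZ
  split_ifs <;> simp

/-- Hadamard: at most `n / (4 β)` primes `p ≥ n ^ β` with corank at least two -/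
theorem N2_le {n : ℕ} (hn : 2 ≤ n) {β : ℝ} (hβ : 0 < β) (b : Bits n) (hdet : (matZ b).det ≠ 0) :
    (N2 β (matZ b) : ℝ) ≤ n / (4 * β) := by
  classical
  have hn1 : (1 : ℝ) < n := by exact_mod_cast (show 1 < n by omega)
  have hn0 : (0 : ℝ) < n := by linarith
  -- rational rank
  have hrk : ((matZ b).map (Int.cast : ℤ → ℚ)).rank = n := by
    have h1 : ((matZ b).map (Int.cast : ℤ → ℚ)).det ≠ 0 := by
      have h2 : ((matZ b).map (Int.cast : ℤ → ℚ)).det = (((matZ b).det : ℤ) : ℚ) := by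
        have := (Int.castRingHom ℚ).map_det (matZ b)
        simpa using this.symm
      rw [h2]
      exact_mod_cast hdet
    have h3 := Matrix.rank_of_isUnit _ ((Matrix.isUnit_iff_isUnit_det _).2 (isUnit_iff_ne_zero.2 h1))
    rw [h3, Fintype.card_fin]
  set S := (matZ b).det.natAbs.primeFactors.filter fun p : ℕ => (n : ℝ) ^ β ≤ p ∧ 2 ≤ crk (matZ b) p with hS
  have hN : N2 β (matZ b) = S.card := rfl
  have key := Had797.prod_le (matZ b) 1 zero_le_one (fun i j => matZ_abs_le b i j) S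
    (fun p hp => Nat.prime_of_mem_primeFactors (mem_filter.1 hp).1) (fun _ => 2) (fun p hp => by
      have h1 := (mem_filter.1 hp).2.2
      have h2 : ((matZ b).map (Int.castRingHom (ZMod p))).rank = ((matZ b).map (Int.cast : ℤ → ZMod p)).rank := rfl
      rw [hrk, h2]
      unfold crk at h1
      omega)
  rw [hrk, one_mul] at key
  have h2 : ((n : ℝ) ^ β) ^ (2 * S.card) ≤ Real.sqrt n ^ n := by
    refine le_trans ?_ key
    have h3 : ((n : ℝ) ^ β) ^ (2 * S.card) = ∏ p ∈ S, ((n : ℝ) ^ β) ^ 2 := by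
      rw [prod_const, ← pow_mul]
    rw [h3]
    refine prod_le_prod (fun p _ => by positivity) fun p hp => ?_
    exact pow_le_pow_left₀ (by positivity) (mem_filter.1 hp).2.1 2
  have h4 : Real.sqrt n ^ n = (n : ℝ) ^ ((n : ℝ) / 2) := by
    rw [Real.sqrt_eq_rpow, ← Real.rpow_natCast, ← Real.rpow_mul hn0.le]
    congr 1
    ring
  have h5 : ((n : ℝ) ^ β) ^ (2 * S.card) = (n : ℝ) ^ (β * (2 * S.card)) := by
    rw [← Real.rpow_natCast, ← Real.rpow_mul hn0.le]
    push_cast
    rfl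
  rw [h4, h5] at h2
  have h6 := (Real.rpow_le_rpow_left_iff hn1).1 h2
  rw [hN, le_div_iff₀ (by positivity)]
  nlinarith

/-- **(M) with the loss `1 / (4 β)`** -/
theorem stmtM_of_kill {ζ β : ℝ} (hβ : 0 < β) (h : KillStmt ζ) : StmtM (1 / (4 * β)) β ζ := by
  classical
  intro ε hε
  obtain ⟨n₀, hn₀⟩ := h ε hε
  refine ⟨max n₀ 2, fun n hn z t hz => ?_⟩
  have hn2 : 2 ≤ n := le_trans (le_max_right _ _) hn
  have hnn : (0 : ℝ) ≤ n := Nat.cast_nonneg n
  have hL : 0 ≤ Real.logb 2 n := Real.logb_nonneg (by norm_num) (by exact_mod_cast (show 1 ≤ n by omega))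
  rcases le_or_gt (t : ℝ) (n / (4 * β)) with ht | ht
  · refine le_trans ?_ ((hn₀ n (le_trans (le_max_left _ _) hn) z hz).trans ?_)
    · exact_mod_cast card_le_card fun b hb => by
        rw [mem_filter] at hb ⊢
        exact ⟨hb.1, hb.2.1, hb.2.2.1⟩
    · refine mul_le_mul_of_nonneg_right ?_ (by positivity)
      refine Real.rpow_le_rpow_of_exponent_le (by norm_num) ?_
      have h1 : max 0 (1 - 2 * β * (z * Real.logb 2 n / n)) ≤ 1 := by
        refine max_le zero_le_one ?_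
        have : 0 ≤ 2 * β * (z * Real.logb 2 n / n) := by positivity
        linarith
      have h2 : (t : ℝ) * max 0 (1 - 2 * β * (z * Real.logb 2 n / n)) ≤ n / (4 * β) := by
        calc (t : ℝ) * max 0 (1 - 2 * β * (z * Real.logb 2 n / n)) ≤ t * 1 :=
              mul_le_mul_of_nonneg_left h1 (Nat.cast_nonneg t)
          _ ≤ _ := by rw [mul_one]; exact ht
      have h3 : (1 / (4 * β) + ε) * n = n / (4 * β) + ε * n := by ring
      rw [h3]
      linarith
  · have h0 : ((univ : Finset (Bits n)).filter fun b => (matZ b).det ≠ 0 ∧ Kill ζ (matZ b) z ∧ t ≤ N2 β (matZ b)) = ∅ := by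
      rw [filter_eq_empty_iff]
      rintro b - ⟨h1, -, h2⟩
      have h3 := N2_le hn2 hβ b h1
      have h4 : (t : ℝ) ≤ N2 β (matZ b) := by exact_mod_cast h2
      linarith
    rw [h0, card_empty, Nat.cast_zero]
    positivity

end M14

end Vale.Agent.P160.Half.F
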