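import Vale.Agent.P160.Half.Kill456
import Vale.Agent.P160.Half.Rows2
import Vale.Agent.P160.Half.Fin.M14_573

/-! # P160, final assembly: the killed lemma in asymptotic form, `KillStmt ζ` (helper456) -/

set_option linter.unusedSectionVars false
set_option linter.unusedVariables false

open Finset Matrix

namespace Vale.Agent.P160.Half.F.K456

open Vale.Agent.P160.Half Vale.Agent.P160.Half.A Vale.Agent.P160.Half.G Vale.Agent.P160.Half.G.Kill

/-- binomial coefficients -/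
lemma choose_le (n z : ℕ) {θ : ℝ} (hθ : 0 < θ) :
    (n.choose z : ℝ) ≤ Real.exp (θ * n + z * Real.log (1 / θ)) := by
  have h1 : (n.choose z : ℝ) * θ ^ z ≤ Real.exp (θ * n) := by
    by_cases hz : z ≤ n
    · have h2 : θ ^ z * 1 ^ (n - z) * (n.choose z : ℝ) ≤ (θ + 1) ^ n := by
        rw [add_pow]
        refine Finset.single_le_sum (f := fun m => θ ^ m * 1 ^ (n - m) * (n.choose m : ℝ))
          (fun i _ => by positivity) (mem_range.2 (by omega))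
      have h3 : (θ + 1) ^ n ≤ Real.exp (θ * n) := by
        rw [mul_comm, Real.exp_nat_mul]
        exact pow_le_pow_left₀ (by positivity) (Real.add_one_le_exp θ) n
      rw [one_pow, mul_one] at h2
      calc (n.choose z : ℝ) * θ ^ z = θ ^ z * (n.choose z : ℝ) := mul_comm _ _
        _ ≤ _ := h2.trans h3
    · rw [Nat.choose_eq_zero_of_lt (not_le.1 hz), Nat.cast_zero, zero_mul]
      exact (Real.exp_pos _).le
  have h4 : (0 : ℝ) < θ ^ z := by positivity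
  have h5 : Real.exp (z * Real.log (1 / θ)) = (θ ^ z)⁻¹ := by
    rw [one_div, Real.log_inv, mul_neg, Real.exp_neg, Real.exp_nat_mul, Real.exp_log hθ]
  rw [Real.exp_add, h5, ← div_eq_mul_inv, le_div_iff₀ h4]
  exact h1

/-- power of the atom bound -/
lemma qpow {N a l q : ℝ} {z r : ℕ} (hN0 : 0 < N) (hl : l = Real.log N) (g1 : (5 / 2 : ℝ) ≤ N ^ a)
    (hq0 : 0 ≤ q) (hqQ : q ≤ 5 / 2 * N ^ (-a)) :
    q ^ (z - r) ≤ Real.exp (z * (Real.log (5 / 2) - a * l) + r * (a * l)) := by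
  set Q : ℝ := 5 / 2 * N ^ (-a) with hQ
  have hNa : 0 < N ^ a := Real.rpow_pos_of_pos hN0 _
  have hQ0 : 0 < Q := by rw [hQ]; positivity
  have hQ1 : Q ≤ 1 := by
    rw [hQ, Real.rpow_neg hN0.le, ← div_eq_mul_inv, div_le_one hNa]
    exact g1
  have h1 : q ^ (z - r) ≤ Q ^ (z - r) := pow_le_pow_left₀ hq0 hqQ _
  have h2 : Q ^ (z - r) * Q ^ r ≤ Q ^ z := by
    rw [← pow_add]
    exact pow_le_pow_of_le_one hQ0.le hQ1 (by omega)
  have hlQ : Real.log Q = Real.log (5 / 2) - a * l := by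
    rw [hQ, Real.log_mul (by norm_num) (by positivity), Real.log_rpow hN0, hl]
    ring
  have h3 : Q ^ z = Real.exp (z * (Real.log (5 / 2) - a * l)) := by
    rw [← hlQ, Real.exp_nat_mul, Real.exp_log hQ0]
  have h4 : Real.exp (-(r * (a * l))) ≤ Q ^ r := by
    have h5 : Q ^ r = Real.exp (r * (Real.log (5 / 2) - a * l)) := by
      rw [← hlQ, Real.exp_nat_mul, Real.exp_log hQ0]
    rw [h5]
    refine Real.exp_le_exp.2 ?_
    have h6 : 0 ≤ Real.log (5 / 2) := Real.log_nonneg (by norm_num)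
    have h7 : (0 : ℝ) ≤ r := Nat.cast_nonneg _
    have h8 := mul_nonneg h7 h6
    rw [mul_sub]
    linarith
  have h8 : Q ^ (z - r) * Real.exp (-(r * (a * l))) ≤ Real.exp (z * (Real.log (5 / 2) - a * l)) := by
    rw [← h3]
    exact (mul_le_mul_of_nonneg_left h4 (by positivity)).trans h2
  refine h1.trans ?_
  rw [Real.exp_add]
  have h9 : Q ^ (z - r) = Q ^ (z - r) * Real.exp (-(r * (a * l))) * Real.exp (r * (a * l)) := by
    rw [mul_assoc, ← Real.exp_add, neg_add_cancel, Real.exp_zero, mul_one]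
  rw [h9]
  exact mul_le_mul_of_nonneg_right h8 (Real.exp_pos _).le

/-- the atom bound -/
lemma atomQ {N a ζ q : ℝ} {y D : ℕ} (hN1 : 1 ≤ N) (ha : a = 1 / 2 - ζ) (hζ : 0 < ζ) (hya : N ^ a ≤ y)
    (hD : N ^ (1 - ζ) ≤ (D : ℝ) + 1) (hq : q = 1 / (y : ℝ) + 3 / 2 / Real.sqrt (D + 1)) :
    q ≤ 5 / 2 * N ^ (-a) := by
  have hN0 : 0 < N := by linarith
  have hNa : 0 < N ^ a := Real.rpow_pos_of_pos hN0 _
  have h1 : 1 / (y : ℝ) ≤ N ^ (-a) := by
    rw [Real.rpow_neg hN0.le, one_div]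
    exact inv_anti₀ hNa hya
  have h2 : N ^ a ≤ Real.sqrt (D + 1) := by
    refine Real.le_sqrt_of_sq_le ?_
    rw [← Real.rpow_natCast, ← Real.rpow_mul hN0.le]
    refine le_trans ?_ hD
    refine Real.rpow_le_rpow_of_exponent_le hN1 ?_
    rw [ha]; push_cast; linarith
  have h3 : 3 / 2 / Real.sqrt (D + 1) ≤ 3 / 2 * N ^ (-a) := by
    rw [Real.rpow_neg hN0.le, div_eq_mul_inv]
    have := inv_anti₀ hNa h2
    linarith
  rw [hq]
  linarith

/-- the number of rows given away -/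
lemma rbd {n y k : ℕ} {N l : ℝ} (hN : N = n) (hl : l = Real.log N) (hl1 : 1 ≤ l) (hyn : y ≤ n)
    (hk : (k : ℝ) ≤ 7 * Real.sqrt N) :
    (((Nat.clog 2 y + 1) * k : ℕ) : ℝ) ≤ (2 * l + 2) * (7 * Real.sqrt N) := by
  have h1 : Nat.clog 2 y ≤ Nat.log 2 n + 1 := by
    refine Nat.clog_le_of_le_pow ?_
    exact hyn.trans (Nat.lt_pow_succ_log_self (by norm_num) n).le
  have h2 : (Nat.log 2 n : ℝ) ≤ 2 * l := by
    have h3 := Real.natLog_le_logb n 2
    have h4 : Real.logb ((2 : ℕ) : ℝ) (n : ℝ) = l / Real.log 2 := by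
      rw [Real.logb, Nat.cast_ofNat, hl, hN]
    rw [h4] at h3
    refine h3.trans ?_
    rw [div_le_iff₀ (Real.log_pos (by norm_num))]
    have h5 := Real.log_two_gt_d9
    have h6 : (0.6931471803 : ℝ) * l ≤ Real.log 2 * l := mul_le_mul_of_nonneg_right h5.le (by linarith)
    linarith
  have h5 : ((Nat.clog 2 y + 1 : ℕ) : ℝ) ≤ 2 * l + 2 := by
    have h6 : ((Nat.clog 2 y + 1 : ℕ) : ℝ) ≤ (Nat.log 2 n : ℝ) + 2 := by
      exact_mod_cast (by omega : Nat.clog 2 y + 1 ≤ Nat.log 2 n + 2)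
    linarith
  rw [Nat.cast_mul]
  exact mul_le_mul h5 hk (Nat.cast_nonneg _) (by linarith)

lemma s4 {N a l δ : ℝ} {r : ℕ} (hN0 : 0 < N) (ha0 : 0 < a) (ha1 : a ≤ 1 / 2) (hl1 : 1 ≤ l) (hδ0 : 0 < δ)
    (s3 : (r : ℝ) ≤ (2 * l + 2) * (7 * Real.sqrt N))
    (g4 : l ≤ Real.sqrt (δ / 28) * N ^ (1 / 4 : ℝ)) : (r : ℝ) * (a * l) ≤ δ * N := by
  have hs0 : 0 ≤ Real.sqrt N := Real.sqrt_nonneg _
  have hl0 : 0 ≤ l := by linarith
  have h1 : (r : ℝ) * (a * l) ≤ ((2 * l + 2) * (7 * Real.sqrt N)) * (1 / 2 * l) := by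
    have h2 : a * l ≤ 1 / 2 * l := mul_le_mul_of_nonneg_right ha1 hl0
    exact mul_le_mul s3 h2 (by positivity) (by positivity)
  have h3 : ((2 * l + 2) * (7 * Real.sqrt N)) * (1 / 2 * l) ≤ 14 * Real.sqrt N * l ^ 2 := by
    have h2 : 0 ≤ 7 * Real.sqrt N * l * (l - 1) := by
      have : 0 ≤ l - 1 := by linarith
      positivity
    have h4 : 14 * Real.sqrt N * l ^ 2 - ((2 * l + 2) * (7 * Real.sqrt N)) * (1 / 2 * l) =
      7 * Real.sqrt N * l * (l - 1) := by ring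
    linarith
  have h4 : l ^ 2 ≤ δ / 28 * Real.sqrt N := by
    have h5 : l ^ 2 ≤ (Real.sqrt (δ / 28) * N ^ (1 / 4 : ℝ)) ^ 2 :=
      pow_le_pow_left₀ hl0 g4 2
    rw [mul_pow, Real.sq_sqrt (by positivity), ← Real.rpow_natCast (N ^ (1 / 4 : ℝ)) 2, ← Real.rpow_mul hN0.le] at h5
    rw [Real.sqrt_eq_rpow]
    refine h5.trans (le_of_eq ?_)
    norm_num
  have h6 : Real.sqrt N * Real.sqrt N = N := Real.mul_self_sqrt hN0.le
  have h7 : 14 * Real.sqrt N * l ^ 2 ≤ 14 * Real.sqrt N * (δ / 28 * Real.sqrt N) :=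
    mul_le_mul_of_nonneg_left h4 (by positivity)
  have h8 : 14 * Real.sqrt N * (δ / 28 * Real.sqrt N) = δ / 2 * N := by
    calc 14 * Real.sqrt N * (δ / 28 * Real.sqrt N) = δ / 2 * (Real.sqrt N * Real.sqrt N) := by ring
      _ = _ := by rw [h6]
  have h9 : 0 < δ * N := by positivity
  linarith

lemma zl {n z : ℕ} {l c1 δ : ℝ} (hl : l = Real.log n) (hl1 : 1 ≤ l) (hc10 : 0 ≤ c1) (hδ0 : 0 < δ)
    (hl2 : 4 * c1 / δ ≤ l) (hz : (z : ℝ) * Real.logb 2 n ≤ 4 * n) : (z : ℝ) * c1 ≤ δ * n := by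
  have s1 : (z : ℝ) * l ≤ 4 * n := by
    have h1 : Real.logb 2 (n : ℝ) = l / Real.log 2 := by rw [hl]; rfl
    rw [h1] at hz
    have h2 : 0 < Real.log 2 := Real.log_pos (by norm_num)
    have h3 : Real.log 2 ≤ 1 := by
      have := Real.log_two_lt_d9
      linarith
    rw [← mul_div_assoc, div_le_iff₀ h2] at hz
    have h4 : (4 * (n : ℝ)) * Real.log 2 ≤ 4 * n * 1 := mul_le_mul_of_nonneg_left h3 (by positivity)
    linarith
  have h1 : 4 * c1 ≤ l * δ := (div_le_iff₀ hδ0).1 hl2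
  have h2 : (0 : ℝ) ≤ z := Nat.cast_nonneg _
  have h3 : (z : ℝ) * (4 * c1) ≤ z * (l * δ) := mul_le_mul_of_nonneg_left h1 h2
  have h4 : (z : ℝ) * (l * δ) ≤ 4 * n * δ := by
    have := mul_le_mul_of_nonneg_right s1 hδ0.le
    linarith
  linarith

lemma total {n z r y : ℕ} {N a l δ c1 ε q : ℝ} (hN : N = n) (hN3 : 3 ≤ N) (hl : l = Real.log N)
    (hδ0 : 0 < δ) (hc1 : c1 = |Real.log (1 / δ)| + Real.log 10) (hyn : y ≤ n)
    (p1 : q ^ (z - r) ≤ Real.exp (z * (Real.log (5 / 2) - a * l) + r * (a * l)))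
    (s2 : (z : ℝ) * c1 ≤ δ * N) (s4 : (r : ℝ) * (a * l) ≤ δ * N) (s5 : Real.log 2 + 2 * l ≤ δ / 2 * N)
    (hε : ε = 4 * δ) (hq0 : 0 ≤ q) :
    ((y : ℝ) + N ^ 2) * ((n.choose z : ℝ) * 4 ^ z) * q ^ (z - r) ≤
      Real.exp (-(a * z * l) + ε * N) := by
  have hN0 : 0 < N := by linarith
  have p2 : (n.choose z : ℝ) ≤ Real.exp (δ * N + z * Real.log (1 / δ)) := by
    rw [hN]; exact choose_le n z hδ0
  have p3 : (4 : ℝ) ^ z = Real.exp (z * Real.log 4) := by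
    rw [Real.exp_nat_mul, Real.exp_log (by norm_num)]
  have p4 : (y : ℝ) + N ^ 2 ≤ Real.exp (Real.log 2 + 2 * l) := by
    rw [Real.exp_add, Real.exp_log (by norm_num)]
    have h1 : Real.exp (2 * l) = N ^ 2 := by
      rw [hl, show (2 : ℝ) = ((2 : ℕ) : ℝ) by norm_num, Real.exp_nat_mul, Real.exp_log hN0]
    rw [h1]
    have h2 : (y : ℝ) ≤ N := by rw [hN]; exact_mod_cast hyn
    nlinarith
  have t1 : ((y : ℝ) + N ^ 2) * ((n.choose z : ℝ) * 4 ^ z) * q ^ (z - r) ≤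
      Real.exp (Real.log 2 + 2 * l) * (Real.exp (δ * N + z * Real.log (1 / δ)) * Real.exp (z * Real.log 4)) *
        Real.exp (z * (Real.log (5 / 2) - a * l) + r * (a * l)) := by
    rw [p3]
    have h1 : 0 ≤ (n.choose z : ℝ) * Real.exp (z * Real.log 4) := by positivity
    have h2 : (n.choose z : ℝ) * Real.exp (z * Real.log 4) ≤
      Real.exp (δ * N + z * Real.log (1 / δ)) * Real.exp (z * Real.log 4) :=
      mul_le_mul_of_nonneg_right p2 (Real.exp_pos _).le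
    exact mul_le_mul (mul_le_mul p4 h2 h1 (Real.exp_pos _).le) p1 (pow_nonneg hq0 _) (by positivity)
  refine t1.trans ?_
  rw [← Real.exp_add, ← Real.exp_add, ← Real.exp_add]
  refine Real.exp_le_exp.2 ?_
  have u1 : Real.log 4 + Real.log (5 / 2) = Real.log 10 := by
    rw [← Real.log_mul (by norm_num) (by norm_num)]
    norm_num
  have u2 : (z : ℝ) * Real.log (1 / δ) ≤ z * |Real.log (1 / δ)| :=
    mul_le_mul_of_nonneg_left (le_abs_self _) (Nat.cast_nonneg _)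
  have u3 : (z : ℝ) * c1 = z * |Real.log (1 / δ)| + (z * Real.log 4 + z * Real.log (5 / 2)) := by
    rw [hc1, ← u1]; ring
  have u4 : (z : ℝ) * (Real.log (5 / 2) - a * l) = z * Real.log (5 / 2) - a * z * l := by ring
  rw [hε, u4]
  have u5 : 0 < δ * N := by positivity
  linarith

/-- the numerical inequality -/
lemma numeric (ζ : ℝ) (hζ : 0 < ζ) (hζ2 : ζ < 1 / 2) (ε : ℝ) (hε : 0 < ε) :
    ∃ n₀ : ℕ, ∀ n ≥ n₀, 3 ≤ n ∧ 2 ≤ ⌈(n : ℝ) ^ (1 / 2 - ζ)⌉₊ ∧ ∀ (z k D : ℕ) (q : ℝ),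
      (z : ℝ) * Real.logb 2 n ≤ 4 * n → (k : ℝ) ≤ 7 * Real.sqrt n → (n : ℝ) ^ (1 - ζ) ≤ (D : ℝ) + 1 →
      q = 1 / (⌈(n : ℝ) ^ (1 / 2 - ζ)⌉₊ : ℝ) + 3 / 2 / Real.sqrt (D + 1) →
      q ≤ 1 ∧ (((⌈(n : ℝ) ^ (1 / 2 - ζ)⌉₊ : ℝ) + (n : ℝ) ^ 2) * ((n.choose z : ℝ) * 4 ^ z) *
        q ^ (z - (Nat.clog 2 ⌈(n : ℝ) ^ (1 / 2 - ζ)⌉₊ + 1) * k) ≤
        Real.exp (-((1 / 2 - ζ) * z * Real.log n) + ε * n)) := by
  set a : ℝ := 1 / 2 - ζ with ha
  have ha0 : 0 < a := by rw [ha]; linarith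
  have ha1 : a ≤ 1 / 2 := by rw [ha]; linarith
  set δ : ℝ := ε / 4 with hδ
  have hδ0 : 0 < δ := by rw [hδ]; linarith
  set c1 : ℝ := |Real.log (1 / δ)| + Real.log 10 with hc1
  have hc10 : 0 ≤ c1 := by
    rw [hc1]
    have : 0 ≤ Real.log 10 := Real.log_nonneg (by norm_num)
    positivity
  -- eventually conditions
  have e1 : ∀ᶠ n : ℕ in Filter.atTop, (5 / 2 : ℝ) ≤ (n : ℝ) ^ a :=
    ((tendsto_rpow_atTop ha0).comp tendsto_natCast_atTop_atTop).eventually_ge_atTop _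
  have e2 : ∀ᶠ n : ℕ in Filter.atTop, max 1 (4 * c1 / δ) ≤ Real.log n :=
    (Real.tendsto_log_atTop.comp tendsto_natCast_atTop_atTop).eventually_ge_atTop _
  have e3 : ∀ᶠ n : ℕ in Filter.atTop, Real.log n ≤ (δ / 8) * n := by
    have h := Real.isLittleO_log_id_atTop.bound (c := δ / 8) (by positivity)
    have h2 := tendsto_natCast_atTop_atTop.eventually h
    filter_upwards [h2, Filter.eventually_ge_atTop 1] with n hn h1
    have h1' : (1 : ℝ) ≤ n := by exact_mod_cast h1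
    rw [Real.norm_of_nonneg (Real.log_nonneg h1'), id, Real.norm_of_nonneg (by linarith)] at hn
    exact hn
  have e4 : ∀ᶠ n : ℕ in Filter.atTop, Real.log n ≤ Real.sqrt (δ / 28) * (n : ℝ) ^ (1 / 4 : ℝ) := by
    have h := (isLittleO_log_rpow_atTop (r := 1 / 4) (by norm_num)).bound
      (c := Real.sqrt (δ / 28)) (by positivity)
    have h2 := tendsto_natCast_atTop_atTop.eventually h
    filter_upwards [h2, Filter.eventually_ge_atTop 1] with n hn h1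
    have h1' : (1 : ℝ) ≤ n := by exact_mod_cast h1
    rw [Real.norm_of_nonneg (Real.log_nonneg h1'), Real.norm_of_nonneg (by positivity)] at hn
    exact hn
  have e5 : ∀ᶠ n : ℕ in Filter.atTop, Real.log 2 ≤ (δ / 4) * n := by
    have h := (tendsto_natCast_atTop_atTop (R := ℝ)).eventually_ge_atTop (Real.log 2 / (δ / 4))
    filter_upwards [h] with n hn
    rwa [div_le_iff₀ (by positivity), mul_comm] at hn
  obtain ⟨n₀, hn₀⟩ := Filter.eventually_atTop.1 ((((e1.and e2).and e3).and e4).and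
    (e5.and (Filter.eventually_ge_atTop 3)))
  refine ⟨n₀, fun n hn => ?_⟩
  obtain ⟨⟨⟨⟨g1, g2⟩, g3⟩, g4⟩, g5, g6⟩ := hn₀ n hn
  have hN3 : (3 : ℝ) ≤ (n : ℝ) := by exact_mod_cast g6
  have hN0 : (0 : ℝ) < n := by linarith
  have hl1 : 1 ≤ Real.log n := (le_max_left _ _).trans g2
  have hl2 : 4 * c1 / δ ≤ Real.log n := (le_max_right _ _).trans g2
  have hya : (n : ℝ) ^ a ≤ (⌈(n : ℝ) ^ a⌉₊ : ℝ) := Nat.le_ceil _
  have hy2 : 2 ≤ ⌈(n : ℝ) ^ a⌉₊ := by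
    have : (2 : ℝ) < (⌈(n : ℝ) ^ a⌉₊ : ℝ) := by linarith
    exact_mod_cast this.le
  have hyn : ⌈(n : ℝ) ^ a⌉₊ ≤ n := by
    rw [Nat.ceil_le]
    calc (n : ℝ) ^ a ≤ (n : ℝ) ^ (1 : ℝ) := Real.rpow_le_rpow_of_exponent_le (by linarith) (by linarith)
      _ = n := by rw [Real.rpow_one]
  refine ⟨g6, hy2, ?_⟩
  intro z k D q hz hk hD hq
  have hqQ := atomQ (by linarith) ha hζ hya hD hq
  have hq0 : 0 ≤ q := by rw [hq]; positivity
  have hNa : 0 < (n : ℝ) ^ a := Real.rpow_pos_of_pos hN0 _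
  refine ⟨hqQ.trans ?_, ?_⟩
  · rw [Real.rpow_neg hN0.le, ← div_eq_mul_inv, div_le_one hNa]
    exact g1
  · exact total rfl hN3 rfl hδ0 hc1 hyn (qpow hN0 rfl g1 hq0 hqQ)
      (zl rfl hl1 hc10 hδ0 hl2 hz)
      (s4 hN0 ha0 ha1 hl1 hδ0 (rbd rfl rfl hl1 hyn hk) g4) (by linarith) (by rw [hδ]; ring) hq0

lemma cardf {γ : Type*} [Fintype γ] (P : γ → Prop) [DecidablePred P] :
    Nat.card {i // P i} = (univ.filter P).card := by
  rw [Nat.card_eq_fintype_card, Fintype.card_subtype]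

/-- **KILL**: the killed lemma for nonsingular `P` -/
theorem killStmt (ζ : ℝ) (hζ : 0 < ζ) (hζ2 : ζ < 1 / 2) : KillStmt ζ := by
  classical
  intro ε hε
  have hl2 : 0 < Real.log 2 := Real.log_pos (by norm_num)
  obtain ⟨n₀, hn₀⟩ := numeric ζ hζ hζ2 (ε / 2 * Real.log 2) (by positivity)
  obtain ⟨n₁, hn₁⟩ : ∃ n₁ : ℕ, ∀ n ≥ n₁, 1 ≤ ε / 2 * (n : ℝ) := by
    obtain ⟨n₁, h⟩ := exists_nat_ge (1 / (ε / 2))
    refine ⟨n₁, fun n hn => ?_⟩
    have h1 : (n₁ : ℝ) ≤ n := by exact_mod_cast hn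
    have h2 : 1 / (ε / 2) ≤ (n : ℝ) := h.trans h1
    rwa [div_le_iff₀ (by positivity), mul_comm] at h2
  refine ⟨max n₀ n₁, fun n hn z hz => ?_⟩
  obtain ⟨hn3, hy2, hnum⟩ := hn₀ n ((le_max_left _ _).trans hn)
  have hn1 := hn₁ n ((le_max_right _ _).trans hn)
  have hN3 : (3 : ℝ) ≤ (n : ℝ) := by exact_mod_cast hn3
  have hN0 : (0 : ℝ) < n := by linarith
  set c := Fintype.card (Sym2 (Fin n)) with hc
  have hbits : ((univ : Finset (Bits n)).card : ℝ) = 2 ^ c := by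
    rw [card_univ, Fintype.card_fun, Fintype.card_bool]
    push_cast
    rfl
  by_cases hz0 : z = 0
  · have h1 : (((univ : Finset (Bits n)).filter fun b => (matZ b).det ≠ 0 ∧ Kill ζ (matZ b) z).card : ℝ) ≤
        2 ^ c := by
      rw [← hbits]
      exact_mod_cast card_le_card (filter_subset _ _)
    refine h1.trans ?_
    have h2 : (1 : ℝ) ≤ (2 : ℝ) ^ (-((1 / 2 - ζ) * z * Real.logb 2 n) + ε * n) := by
      refine Real.one_le_rpow (by norm_num) ?_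
      rw [hz0]
      have : 0 < ε * n := by positivity
      simp only [Nat.cast_zero, mul_zero, zero_mul, neg_zero, zero_add]
      exact this.le
    nlinarith [show (0 : ℝ) < 2 ^ c by positivity]
  -- parameters
  set k : ℕ := ⌈Real.sqrt (30 * n)⌉₊ with hk
  set D : ℕ := ⌈(n : ℝ) ^ (1 - ζ)⌉₊ - 1 with hD
  have hceil : 1 ≤ ⌈(n : ℝ) ^ (1 - ζ)⌉₊ := Nat.one_le_iff_ne_zero.2 (by
    have : (0 : ℝ) < (n : ℝ) ^ (1 - ζ) := Real.rpow_pos_of_pos hN0 _
    have := Nat.ceil_pos.2 this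
    omega)
  have hD1 : D + 1 = ⌈(n : ℝ) ^ (1 - ζ)⌉₊ := by omega
  have hkle : (k : ℝ) ≤ 7 * Real.sqrt n := by
    have h1 : (k : ℝ) ≤ Real.sqrt (30 * n) + 1 := (Nat.ceil_lt_add_one (Real.sqrt_nonneg _)).le
    have h2 : Real.sqrt (30 * n) ≤ 6 * Real.sqrt n := by
      rw [Real.sqrt_mul (by norm_num)]
      refine mul_le_mul_of_nonneg_right ?_ (Real.sqrt_nonneg _)
      rw [Real.sqrt_le_left (by norm_num)]
      norm_num
    have h3 : 1 ≤ Real.sqrt n := by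
      rw [Real.one_le_sqrt]
      linarith
    linarith
  have hksq : 2 * (3 + 12) * Fintype.card (Fin n) ≤ k ^ 2 := by
    rw [Fintype.card_fin]
    have h1 : Real.sqrt (30 * n) ≤ k := Nat.le_ceil _
    have h2 : (30 * n : ℝ) ≤ (k : ℝ) ^ 2 := by
      rw [← Real.sq_sqrt (by positivity : (0 : ℝ) ≤ 30 * n)]
      exact pow_le_pow_left₀ (Real.sqrt_nonneg _) h1 2
    exact_mod_cast h2
  have hcor := card_corank_le_exp (α := Fin n) 3 k (by rw [Fintype.card_fin]; omega) hksq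
  set q : ℝ := 1 / (⌈(n : ℝ) ^ (1 / 2 - ζ)⌉₊ : ℝ) + 3 / 2 / Real.sqrt (D + 1) with hq
  obtain ⟨hq1, hX⟩ := hnum z k D q hz hkle (by
    have : ((D + 1 : ℕ) : ℝ) = (⌈(n : ℝ) ^ (1 - ζ)⌉₊ : ℝ) := by rw [hD1]
    push_cast at this
    rw [this]
    exact Nat.le_ceil _) hq
  have hkill := kill_count (α := Fin n) rows2 (core2 rows2) ⌈(n : ℝ) ^ (1 / 2 - ζ)⌉₊ D k z q hy2 hq hq1
  -- splitting
  have hsplit : (((univ : Finset (Bits n)).filter fun b => (matZ b).det ≠ 0 ∧ Kill ζ (matZ b) z)) ⊆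
      ((univ : Finset (Bits n)).filter fun b : Sym2 (Fin n) → Bool => ∃ (p : ℕ) (_ : Fact p.Prime) (T : Finset (Fin n)),
        (prin ((matZ b).map (Int.cast : ℤ → ZMod p)) T).rank + k ≤ T.card) ∪
      ((univ : Finset (Bits n)).filter fun b => CorLt (matZ b) k ∧ (matZ b).det ≠ 0 ∧
        ∃ p, p.Prime ∧ KV (p ^ Nat.clog p ⌈(n : ℝ) ^ (1 / 2 - ζ)⌉₊) D z b) := by
    intro b hb
    rw [mem_filter] at hb
    obtain ⟨-, hdet, hkb⟩ := hb
    rw [mem_union, mem_filter, mem_filter]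
    by_cases hcl : CorLt (matZ b) k
    · right
      refine ⟨mem_univ _, hcl, hdet, ?_⟩
      rcases hkb with h | ⟨p, hp, u, hu1, hu2, hu3⟩
      · exact absurd h hz0
      · refine ⟨p, hp, u, hu2, ?_, ?_⟩
        · exact lt_of_lt_of_le (by omega : D < ⌈(n : ℝ) ^ (1 - ζ)⌉₊) (Nat.ceil_le.2 hu1)
        · exact hu3.trans (le_of_eq (cardf _))
    · left
      refine ⟨mem_univ _, ?_⟩
      unfold CorLt at hcl
      push Not at hcl
      obtain ⟨p, hp, T, hT⟩ := hcl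
      exact ⟨p, ⟨hp⟩, T, hT⟩
  have hcard := (card_le_card hsplit).trans (card_union_le _ _)
  have hcard2 : (((univ : Finset (Bits n)).filter fun b => (matZ b).det ≠ 0 ∧ Kill ζ (matZ b) z).card : ℝ) ≤
      (((univ : Finset (Bits n)).filter fun b : Sym2 (Fin n) → Bool => ∃ (p : ℕ) (_ : Fact p.Prime) (T : Finset (Fin n)),
        (prin ((matZ b).map (Int.cast : ℤ → ZMod p)) T).rank + k ≤ T.card).card : ℝ) +
      (((univ : Finset (Bits n)).filter fun b => CorLt (matZ b) k ∧ (matZ b).det ≠ 0 ∧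
        ∃ p, p.Prime ∧ KV (p ^ Nat.clog p ⌈(n : ℝ) ^ (1 / 2 - ζ)⌉₊) D z b).card : ℝ) := by
    exact_mod_cast hcard
  -- first part
  have hA : (((univ : Finset (Bits n)).filter fun b : Sym2 (Fin n) → Bool => ∃ (p : ℕ) (_ : Fact p.Prime) (T : Finset (Fin n)),
        (prin ((matZ b).map (Int.cast : ℤ → ZMod p)) T).rank + k ≤ T.card).card : ℝ) ≤
      (2 : ℝ) ^ (-(3 * n : ℝ)) * 2 ^ c := by
    rw [Fintype.card_fin] at hcor
    have h1 : ((((univ : Finset (Bits n)).filter fun b : Sym2 (Fin n) → Bool => ∃ (p : ℕ) (_ : Fact p.Prime) (T : Finset (Fin n)),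
        (prin ((matZ b).map (Int.cast : ℤ → ZMod p)) T).rank + k ≤ T.card).card : ℝ)) * 2 ^ (3 * n) ≤ 2 ^ c := by
      exact_mod_cast hcor
    rw [Real.rpow_neg (by norm_num), show (3 * n : ℝ) = ((3 * n : ℕ) : ℝ) by push_cast; ring, Real.rpow_natCast,
      ← div_eq_inv_mul, le_div_iff₀ (by positivity)]
    exact h1
  -- second part
  have hB : (((univ : Finset (Bits n)).filter fun b => CorLt (matZ b) k ∧ (matZ b).det ≠ 0 ∧
        ∃ p, p.Prime ∧ KV (p ^ Nat.clog p ⌈(n : ℝ) ^ (1 / 2 - ζ)⌉₊) D z b).card : ℝ) ≤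
      (2 : ℝ) ^ (-((1 / 2 - ζ) * z * Real.logb 2 n) + ε / 2 * n) * 2 ^ c := by
    rw [Nat.card_eq_fintype_card, Fintype.card_subtype, Fintype.card_fin] at hkill
    refine hkill.trans (mul_le_mul_of_nonneg_right (hX.trans (le_of_eq ?_)) (by positivity))
    rw [Real.rpow_def_of_pos (by norm_num)]
    congr 1
    have h1 : Real.log n = Real.log 2 * Real.logb 2 n := by
      rw [Real.logb, mul_div_cancel₀ _ hl2.ne']
    rw [h1]
    ring
  -- sum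
  set X : ℝ := -((1 / 2 - ζ) * z * Real.logb 2 n) with hXdef
  have hXlow : -(2 * n : ℝ) ≤ X := by
    rw [hXdef]
    have h1 : 0 ≤ (z : ℝ) * Real.logb 2 n := by
      have : 0 ≤ Real.logb 2 (n : ℝ) := Real.logb_nonneg (by norm_num) (by linarith)
      positivity
    have h2 : (1 / 2 - ζ) * ((z : ℝ) * Real.logb 2 n) ≤ 1 / 2 * (4 * n) := by
      have h3 : (1 / 2 - ζ) ≤ 1 / 2 := by linarith
      exact mul_le_mul h3 hz h1 (by norm_num)
    linarith [mul_assoc (1 / 2 - ζ) (z : ℝ) (Real.logb 2 n)]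
  have hfin : (2 : ℝ) ^ (-(3 * n : ℝ)) + (2 : ℝ) ^ (X + ε / 2 * n) ≤ (2 : ℝ) ^ (X + ε * n) := by
    have h1 : (2 : ℝ) ^ (-(3 * n : ℝ)) ≤ (2 : ℝ) ^ (X + ε / 2 * n) :=
      Real.rpow_le_rpow_of_exponent_le (by norm_num) (by nlinarith)
    have h2 : (2 : ℝ) ^ (X + ε * n) = (2 : ℝ) ^ (X + ε / 2 * n) * 2 ^ (ε / 2 * n) := by
      rw [← Real.rpow_add (by norm_num)]
      congr 1
      ring
    have h3 : (2 : ℝ) ≤ 2 ^ (ε / 2 * n) := by
      calc (2 : ℝ) = 2 ^ (1 : ℝ) := by rw [Real.rpow_one]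
        _ ≤ _ := Real.rpow_le_rpow_of_exponent_le (by norm_num) hn1
    have h4 : 0 < (2 : ℝ) ^ (X + ε / 2 * n) := by positivity
    rw [h2]
    nlinarith
  calc (((univ : Finset (Bits n)).filter fun b => (matZ b).det ≠ 0 ∧ Kill ζ (matZ b) z).card : ℝ)
      ≤ (2 : ℝ) ^ (-(3 * n : ℝ)) * 2 ^ c + (2 : ℝ) ^ (X + ε / 2 * n) * 2 ^ c := hcard2.trans (add_le_add hA hB)
    _ = ((2 : ℝ) ^ (-(3 * n : ℝ)) + (2 : ℝ) ^ (X + ε / 2 * n)) * 2 ^ c := by ring
    _ ≤ (2 : ℝ) ^ (X + ε * n) * 2 ^ c := mul_le_mul_of_nonneg_right hfin (by positivity)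

end Vale.Agent.P160.Half.F.K456
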