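import Vale.Agent.P160.Half.Fin.KillAs456

/-! # P160, final assembly: the killed lemma at the sizes `m ∈ [n - τ, n]` with the moduli of size `n` (helper456) -/

set_option linter.unusedSectionVars false
set_option linter.unusedVariables false

open Finset Matrix

namespace Vale.Agent.P160.Half.F.K456

open Vale.Agent.P160.Half Vale.Agent.P160.Half.A Vale.Agent.P160.Half.G Vale.Agent.P160.Half.G.Kill

/-- the numerical inequality, sizes `m ≤ n`, `z - τ` zeros -/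
lemma numericM (ζ : ℝ) (hζ : 0 < ζ) (hζ2 : ζ < 1 / 2) (ε : ℝ) (hε : 0 < ε) (τ : ℕ) :
    ∃ n₀ : ℕ, ∀ n ≥ n₀, 3 ≤ n ∧ 3 * τ + 3 ≤ n ∧ 2 ≤ ⌈(n : ℝ) ^ (1 / 2 - ζ)⌉₊ ∧ τ * Real.log n ≤ ε * n ∧
      ∀ (m z k D : ℕ) (q : ℝ), m ≤ n →
      (z : ℝ) * Real.logb 2 n ≤ 4 * n → (k : ℝ) ≤ 7 * Real.sqrt n → (n : ℝ) ^ (1 - ζ) ≤ (D : ℝ) + 1 →
      q = 1 / (⌈(n : ℝ) ^ (1 / 2 - ζ)⌉₊ : ℝ) + 3 / 2 / Real.sqrt (D + 1) →
      q ≤ 1 ∧ (((⌈(n : ℝ) ^ (1 / 2 - ζ)⌉₊ : ℝ) + (m : ℝ) ^ 2) * ((m.choose (z - τ) : ℝ) * 4 ^ (z - τ)) *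
        q ^ ((z - τ) - (Nat.clog 2 ⌈(n : ℝ) ^ (1 / 2 - ζ)⌉₊ + 1) * k) ≤
        Real.exp (-((1 / 2 - ζ) * z * Real.log n) + ε * n)) := by
  obtain ⟨n₀, hn₀⟩ := numeric ζ hζ hζ2 (ε / 2) (by positivity)
  have e3 : ∀ᶠ n : ℕ in Filter.atTop, Real.log n ≤ (ε / 2 / (τ + 1)) * n := by
    have h := Real.isLittleO_log_id_atTop.bound (c := ε / 2 / (τ + 1)) (by positivity)
    have h2 := tendsto_natCast_atTop_atTop.eventually h
    filter_upwards [h2, Filter.eventually_ge_atTop 1] with n hn h1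
    have h1' : (1 : ℝ) ≤ n := by exact_mod_cast h1
    rw [Real.norm_of_nonneg (Real.log_nonneg h1'), id, Real.norm_of_nonneg (by linarith)] at hn
    exact hn
  obtain ⟨n₁, hn₁⟩ := Filter.eventually_atTop.1 e3
  refine ⟨max n₀ (max n₁ (3 * τ + 3)), fun n hn => ?_⟩
  obtain ⟨h3, hy2, hnum⟩ := hn₀ n ((le_max_left _ _).trans hn)
  have hlog := hn₁ n (((le_max_left _ _).trans (le_max_right _ _)).trans hn)
  have hτn : 3 * τ + 3 ≤ n := ((le_max_right _ _).trans (le_max_right _ _)).trans hn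
  have hN3 : (3 : ℝ) ≤ n := by exact_mod_cast h3
  have hN0 : (0 : ℝ) < n := by linarith
  have hlog0 : 0 ≤ Real.log n := Real.log_nonneg (by linarith)
  have hτl : (τ : ℝ) * Real.log n ≤ ε / 2 * n := by
    have h1 : (τ : ℝ) * Real.log n ≤ τ * ((ε / 2 / (τ + 1)) * n) :=
      mul_le_mul_of_nonneg_left hlog (Nat.cast_nonneg _)
    have h2 : (τ : ℝ) * ((ε / 2 / (τ + 1)) * n) = (τ / (τ + 1)) * (ε / 2 * n) := by
      field_simp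
    have h4 : (τ : ℝ) / (τ + 1) ≤ 1 := by
      rw [div_le_one (by positivity)]
      linarith
    have h5 : (τ / (τ + 1) : ℝ) * (ε / 2 * n) ≤ 1 * (ε / 2 * n) :=
      mul_le_mul_of_nonneg_right h4 (by positivity)
    linarith
  have hτl2 : (τ : ℝ) * Real.log n ≤ ε * n := by
    have : 0 < ε * n := by positivity
    linarith
  refine ⟨h3, hτn, hy2, hτl2, ?_⟩
  intro m z k D q hmn hz hk hD hq
  have hzz : ((z - τ : ℕ) : ℝ) ≤ z := by exact_mod_cast Nat.sub_le _ _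
  have hlb : 0 ≤ Real.logb 2 (n : ℝ) := Real.logb_nonneg (by norm_num) (by linarith)
  obtain ⟨hq1, hX⟩ := hnum (z - τ) k D q ((mul_le_mul_of_nonneg_right hzz hlb).trans hz) hk hD hq
  refine ⟨hq1, ?_⟩
  have hq0 : 0 ≤ q := by rw [hq]; positivity
  have hmn' : (m : ℝ) ≤ n := by exact_mod_cast hmn
  have hch : (m.choose (z - τ) : ℝ) ≤ n.choose (z - τ) := by
    exact_mod_cast Nat.choose_le_choose _ hmn
  have h1 : ((⌈(n : ℝ) ^ (1 / 2 - ζ)⌉₊ : ℝ) + (m : ℝ) ^ 2) * ((m.choose (z - τ) : ℝ) * 4 ^ (z - τ)) *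
        q ^ ((z - τ) - (Nat.clog 2 ⌈(n : ℝ) ^ (1 / 2 - ζ)⌉₊ + 1) * k) ≤
      ((⌈(n : ℝ) ^ (1 / 2 - ζ)⌉₊ : ℝ) + (n : ℝ) ^ 2) * ((n.choose (z - τ) : ℝ) * 4 ^ (z - τ)) *
        q ^ ((z - τ) - (Nat.clog 2 ⌈(n : ℝ) ^ (1 / 2 - ζ)⌉₊ + 1) * k) := by
    gcongr
  refine h1.trans (hX.trans (Real.exp_le_exp.2 ?_))
  have h2 : (z : ℝ) - τ ≤ ((z - τ : ℕ) : ℝ) := by
    have : z ≤ (z - τ) + τ := by omega
    have h3 : (z : ℝ) ≤ ((z - τ : ℕ) : ℝ) + τ := by exact_mod_cast this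
    linarith
  have ha : 0 ≤ 1 / 2 - ζ := by linarith
  have ha1 : 1 / 2 - ζ ≤ 1 := by linarith
  have h4 : (1 / 2 - ζ) * (((z : ℝ) - τ) * Real.log n) ≤ (1 / 2 - ζ) * (((z - τ : ℕ) : ℝ) * Real.log n) :=
    mul_le_mul_of_nonneg_left (mul_le_mul_of_nonneg_right h2 hlog0) ha
  have h5 : (1 / 2 - ζ) * ((τ : ℝ) * Real.log n) ≤ 1 * ((τ : ℝ) * Real.log n) :=
    mul_le_mul_of_nonneg_right ha1 (by positivity)
  have h6 : (1 / 2 - ζ) * (((z : ℝ) - τ) * Real.log n) =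
    (1 / 2 - ζ) * z * Real.log n - (1 / 2 - ζ) * ((τ : ℝ) * Real.log n) := by ring
  have h7 : (1 / 2 - ζ) * (((z - τ : ℕ) : ℝ) * Real.log n) = (1 / 2 - ζ) * ((z - τ : ℕ) : ℝ) * Real.log n := by ring
  linarith

/-- the killed lemma, general sizes (helper838's form) -/
def KillM (ζ : ℝ) : Prop := ∀ (e : ℝ) (τ : ℕ), 0 < e → ∃ n₀ : ℕ, ∀ n ≥ n₀, ∀ m z : ℕ, n - τ ≤ m → m ≤ n →
  (z : ℝ) * Real.logb 2 n ≤ 4 * n →
  (Nat.card {b : Sym2 (Fin m) → Bool // (matZ b).det ≠ 0 ∧ (z - τ = 0 ∨ ∃ p : ℕ, p.Prime ∧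
    ∃ u : Fin m → ZMod (F.qp ζ n p), (n : ℝ) ^ (1 - ζ) ≤ Nat.card {i // IsUnit (u i)} ∧
      (matZ b).map (Int.cast : ℤ → ZMod (F.qp ζ n p)) *ᵥ u = 0 ∧ z - τ ≤ Nat.card {i // u i = 0})} : ℝ) ≤
    (2 : ℝ) ^ (-((1 / 2 - ζ) * z * Real.logb 2 n) + e * n) * 2 ^ Fintype.card (Sym2 (Fin m))

/-- the corank event -/
lemma corEv (m k : ℕ) (hm : 1 ≤ m) (hksq : 2 * (3 + 12) * Fintype.card (Fin m) ≤ k ^ 2)
    [DecidablePred fun b : Sym2 (Fin m) → Bool => ∃ (p : ℕ) (_ : Fact p.Prime) (T : Finset (Fin m)),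
        (prin ((matZ b).map (Int.cast : ℤ → ZMod p)) T).rank + k ≤ T.card] :
    (((univ : Finset (Sym2 (Fin m) → Bool)).filter fun b : Sym2 (Fin m) → Bool => ∃ (p : ℕ) (_ : Fact p.Prime) (T : Finset (Fin m)),
        (prin ((matZ b).map (Int.cast : ℤ → ZMod p)) T).rank + k ≤ T.card).card : ℝ) ≤
      (2 : ℝ) ^ (-(3 * m : ℝ)) * 2 ^ Fintype.card (Sym2 (Fin m)) := by
  have hcor := card_corank_le_exp (α := Fin m) 3 k (by rw [Fintype.card_fin]; exact hm) hksq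
  rw [Fintype.card_fin] at hcor
  have h1 : ((((univ : Finset (Sym2 (Fin m) → Bool)).filter fun b : Sym2 (Fin m) → Bool => ∃ (p : ℕ) (_ : Fact p.Prime) (T : Finset (Fin m)),
      (prin ((matZ b).map (Int.cast : ℤ → ZMod p)) T).rank + k ≤ T.card).card : ℝ)) * 2 ^ (3 * m) ≤
      2 ^ Fintype.card (Sym2 (Fin m)) := by
    exact_mod_cast hcor
  rw [Real.rpow_neg (by norm_num), show (3 * m : ℝ) = ((3 * m : ℕ) : ℝ) by push_cast; ring, Real.rpow_natCast,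
    ← div_eq_inv_mul, le_div_iff₀ (by positivity)]
  exact h1

lemma two_terms {X M e : ℝ} (h1 : -M ≤ X) (he : 1 ≤ e) : (2 : ℝ) ^ (-M) + (2 : ℝ) ^ (X + e) ≤ (2 : ℝ) ^ (X + 2 * e) := by
  have h2 : (2 : ℝ) ^ (-M) ≤ (2 : ℝ) ^ (X + e) :=
    Real.rpow_le_rpow_of_exponent_le (by norm_num) (by linarith)
  have h3 : (2 : ℝ) ^ (X + 2 * e) = (2 : ℝ) ^ (X + e) * 2 ^ e := by
    rw [← Real.rpow_add (by norm_num)]
    congr 1
    ring
  have h4 : (2 : ℝ) ≤ 2 ^ e := by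
    calc (2 : ℝ) = 2 ^ (1 : ℝ) := by rw [Real.rpow_one]
      _ ≤ _ := Real.rpow_le_rpow_of_exponent_le (by norm_num) he
  have h5 : 0 < (2 : ℝ) ^ (X + e) := by positivity
  have h6 : (2 : ℝ) ^ (X + e) * 2 ≤ (2 : ℝ) ^ (X + e) * 2 ^ e := mul_le_mul_of_nonneg_left h4 h5.le
  rw [h3]
  linarith

lemma ksize {m n : ℕ} (hmn : (m : ℝ) ≤ n) (hN3 : (3 : ℝ) ≤ n) :
    ((⌈Real.sqrt (30 * m)⌉₊ : ℕ) : ℝ) ≤ 7 * Real.sqrt n := by
  have h1 : ((⌈Real.sqrt (30 * m)⌉₊ : ℕ) : ℝ) ≤ Real.sqrt (30 * m) + 1 := (Nat.ceil_lt_add_one (Real.sqrt_nonneg _)).le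
  have h2 : Real.sqrt (30 * m) ≤ 6 * Real.sqrt n := by
    rw [Real.sqrt_mul (by norm_num)]
    refine mul_le_mul ?_ (Real.sqrt_le_sqrt hmn) (Real.sqrt_nonneg _) (by norm_num)
    rw [Real.sqrt_le_left (by norm_num)]
    norm_num
  have h3 : 1 ≤ Real.sqrt n := by
    rw [Real.one_le_sqrt]
    linarith
  linarith

lemma ksq (m : ℕ) : 2 * (3 + 12) * Fintype.card (Fin m) ≤ ⌈Real.sqrt (30 * m)⌉₊ ^ 2 := by
  rw [Fintype.card_fin]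
  have h1 : Real.sqrt (30 * m) ≤ (⌈Real.sqrt (30 * m)⌉₊ : ℕ) := Nat.le_ceil _
  have h2 : (30 * m : ℝ) ≤ ((⌈Real.sqrt (30 * m)⌉₊ : ℕ) : ℝ) ^ 2 := by
    calc (30 * m : ℝ) = Real.sqrt (30 * m) ^ 2 := (Real.sq_sqrt (by positivity : (0 : ℝ) ≤ 30 * m)).symm
      _ ≤ _ := pow_le_pow_left₀ (Real.sqrt_nonneg _) h1 2
  exact_mod_cast h2

lemma Xlow {ζ : ℝ} (hζ : 0 < ζ) {n z : ℕ} (hlb : 0 ≤ Real.logb 2 (n : ℝ)) (hz : (z : ℝ) * Real.logb 2 n ≤ 4 * n) :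
    -(2 * n : ℝ) ≤ -((1 / 2 - ζ) * z * Real.logb 2 n) := by
  have h1 : 0 ≤ (z : ℝ) * Real.logb 2 n := by positivity
  have h2 : (1 / 2 - ζ) * ((z : ℝ) * Real.logb 2 n) ≤ 1 / 2 * (4 * n) := by
    have h3 : (1 / 2 - ζ) ≤ 1 / 2 := by linarith
    exact mul_le_mul h3 hz h1 (by norm_num)
  linarith [mul_assoc (1 / 2 - ζ) (z : ℝ) (Real.logb 2 n)]

/-- **KILLM** -/
theorem killM (ζ : ℝ) (hζ : 0 < ζ) (hζ2 : ζ < 1 / 2) : KillM ζ := by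
  classical
  intro ε τ hε
  have hl2 : 0 < Real.log 2 := Real.log_pos (by norm_num)
  obtain ⟨n₀, hn₀⟩ := numericM ζ hζ hζ2 (ε / 2 * Real.log 2) (by positivity) τ
  obtain ⟨n₁, hn₁⟩ : ∃ n₁ : ℕ, ∀ n ≥ n₁, 1 ≤ ε / 2 * (n : ℝ) := by
    obtain ⟨n₁, h⟩ := exists_nat_ge (1 / (ε / 2))
    refine ⟨n₁, fun n hn => ?_⟩
    have h1 : (n₁ : ℝ) ≤ n := by exact_mod_cast hn
    have h2 : 1 / (ε / 2) ≤ (n : ℝ) := h.trans h1
    rwa [div_le_iff₀ (by positivity), mul_comm] at h2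
  refine ⟨max n₀ n₁, fun n hn m z hm1 hm2 hz => ?_⟩
  obtain ⟨hn3, hτn, hy2, hτl, hnum⟩ := hn₀ n ((le_max_left _ _).trans hn)
  have hn1 := hn₁ n ((le_max_right _ _).trans hn)
  have hN3 : (3 : ℝ) ≤ (n : ℝ) := by exact_mod_cast hn3
  have hN0 : (0 : ℝ) < n := by linarith
  have hlb : 0 ≤ Real.logb 2 (n : ℝ) := Real.logb_nonneg (by norm_num) (by linarith)
  have hloglb : Real.log n = Real.log 2 * Real.logb 2 n := by
    rw [Real.logb, mul_div_cancel₀ _ hl2.ne']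
  set c := Fintype.card (Sym2 (Fin m)) with hc
  have hbits : ((univ : Finset (Bits m)).card : ℝ) = 2 ^ c := by
    rw [card_univ, Fintype.card_fun, Fintype.card_bool]
    push_cast
    rfl
  set Ev : (Sym2 (Fin m) → Bool) → Prop := fun b => (matZ b).det ≠ 0 ∧ (z - τ = 0 ∨ ∃ p : ℕ, p.Prime ∧
    ∃ u : Fin m → ZMod (F.qp ζ n p), (n : ℝ) ^ (1 - ζ) ≤ Nat.card {i // IsUnit (u i)} ∧
      (matZ b).map (Int.cast : ℤ → ZMod (F.qp ζ n p)) *ᵥ u = 0 ∧ z - τ ≤ Nat.card {i // u i = 0}) with hEv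
  have hcardEv : (Nat.card {b : Sym2 (Fin m) → Bool // Ev b} : ℝ) = ((univ.filter Ev).card : ℝ) := by
    rw [cardf]
  rw [hcardEv]
  by_cases hz0 : z - τ = 0
  · have h1 : ((univ.filter Ev).card : ℝ) ≤ 2 ^ c := by
      rw [← hbits]
      exact_mod_cast card_le_card (filter_subset _ _)
    refine h1.trans ?_
    have h2 : (1 : ℝ) ≤ (2 : ℝ) ^ (-((1 / 2 - ζ) * z * Real.logb 2 n) + ε * n) := by
      refine Real.one_le_rpow (by norm_num) ?_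
      have hzτ : (z : ℝ) ≤ τ := by
        have : z ≤ τ := by omega
        exact_mod_cast this
      have h3 : (1 / 2 - ζ) * z * Real.logb 2 n ≤ 1 * τ * Real.logb 2 n := by
        have ha : 0 ≤ 1 / 2 - ζ := by linarith
        have ha1 : 1 / 2 - ζ ≤ 1 := by linarith
        exact mul_le_mul_of_nonneg_right (mul_le_mul ha1 hzτ (Nat.cast_nonneg _) (by norm_num)) hlb
      have h4 : (τ : ℝ) * Real.logb 2 n ≤ ε / 2 * n := by
        rw [hloglb] at hτl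
        have h5 : Real.log 2 * ((τ : ℝ) * Real.logb 2 n) ≤ Real.log 2 * (ε / 2 * n) := by linarith
        exact le_of_mul_le_mul_left h5 hl2
      have h6 : 0 < ε * n := by positivity
      linarith
    nlinarith [show (0 : ℝ) < 2 ^ c by positivity]
  -- parameters
  set k : ℕ := ⌈Real.sqrt (30 * m)⌉₊ with hk
  set D : ℕ := ⌈(n : ℝ) ^ (1 - ζ)⌉₊ - 1 with hD
  have hceil : 1 ≤ ⌈(n : ℝ) ^ (1 - ζ)⌉₊ := Nat.one_le_iff_ne_zero.2 (by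
    have : (0 : ℝ) < (n : ℝ) ^ (1 - ζ) := Real.rpow_pos_of_pos hN0 _
    have := Nat.ceil_pos.2 this
    omega)
  have hD1 : D + 1 = ⌈(n : ℝ) ^ (1 - ζ)⌉₊ := by omega
  have hmn : (m : ℝ) ≤ n := by exact_mod_cast hm2
  have hkle : (k : ℝ) ≤ 7 * Real.sqrt n := ksize hmn hN3
  have hksq : 2 * (3 + 12) * Fintype.card (Fin m) ≤ k ^ 2 := ksq m
  set q : ℝ := 1 / (⌈(n : ℝ) ^ (1 / 2 - ζ)⌉₊ : ℝ) + 3 / 2 / Real.sqrt (D + 1) with hq
  obtain ⟨hq1, hX⟩ := hnum m z k D q hm2 hz hkle (by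
    have : ((D + 1 : ℕ) : ℝ) = (⌈(n : ℝ) ^ (1 - ζ)⌉₊ : ℝ) := by rw [hD1]
    push_cast at this
    rw [this]
    exact Nat.le_ceil _) hq
  have hkill := kill_count (α := Fin m) rows2 (core2 rows2) ⌈(n : ℝ) ^ (1 / 2 - ζ)⌉₊ D k (z - τ) q hy2 hq hq1
  -- splitting
  have hsplit : (univ.filter Ev) ⊆
      ((univ : Finset (Bits m)).filter fun b : Sym2 (Fin m) → Bool => ∃ (p : ℕ) (_ : Fact p.Prime) (T : Finset (Fin m)),
        (prin ((matZ b).map (Int.cast : ℤ → ZMod p)) T).rank + k ≤ T.card) ∪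
      ((univ : Finset (Bits m)).filter fun b => CorLt (matZ b) k ∧ (matZ b).det ≠ 0 ∧
        ∃ p, p.Prime ∧ KV (p ^ Nat.clog p ⌈(n : ℝ) ^ (1 / 2 - ζ)⌉₊) D (z - τ) b) := by
    intro b hb
    rw [mem_filter] at hb
    obtain ⟨-, hdet, hkb⟩ := hb
    rw [mem_union, mem_filter, mem_filter]
    by_cases hcl : CorLt (matZ b) k
    · right
      refine ⟨mem_univ _, hcl, hdet, ?_⟩
      rcases hkb with h | ⟨p, hp, u, hu1, hu2, hu3⟩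
      · exact absurd h hz0
      · refine ⟨p, hp, u, hu2, ?_, ?_⟩
        · exact lt_of_lt_of_le (by omega : D < ⌈(n : ℝ) ^ (1 - ζ)⌉₊) (Nat.ceil_le.2 hu1)
        · exact hu3.trans (le_of_eq (cardf _))
    · left
      refine ⟨mem_univ _, ?_⟩
      unfold CorLt at hcl
      push Not at hcl
      obtain ⟨p, hp, T, hT⟩ := hcl
      exact ⟨p, ⟨hp⟩, T, hT⟩
  have hcard := (card_le_card hsplit).trans (card_union_le _ _)
  have hcard2 : ((univ.filter Ev).card : ℝ) ≤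
      (((univ : Finset (Bits m)).filter fun b : Sym2 (Fin m) → Bool => ∃ (p : ℕ) (_ : Fact p.Prime) (T : Finset (Fin m)),
        (prin ((matZ b).map (Int.cast : ℤ → ZMod p)) T).rank + k ≤ T.card).card : ℝ) +
      (((univ : Finset (Bits m)).filter fun b => CorLt (matZ b) k ∧ (matZ b).det ≠ 0 ∧
        ∃ p, p.Prime ∧ KV (p ^ Nat.clog p ⌈(n : ℝ) ^ (1 / 2 - ζ)⌉₊) D (z - τ) b).card : ℝ) := by
    exact_mod_cast hcard
  -- first part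
  have hA : (((univ : Finset (Bits m)).filter fun b : Sym2 (Fin m) → Bool => ∃ (p : ℕ) (_ : Fact p.Prime) (T : Finset (Fin m)),
        (prin ((matZ b).map (Int.cast : ℤ → ZMod p)) T).rank + k ≤ T.card).card : ℝ) ≤
      (2 : ℝ) ^ (-(3 * m : ℝ)) * 2 ^ c := corEv m k (by omega) hksq
  -- second part
  have hB : (((univ : Finset (Bits m)).filter fun b => CorLt (matZ b) k ∧ (matZ b).det ≠ 0 ∧
        ∃ p, p.Prime ∧ KV (p ^ Nat.clog p ⌈(n : ℝ) ^ (1 / 2 - ζ)⌉₊) D (z - τ) b).card : ℝ) ≤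
      (2 : ℝ) ^ (-((1 / 2 - ζ) * z * Real.logb 2 n) + ε / 2 * n) * 2 ^ c := by
    rw [cardf, Fintype.card_fin] at hkill
    refine hkill.trans (mul_le_mul_of_nonneg_right (hX.trans (le_of_eq ?_)) (by positivity))
    rw [Real.rpow_def_of_pos (by norm_num), hloglb]
    congr 1
    ring
  -- sum
  set X : ℝ := -((1 / 2 - ζ) * z * Real.logb 2 n) with hXdef
  have hXlow : -(2 * n : ℝ) ≤ X := Xlow hζ hlb hz
  have h3m : (2 * n : ℝ) ≤ 3 * m := by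
    have : 2 * n ≤ 3 * m := by omega
    exact_mod_cast this
  have hfin : (2 : ℝ) ^ (-(3 * m : ℝ)) + (2 : ℝ) ^ (X + ε / 2 * n) ≤ (2 : ℝ) ^ (X + ε * n) := by
    have h1 := two_terms (X := X) (M := 3 * m) (e := ε / 2 * n) (by linarith) hn1
    have h2 : X + 2 * (ε / 2 * n) = X + ε * n := by ring
    rwa [h2] at h1
  calc ((univ.filter Ev).card : ℝ)
      ≤ (2 : ℝ) ^ (-(3 * m : ℝ)) * 2 ^ c + (2 : ℝ) ^ (X + ε / 2 * n) * 2 ^ c := hcard2.trans (add_le_add hA hB)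
    _ = ((2 : ℝ) ^ (-(3 * m : ℝ)) + (2 : ℝ) ^ (X + ε / 2 * n)) * 2 ^ c := by ring
    _ ≤ (2 : ℝ) ^ (X + ε * n) * 2 ^ c := mul_le_mul_of_nonneg_right hfin (by positivity)

end Vale.Agent.P160.Half.F.K456
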