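import Vale.Agent.P160.Half.Fin.FStmt
import Vale.Agent.P160.Half.Kill456
import Vale.Agent.P160.Half.Kill955N
import Vale.Agent.P160.Half.HadN
import Vale.Agent.P160.Half.Rows2

/-! # P160, rate 1/2: `StmtM (1/4) 1 ζ` from the killed lemma and Hadamard (helper955) -/

open Finset Matrix

namespace Vale.Agent.P160.Half.F.M955

open Vale.Agent.P160.Half Vale.Agent.P160.Half.A Vale.Agent.P160.Half.F Vale.Agent.P160.Half.Kill955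

/-- Hadamard: at most `n / 4` primes `p ≥ n` have corank at least two -/
theorem N2_le {n : ℕ} (hn : 2 ≤ n) (b : Bits n) (hdet : (matZ b).det ≠ 0) : 4 * N2 1 (matZ b) ≤ n := by
  set S : Finset ℕ := (matZ b).det.natAbs.primeFactors.filter fun p : ℕ => (n : ℝ) ^ (1 : ℝ) ≤ p ∧ 2 ≤ crk (matZ b) p with hS
  have hSp : ∀ p ∈ S, p.Prime := fun p hp => Nat.prime_of_mem_primeFactors (mem_filter.1 hp).1
  have h1 := HadN.weight_sq_le (matZ b) S hSp (fun i j => matZ_abs b i j)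
  have hrank : HadN.rQ (matZ b) = n := by
    unfold HadN.rQ
    have h2 : ((matZ b).map (Int.cast : ℤ → ℚ)).det ≠ 0 := by
      have h3 := (Int.castRingHom ℚ).map_det (matZ b)
      have h4 : ((matZ b).map (Int.cast : ℤ → ℚ)).det = (((matZ b).det : ℤ) : ℚ) := h3.symm
      rw [h4]
      exact_mod_cast hdet
    rw [Matrix.rank_of_isUnit _ ((Matrix.isUnit_iff_isUnit_det _).2 (isUnit_iff_ne_zero.2 h2)), Fintype.card_fin]
  rw [hrank, Nat.sub_self, Nat.mul_zero, pow_zero, one_mul] at h1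
  have h5 : (n ^ 2) ^ S.card ≤ ∏ p ∈ S, p ^ (n - HadN.rP p (matZ b)) := by
    rw [← Finset.prod_const]
    refine Finset.prod_le_prod' fun p hp => ?_
    obtain ⟨h6, h7, h8⟩ := mem_filter.1 hp
    rw [Real.rpow_one] at h7
    have h7' : n ≤ p := by exact_mod_cast h7
    have h8' : 2 ≤ n - HadN.rP p (matZ b) := h8
    calc n ^ 2 ≤ p ^ 2 := Nat.pow_le_pow_left h7' 2
      _ ≤ p ^ (n - HadN.rP p (matZ b)) := Nat.pow_le_pow_right (by omega) h8'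
  have h9 : n ^ (4 * S.card) ≤ n ^ n := by
    calc n ^ (4 * S.card) = ((n ^ 2) ^ S.card) ^ 2 := by rw [← pow_mul, ← pow_mul]; congr 1; ring
      _ ≤ (∏ p ∈ S, p ^ (n - HadN.rP p (matZ b))) ^ 2 := Nat.pow_le_pow_left h5 2
      _ ≤ n ^ n := h1
  exact (Nat.pow_le_pow_iff_right (by omega)).1 h9

/-- finite form of the killed lemma -/
theorem kill_finite (ζ : ℝ) (n z D k C' : ℕ) (q : ℝ) (hn : 1 ≤ n) (hz : 1 ≤ z) (hy : 2 ≤ ⌈(n : ℝ) ^ (1 / 2 - ζ)⌉₊)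
    (hD : (D : ℝ) < (n : ℝ) ^ (1 - ζ))
    (hq : q = 1 / (⌈(n : ℝ) ^ (1 / 2 - ζ)⌉₊ : ℕ) + 3 / 2 / Real.sqrt (D + 1)) (hq1 : q ≤ 1)
    (hk : 2 * (C' + 12) * n ≤ k ^ 2) [DecidablePred fun b : Bits n => (matZ b).det ≠ 0 ∧ Kill ζ (matZ b) z] :
    (((univ : Finset (Bits n)).filter fun b => (matZ b).det ≠ 0 ∧ Kill ζ (matZ b) z).card : ℝ) ≤
      (1 / 2 ^ (C' * n) + ((⌈(n : ℝ) ^ (1 / 2 - ζ)⌉₊ : ℕ) + (n : ℝ) ^ 2) * (Nat.choose n z * 4 ^ z) *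
        q ^ (z - (Nat.clog 2 ⌈(n : ℝ) ^ (1 / 2 - ζ)⌉₊ + 1) * k)) * 2 ^ Fintype.card (Sym2 (Fin n)) := by
  classical
  set y : ℕ := ⌈(n : ℝ) ^ (1 / 2 - ζ)⌉₊ with hy'
  set A : Finset (Bits n) := univ.filter fun b => ∃ (p : ℕ) (_ : Fact p.Prime) (T : Finset (Fin n)),
      (prin ((matZ b).map (Int.cast : ℤ → ZMod p)) T).rank + k ≤ T.card with hA
  set B : Finset (Bits n) := univ.filter fun b => G.CorLt (matZ b) k ∧ (matZ b).det ≠ 0 ∧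
      ∃ p, p.Prime ∧ G.Kill.KV (p ^ Nat.clog p y) D z b with hB
  have hcov : ((univ : Finset (Bits n)).filter fun b => (matZ b).det ≠ 0 ∧ Kill ζ (matZ b) z) ⊆ A ∪ B := by
    intro b hb
    obtain ⟨hdet, hK⟩ := (mem_filter.1 hb).2
    rw [mem_union]
    by_cases h1 : G.CorLt (matZ b) k
    · right
      rw [hB, mem_filter]
      refine ⟨mem_univ _, h1, hdet, ?_⟩
      rcases hK with h | ⟨p, hp, u, hu, hPu, hz'⟩
      · omega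
      · refine ⟨p, hp, u, hPu, ?_, ?_⟩
        · exact_mod_cast lt_of_lt_of_le hD hu
        · rw [Nat.card_eq_fintype_card, Fintype.card_subtype] at hz'
          exact hz'
    · left
      rw [hA, mem_filter]
      unfold G.CorLt at h1
      push Not at h1
      obtain ⟨p', hp', T, hT⟩ := h1
      exact ⟨mem_univ _, p', ⟨hp'⟩, T, hT⟩
  have hAc : (A.card : ℝ) ≤ 1 / 2 ^ (C' * n) * 2 ^ Fintype.card (Sym2 (Fin n)) := by
    have h1 := card_corank_le_exp (α := Fin n) C' k (by simpa using hn) (by simpa using hk)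
    have h2 : A.card * 2 ^ (C' * n) ≤ 2 ^ Fintype.card (Sym2 (Fin n)) := by
      simpa [hA, Fintype.card_fin] using h1
    have h3 : (A.card : ℝ) * 2 ^ (C' * n) ≤ 2 ^ Fintype.card (Sym2 (Fin n)) := by exact_mod_cast h2
    rw [one_div, inv_mul_eq_div, le_div_iff₀ (by positivity)]
    exact h3
  have hBc : (B.card : ℝ) ≤ ((y : ℝ) + (n : ℝ) ^ 2) * (Nat.choose n z * 4 ^ z) *
      q ^ (z - (Nat.clog 2 y + 1) * k) * 2 ^ Fintype.card (Sym2 (Fin n)) := by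
    have h1 := G.Kill.kill_count (α := Fin n) G.rows2 (G.core2 G.rows2) y D k z q hy hq hq1
    rw [Nat.card_eq_fintype_card, Fintype.card_subtype, Fintype.card_fin] at h1
    exact h1
  have h4 : (((univ : Finset (Bits n)).filter fun b => (matZ b).det ≠ 0 ∧ Kill ζ (matZ b) z).card : ℝ) ≤ A.card + B.card := by
    exact_mod_cast (card_le_card hcov).trans (card_union_le _ _)
  linarith

/-- the atom `q` is at most `5/2 n^(-(1/2-ζ))` -/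
theorem q_bound (ζ : ℝ) (n D : ℕ) (hζ : 0 < ζ) (hn : (1 : ℝ) ≤ n) (hDge : (n : ℝ) ^ (1 - ζ) ≤ (D : ℝ) + 1) :
    1 / (⌈(n : ℝ) ^ (1 / 2 - ζ)⌉₊ : ℕ) + 3 / 2 / Real.sqrt (D + 1) ≤ 5 / 2 * (n : ℝ) ^ (-(1 / 2 - ζ)) := by
  have hm0 : (0 : ℝ) < n := by linarith
  set yr : ℝ := (n : ℝ) ^ (1 / 2 - ζ) with hyr
  have hyr0 : 0 < yr := by positivity
  have hayr : (n : ℝ) ^ (-(1 / 2 - ζ)) = 1 / yr := by rw [Real.rpow_neg hm0.le, hyr]; exact (one_div _).symm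
  rw [hayr]
  have h1 : 1 / ((⌈yr⌉₊ : ℕ) : ℝ) ≤ 1 / yr := one_div_le_one_div_of_le hyr0 (Nat.le_ceil _)
  have h2 : yr ≤ Real.sqrt (D + 1) := by
    apply Real.le_sqrt_of_sq_le
    have h3 : yr ^ 2 = (n : ℝ) ^ (1 - 2 * ζ) := by
      rw [hyr, ← Real.rpow_natCast, ← Real.rpow_mul hm0.le]
      congr 1
      push_cast
      ring
    rw [h3]
    exact (Real.rpow_le_rpow_of_exponent_le hn (by linarith)).trans hDge
  have h3 : 3 / 2 / Real.sqrt (D + 1) ≤ 3 / 2 * (1 / yr) := by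
    rw [mul_one_div]
    exact div_le_div_of_nonneg_left (by norm_num) hyr0 h2
  linarith

theorem y_le (ζ : ℝ) (n : ℕ) (hζ : 0 < ζ) (hn : (1 : ℝ) ≤ n) : ⌈(n : ℝ) ^ (1 / 2 - ζ)⌉₊ ≤ n := by
  have h6 : (n : ℝ) ^ (1 / 2 - ζ) ≤ n := by
    calc (n : ℝ) ^ (1 / 2 - ζ) ≤ (n : ℝ) ^ (1 : ℝ) := Real.rpow_le_rpow_of_exponent_le hn (by linarith)
      _ = n := Real.rpow_one _
  exact Nat.ceil_le.2 h6

/-- the loss `r = (clog 2 y + 1) k` -/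
theorem r_bound (ζ ε : ℝ) (n C' : ℕ) (hζ : 0 < ζ) (hε : 0 < ε) (hn : (1 : ℝ) ≤ n) (hℓ0 : 0 < Real.logb 2 n)
    (h2 : 2 ≤ (n : ℝ) ^ (1 / 8 : ℝ)) (f3 : Real.logb 2 n ≤ (n : ℝ) ^ (1 / 8 : ℝ))
    (h12 : 12 * (Real.sqrt (2 * (C' + 12)) + 3) / ε ≤ (n : ℝ) ^ (1 / 8 : ℝ)) :
    (((Nat.clog 2 ⌈(n : ℝ) ^ (1 / 2 - ζ)⌉₊ + 1) * ⌈Real.sqrt (2 * (C' + 12) * n)⌉₊ : ℕ) : ℝ) * Real.logb 2 n ≤ ε * n / 4 := by
  have hm0 : (0 : ℝ) < n := by linarith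
  set ℓ := Real.logb 2 n with hℓ
  set y := ⌈(n : ℝ) ^ (1 / 2 - ζ)⌉₊ with hy
  set w : ℝ := (n : ℝ) ^ (1 / 8 : ℝ) with hw
  have hw0 : 0 < w := by positivity
  have hw8 : (n : ℝ) = w ^ 8 := by
    rw [hw, ← Real.rpow_natCast, ← Real.rpow_mul hm0.le]
    norm_num
  set c₁ := Real.sqrt (2 * (C' + 12)) with hc₁
  have hk2 : (⌈Real.sqrt (2 * (C' + 12) * n)⌉₊ : ℝ) ≤ c₁ * w ^ 4 + 1 := by
    have h2 : (⌈Real.sqrt (2 * (C' + 12) * n)⌉₊ : ℝ) ≤ Real.sqrt (2 * (C' + 12) * n) + 1 :=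
      (Nat.ceil_lt_add_one (Real.sqrt_nonneg _)).le
    have h3 : Real.sqrt (2 * (C' + 12) * n) = c₁ * Real.sqrt n := by
      rw [hc₁, Real.sqrt_mul (by positivity)]
    have h4 : Real.sqrt n = w ^ 4 := by
      rw [hw8, show w ^ 8 = (w ^ 4) ^ 2 by ring, Real.sqrt_sq (by positivity)]
    have h5 : c₁ * Real.sqrt n = c₁ * w ^ 4 := by rw [h4]
    linarith
  refine r_log ε c₁ w n (⌈Real.sqrt (2 * (C' + 12) * n)⌉₊ : ℝ) _ ℓ hε (Real.sqrt_nonneg _) h2 hw8 hk2 hℓ0 f3 ?_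
    (Nat.cast_nonneg _) h12
  rw [Nat.cast_mul, Nat.cast_add, Nat.cast_one]
  apply mul_le_mul_of_nonneg_right _ (Nat.cast_nonneg _)
  have h6 : Nat.clog 2 y ≤ Nat.clog 2 n := Nat.clog_mono_right 2 (y_le ζ n hζ hn)
  have h7 : (Nat.clog 2 n : ℝ) ≤ ℓ + 1 := by
    have h9 : ⌈Real.logb 2 n⌉₊ = Nat.clog 2 n := Real.natCeil_logb_natCast 2 n
    rw [← h9]
    exact (Nat.ceil_lt_add_one hℓ0.le).le
  have h8 : (Nat.clog 2 y : ℝ) ≤ Nat.clog 2 n := by exact_mod_cast h6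
  linarith

/-- the final numerical inequality -/
theorem final_num (ζ C ε δ q : ℝ) (n z r C' : ℕ) (hζ : 0 < ζ) (hζ2 : ζ < 1 / 2) (hε : 0 < ε) (hδ0 : 0 < δ)
    (hδ : 1 + δ = 2 ^ (ε / 4)) (hC' : C + 4 ≤ C') (hn : 1 ≤ n)
    (ha1 : (n : ℝ) ^ (-(1 / 2 - ζ)) ≤ 1) (hq0 : 0 ≤ q) (hqa : q ≤ 5 / 2 * (n : ℝ) ^ (-(1 / 2 - ζ))) (hℓ0 : 0 < Real.logb 2 n)
    (hz : (z : ℝ) * Real.logb 2 n ≤ C * n) (hℓ1 : 4 * C * |Real.logb 2 (10 / δ)| / ε ≤ Real.logb 2 n)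
    (hr : (r : ℝ) * Real.logb 2 n ≤ ε * n / 4) (h9 : 9 * (n : ℝ) ^ 2 ≤ 2 ^ (ε * n / 4)) :
    1 / 2 ^ (C' * n) + ((⌈(n : ℝ) ^ (1 / 2 - ζ)⌉₊ : ℕ) + (n : ℝ) ^ 2) * (Nat.choose n z * 4 ^ z) * q ^ (z - r) ≤
      (2 : ℝ) ^ (-((1 / 2 - ζ) * z * Real.logb 2 n) + ε * n) := by
  have hm1 : (1 : ℝ) ≤ n := by exact_mod_cast hn
  have hm0 : (0 : ℝ) < n := by linarith
  set ℓ : ℝ := Real.logb 2 n with hℓ
  have hmℓ : (n : ℝ) = 2 ^ ℓ := by rw [hℓ, Real.rpow_logb (by norm_num) (by norm_num) hm0]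
  set a : ℝ := (n : ℝ) ^ (-(1 / 2 - ζ)) with ha
  have ha0 : 0 < a := by positivity
  have hE1 : (1 : ℝ) ≤ 2 ^ (ε * n) := Real.one_le_rpow (by norm_num) (by positivity)
  have haℓ : a = 2 ^ (-(1 / 2 - ζ) * ℓ) := by
    rw [ha, hmℓ, ← Real.rpow_mul (by norm_num)]
    congr 1
    ring
  have hXp : 0 < a ^ z := by positivity
  have hX : (2 : ℝ) ^ (-((1 / 2 - ζ) * z * ℓ)) = a ^ z := by
    rw [haℓ, ← Real.rpow_natCast, ← Real.rpow_mul (by norm_num)]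
    congr 1
    ring
  have hXlow : (2 : ℝ) ^ (-(C * n)) ≤ a ^ z := by
    rw [← hX]
    apply Real.rpow_le_rpow_of_exponent_le (by norm_num)
    have h1 : (1 / 2 - ζ) * (z * ℓ) ≤ 1 * (z * ℓ) := by
      apply mul_le_mul_of_nonneg_right (by linarith) (by positivity)
    linarith
  have hk3 : (2 : ℝ) ^ (-(ε * n / 4)) ≤ a ^ r := by
    rw [haℓ, ← Real.rpow_natCast, ← Real.rpow_mul (by norm_num)]
    apply Real.rpow_le_rpow_of_exponent_le (by norm_num)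
    have h1 : (1 / 2 - ζ) * (r * ℓ) ≤ 1 * (r * ℓ) := by
      apply mul_le_mul_of_nonneg_right (by linarith) (by positivity)
    linarith
  have T1 := term1 C (2 ^ (ε * n)) (a ^ z) C' n hC' hn hE1 hXp hXlow
  have T3 := term3 ε C δ a q ℓ n z r hε hδ0 hδ ha0 ha1 hq0 hqa hℓ0 hz hℓ1 h9 hk3
  have hyn : ((⌈(n : ℝ) ^ (1 / 2 - ζ)⌉₊ : ℕ) : ℝ) ≤ n := by exact_mod_cast y_le ζ n hζ hm1
  have h7 : (((⌈(n : ℝ) ^ (1 / 2 - ζ)⌉₊ : ℕ) : ℝ) + (n : ℝ) ^ 2) * (Nat.choose n z * 4 ^ z) * q ^ (z - r) ≤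
      3 * (n : ℝ) ^ 2 * (Nat.choose n z * 4 ^ z) * q ^ (z - r) := by
    have h8 : ((⌈(n : ℝ) ^ (1 / 2 - ζ)⌉₊ : ℕ) : ℝ) + (n : ℝ) ^ 2 ≤ 3 * (n : ℝ) ^ 2 := by nlinarith
    gcongr
  rw [Real.rpow_add (by norm_num), hX]
  have h10 : 0 ≤ 2 ^ (ε * n) * a ^ z := by positivity
  calc _ ≤ 1 / 3 * (2 ^ (ε * n) * a ^ z) + 1 / 3 * (2 ^ (ε * n) * a ^ z) := add_le_add T1 (h7.trans T3)
    _ ≤ a ^ z * 2 ^ (ε * n) := by linarith

/-- **KILL** (`P` nonsingular): for every constant `C`, `z log₂ n ≤ C n` -/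
theorem kill_asymp (ζ : ℝ) (hζ : 0 < ζ) (hζ2 : ζ < 1 / 2) (C ε : ℝ) (hC : 0 < C) (hε : 0 < ε) : ∃ n₀ : ℕ, ∀ n ≥ n₀, ∀ z : ℕ,
    (z : ℝ) * Real.logb 2 n ≤ C * n → ∀ [DecidablePred fun b : Bits n => (matZ b).det ≠ 0 ∧ Kill ζ (matZ b) z],
    (((univ : Finset (Bits n)).filter fun b => (matZ b).det ≠ 0 ∧ Kill ζ (matZ b) z).card : ℝ) ≤
    (2 : ℝ) ^ (-((1 / 2 - ζ) * z * Real.logb 2 n) + ε * n) * 2 ^ Fintype.card (Sym2 (Fin n)) := by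
  obtain ⟨C', hC'⟩ := exists_nat_ge (C + 4)
  obtain ⟨δ, hδ⟩ : ∃ δ : ℝ, δ = 2 ^ (ε / 4) - 1 := ⟨_, rfl⟩
  have hδ0 : 0 < δ := by
    have : (1 : ℝ) < 2 ^ (ε / 4) := Real.one_lt_rpow (by norm_num) (by linarith)
    linarith
  obtain ⟨c₁, hc₁⟩ : ∃ c₁ : ℝ, c₁ = Real.sqrt (2 * (C' + 12)) := ⟨_, rfl⟩
  have hc₁0 : 0 ≤ c₁ := by rw [hc₁]; exact Real.sqrt_nonneg _
  have hM1 : 0 ≤ 4 * C * |Real.logb 2 (10 / δ)| / ε := by positivity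
  have hM2 : 0 ≤ 12 * (c₁ + 3) / ε := by positivity
  have hM3 : 0 ≤ 16 / ε := by positivity
  obtain ⟨m₀, hm₀⟩ := ev_facts ζ (100 + 4 * C * |Real.logb 2 (10 / δ)| / ε + 12 * (c₁ + 3) / ε + 16 / ε) hζ hζ2
  refine ⟨m₀, fun n hn z hz => ?_⟩
  intro inst
  obtain ⟨f1, f2, f3, f4, f5, f6⟩ := hm₀ n hn
  have hm100 : (100 : ℝ) ≤ n := by linarith
  have hn100 : 100 ≤ n := by exact_mod_cast hm100
  have hm0 : (0 : ℝ) < n := by linarith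
  have hm1 : (1 : ℝ) ≤ n := by linarith
  have hℓ0 : 0 < Real.logb 2 n := by linarith
  rcases Nat.eq_zero_or_pos z with hz0 | hz0
  · subst hz0
    have h1 : (((univ : Finset (Bits n)).filter fun b => (matZ b).det ≠ 0 ∧ Kill ζ (matZ b) 0).card : ℝ) ≤
        2 ^ Fintype.card (Sym2 (Fin n)) := by
      have h2 := Finset.card_filter_le (univ : Finset (Bits n)) (fun b => (matZ b).det ≠ 0 ∧ Kill ζ (matZ b) 0)
      rw [Finset.card_univ, Fintype.card_fun, Fintype.card_bool] at h2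
      exact_mod_cast h2
    refine h1.trans (le_mul_of_one_le_left (by positivity) (Real.one_le_rpow (by norm_num) ?_))
    simp only [Nat.cast_zero, mul_zero, zero_mul, neg_zero, zero_add]
    positivity
  have hyr0 : 0 < (n : ℝ) ^ (1 / 2 - ζ) := by positivity
  have hy2 : 2 ≤ ⌈(n : ℝ) ^ (1 / 2 - ζ)⌉₊ := by
    have h1 : (2 : ℝ) ≤ ⌈(n : ℝ) ^ (1 / 2 - ζ)⌉₊ := le_trans (by linarith) (Nat.le_ceil ((n : ℝ) ^ (1 / 2 - ζ)))
    exact_mod_cast h1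
  have hdr0 : 0 < (n : ℝ) ^ (1 - ζ) := by positivity
  have hc1 : 1 ≤ ⌈(n : ℝ) ^ (1 - ζ)⌉₊ := Nat.one_le_iff_ne_zero.2 (by rw [Ne, Nat.ceil_eq_zero, not_le]; exact hdr0)
  obtain ⟨D, hD⟩ : ∃ D : ℕ, ⌈(n : ℝ) ^ (1 - ζ)⌉₊ = D + 1 := ⟨_, (Nat.sub_add_cancel hc1).symm⟩
  have hD1 : ((D : ℕ) : ℝ) + 1 = (⌈(n : ℝ) ^ (1 - ζ)⌉₊ : ℝ) := by rw [hD]; push_cast; ring
  have hDlt : (D : ℝ) < (n : ℝ) ^ (1 - ζ) := by
    have := Nat.ceil_lt_add_one hdr0.le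
    linarith
  have hDge : (n : ℝ) ^ (1 - ζ) ≤ (D : ℝ) + 1 := by rw [hD1]; exact Nat.le_ceil _
  have ha1 : (n : ℝ) ^ (-(1 / 2 - ζ)) ≤ 1 / 100 := by
    have h1 : (n : ℝ) ^ (-(1 / 2 - ζ)) = 1 / (n : ℝ) ^ (1 / 2 - ζ) := by rw [Real.rpow_neg hm0.le]; exact (one_div _).symm
    rw [h1]
    exact one_div_le_one_div_of_le (by norm_num) (by linarith)
  have hqa := q_bound ζ n D hζ hm1 hDge
  have hk1 : 2 * (C' + 12) * n ≤ ⌈Real.sqrt (2 * (C' + 12) * n)⌉₊ ^ 2 := by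
    have h1 : Real.sqrt (2 * (C' + 12) * n) ≤ ⌈Real.sqrt (2 * (C' + 12) * n)⌉₊ := Nat.le_ceil _
    have h2 : (2 * (C' + 12) * n : ℝ) ≤ (⌈Real.sqrt (2 * (C' + 12) * n)⌉₊ : ℝ) ^ 2 := by
      calc (2 * (C' + 12) * n : ℝ) = Real.sqrt (2 * (C' + 12) * n) ^ 2 := (Real.sq_sqrt (by positivity)).symm
        _ ≤ _ := pow_le_pow_left₀ (Real.sqrt_nonneg _) h1 2
    exact_mod_cast h2
  have hr := r_bound ζ ε n C' hζ hε hm1 hℓ0 (by linarith) f3 (by rw [← hc₁]; linarith)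
  have hw8 : (n : ℝ) = ((n : ℝ) ^ (1 / 8 : ℝ)) ^ 8 := by
    rw [← Real.rpow_natCast, ← Real.rpow_mul hm0.le]
    norm_num
  have hmℓ : (n : ℝ) = 2 ^ (Real.logb 2 n) := by rw [Real.rpow_logb (by norm_num) (by norm_num) hm0]
  have h9 := nine ε ((n : ℝ) ^ (1 / 8 : ℝ)) n (Real.logb 2 n) hε (by linarith) hw8 f3 hmℓ (by linarith)
  have hq0 : 0 ≤ 1 / ((⌈(n : ℝ) ^ (1 / 2 - ζ)⌉₊ : ℕ) : ℝ) + 3 / 2 / Real.sqrt (D + 1) := by positivity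
  have hfin := kill_finite ζ n z D ⌈Real.sqrt (2 * (C' + 12) * n)⌉₊ C'
    (1 / ((⌈(n : ℝ) ^ (1 / 2 - ζ)⌉₊ : ℕ) : ℝ) + 3 / 2 / Real.sqrt (D + 1)) (by omega) hz0 hy2 hDlt rfl
    (hqa.trans (by linarith)) hk1
  refine hfin.trans (mul_le_mul_of_nonneg_right ?_ (by positivity))
  exact final_num ζ C ε δ _ n z _ C' hζ hζ2 hε hδ0 (by rw [hδ]; ring) hC' (by omega) (by linarith) hq0 hqa hℓ0 hz
    (by linarith) hr h9

/-- **`StmtM (1/4) 1 ζ`** -/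
theorem stmtM_quarter (ζ : ℝ) (hζ : 0 < ζ) (hζ2 : ζ < 1 / 16) : StmtM (1 / 4) 1 ζ := by
  classical
  intro ε hε
  obtain ⟨n₀, h₀⟩ := kill_asymp ζ hζ (by linarith) 4 ε (by norm_num) hε
  refine ⟨max n₀ 2, fun n hn z t hz => ?_⟩
  have hn1 : n₀ ≤ n := (le_max_left _ _).trans hn
  have hn2 : 2 ≤ n := (le_max_right _ _).trans hn
  have hn0 : (0 : ℝ) < n := by exact_mod_cast (by omega : 0 < n)
  by_cases ht : 4 * t ≤ n
  · have h1 := h₀ n hn1 z hz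
    have h2 : (((univ : Finset (Bits n)).filter fun b => (matZ b).det ≠ 0 ∧ Kill ζ (matZ b) z ∧ t ≤ N2 1 (matZ b)).card : ℝ) ≤
        (((univ : Finset (Bits n)).filter fun b => (matZ b).det ≠ 0 ∧ Kill ζ (matZ b) z).card : ℝ) := by
      exact_mod_cast card_le_card (fun b hb => by
        rw [mem_filter] at hb ⊢
        exact ⟨hb.1, hb.2.1, hb.2.2.1⟩)
    refine (h2.trans h1).trans (mul_le_mul_of_nonneg_right (Real.rpow_le_rpow_of_exponent_le (by norm_num) ?_) (by positivity))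
    have h3 : max 0 (1 - 2 * 1 * (z * Real.logb 2 n / n)) ≤ (1 : ℝ) := by
      apply max_le (by norm_num)
      have : 0 ≤ (z : ℝ) * Real.logb 2 n / n := by
        have : 0 ≤ Real.logb 2 n := Real.logb_nonneg (by norm_num) (by exact_mod_cast (by omega : 1 ≤ n))
        positivity
      linarith
    have h4 : (t : ℝ) * max 0 (1 - 2 * 1 * (z * Real.logb 2 n / n)) ≤ t * 1 :=
      mul_le_mul_of_nonneg_left h3 (Nat.cast_nonneg _)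
    have h5 : (4 : ℝ) * t ≤ n := by exact_mod_cast ht
    linarith
  · have h1 : ((univ : Finset (Bits n)).filter fun b => (matZ b).det ≠ 0 ∧ Kill ζ (matZ b) z ∧ t ≤ N2 1 (matZ b)) = ∅ := by
      apply Finset.filter_eq_empty_iff.2
      rintro b - ⟨hdet, -, htN⟩
      have := N2_le hn2 b hdet
      omega
    rw [h1]
    simp only [Finset.card_empty, Nat.cast_zero]
    positivity

end Vale.Agent.P160.Half.F.M955
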