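import Vale.Agent.P160.Half.Fin.FMain
import Vale.Agent.P160.Half.Fin.Sel255
import Vale.Agent.P160.Half.Fin.M14
import Vale.Agent.P160.Half.Fin.Cor221
import Vale.Agent.P160.Half.Fin.Eta1
import Vale.Agent.P160.Half.SparseAll
import Vale.Agent.P160.Half.TameDone
import Vale.Agent.P160.Half.End.Adapt

/-! # P160, rate 1/2: composition (hypotheses = the pieces which are not on main yet) -/

namespace Vale.Agent.P160.Half.F.Top

open Finset Matrix Vale.Agent.P160.Half Vale.Agent.P160.Half.A Vale.Agent.P160.Half.F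

theorem finalStmt : FinalStmt := final Sel255.sel

theorem sparseStmt : SparseStmt := by
  intro d ε hd hε
  obtain ⟨n₀, h⟩ := SparseAll.sparse_all d ε hd hε
  exact ⟨n₀, fun n hn => h n hn⟩

theorem tameStmt : TameStmt := by
  intro d e hd he
  obtain ⟨A, n₀, h⟩ := Tame.tame d e hd he
  exact ⟨A, n₀, fun n hn => h n hn⟩

/-- loss 1/4: no input (M) -/
theorem cor1_quarter (hR : RichSmall) (hCnt : ∀ ζ : ℝ, 0 < ζ → ζ < 1 / 16 → CntStmt ζ) : Cor1 (1 / 4) :=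
  finalStmt (1 / 4) 1 (by norm_num) le_rfl hR (fun ζ h0 h1 => M955.stmtM_quarter ζ h0 h1) sparseStmt tameStmt midStmt_one corStmt hCnt

/-- one `β` -/
theorem cor1_of (lam β : ℝ) (h0 : 0 ≤ lam) (hβ : 1 ≤ β) (hR : RichSmall) (hM : ∀ ζ : ℝ, 0 < ζ → ζ < 1 / 16 → StmtM lam β ζ)
    (hMid : MidStmt β) (hCnt : ∀ ζ : ℝ, 0 < ζ → ζ < 1 / 16 → CntStmt ζ) : Cor1 lam :=
  finalStmt lam β h0 hβ hR hM sparseStmt tameStmt hMid corStmt hCnt

/-- **the full chain**: `β → 2` -/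
theorem cor1_zero (hR : RichSmall)
    (hM : ∀ lam : ℝ, 0 < lam → ∃ β : ℝ, 1 ≤ β ∧ β < 2 ∧ ∀ ζ : ℝ, 0 < ζ → ζ < 1 / 16 → StmtM lam β ζ)
    (hMid : ∀ β : ℝ, 1 ≤ β → β < 2 → MidStmt β) (hCnt : ∀ ζ : ℝ, 0 < ζ → ζ < 1 / 16 → CntStmt ζ) : Cor1 0 :=
  End288.cor1_zero fun lam hlam => by
    obtain ⟨β, h1, h2, h3⟩ := hM lam hlam
    exact cor1_of lam β hlam.le h1 hR h3 (hMid β h1 h2) hCnt

end Vale.Agent.P160.Half.F.Top
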