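import Vale.Agent.P160.Half.Fin.LinkK535
import Vale.Agent.P160.Half.Fin.KillM456
import Vale.Agent.P160.Half.Fin.Top
import Vale.Agent.P160.Half.MomTop836
import Vale.Agent.P160.Half.Mid.MidF184
import Vale.Agent.P160.Half.GFin
import Vale.Agent.P160.Half.Rich
import Vale.Agent.P160.Half.Fin.Cnt262
import Vale.Agent.P160.Half.RowHyp537
import Vale.Agent.P160.Half.M67Close
import Vale.Agent.P160.Half.Fin.KillAs456
import Vale.Agent.P160.Half.MProd358
import Vale.Agent.P160.Half.M8NG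
import Vale.Agent.P160.Half.M8Mom
import Vale.Agent.P160.Half.M8Even
import Vale.Agent.P160.Half.M8Key
import Vale.Agent.P160.Half.Sparse807

/-! # P160: the full composition, rate 1/2 (no hypotheses left) -/

namespace Vale.Agent.P160.Half.Full751

open Vale.Agent.P160.Half

theorem notGood : M8.NotGoodStmt := M8.notGood (M8.mom (M8.even M8.key))

theorem xi (b₁ B : ℝ) (hb : 1 ≤ b₁) : M8.StmtXi b₁ (2 * (622 / 10000) + 1 / 10000) (3 / 5) B := by
  have h := M67.close (β := 2 * (622 / 10000) + 1 / 10000) (by norm_num) (by norm_num)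
    (MomTop836.mom 3 (by norm_num) (2 * (622 / 10000) + 1 / 10000) (by norm_num) (by norm_num)) Sp807.stmtSparse b₁ (3 / 5)
      (max b₁ B) hb (le_max_left _ _) (by norm_num)
  obtain ⟨k₀, hk⟩ := h
  refine ⟨max k₀ 1, fun k h1 N hN hp hβ => ?_⟩
  refine hk k (le_trans (le_max_left _ _) h1) N hN (fun p pp pd => ⟨(hp p pp pd).1, ?_⟩) hβ
  refine (hp p pp pd).2.trans (Real.rpow_le_rpow_of_exponent_le ?_ (le_max_right _ _))
  have : 1 ≤ k := le_trans (le_max_right _ _) h1
  exact_mod_cast this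

theorem row (b₁ : ℝ) (hb : 199 / 100 ≤ b₁) : MProd.RowHyp b₁ :=
  RowHyp537.rowHyp notGood b₁ (1 / 5) hb (by norm_num) (by norm_num)
    (fun B => ⟨3 / 5, 1 / 10000, by norm_num, by norm_num, by norm_num, xi b₁ B (by linarith)⟩)

theorem stmtM (lam : ℝ) (hl : 0 < lam) :
    ∃ β : ℝ, 1 ≤ β ∧ β < 2 ∧ ∀ ζ : ℝ, 0 < ζ → ζ < 1 / 16 → F.StmtM lam β ζ := by
  have h1 : (0 : ℝ) < 1 + 8 * lam := by positivity
  refine ⟨max (199 / 100) (2 / (1 + 8 * lam)), le_trans (by norm_num) (le_max_left _ _), max_lt (by norm_num) ?_, ?_⟩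
  · rw [div_lt_iff₀ h1]; linarith
  · intro ζ h0 h2
    have hb : (199 / 100 : ℝ) ≤ max (199 / 100) (2 / (1 + 8 * lam)) := le_max_left _ _
    refine F.stmtM_bridge (by linarith) hl.le ?_ h0.le (by linarith) (MProd.stmtM_prod _ (by linarith) (row _ hb))
      (F.K456.killStmt ζ h0 (by linarith)) (F.K456.killM ζ h0 (by linarith))
    have h3 : 2 / (1 + 8 * lam) ≤ max (199 / 100) (2 / (1 + 8 * lam)) := le_max_right _ _
    have h4 : 0 < max (199 / 100 : ℝ) (2 / (1 + 8 * lam)) := by linarith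
    rw [div_le_iff₀ h1] at h3
    rw [div_le_iff₀ (by positivity)]
    nlinarith

/-- **the corank-one bound with the sharp rate** -/
theorem cor1 : F.Cor1 0 :=
  F.Top.cor1_zero (A.rich_of_G G.stmtG) stmtM (fun β h1 h2 => Mid184.midStmt (by linarith) h2) F.Cnt262.cnt

theorem corOne : End288.CorOne := by
  have h := End288.corOneR_of_cor1 0 cor1
  have e : (2 : ℝ) ^ (-(1 - (0 : ℝ))) = 1 / 2 := by
    rw [sub_zero, Real.rpow_neg_one]; norm_num
  rw [e] at h
  exact h

/-- **the rate is 1/2** -/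
theorem limit : Filter.Tendsto (fun n => End288.q n ^ (1 / (n : ℝ))) Filter.atTop (nhds (1 / 2)) :=
  End288.final corOne

end Vale.Agent.P160.Half.Full751
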