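import Vale.Agent.P160.Half.Kill456
import Vale.Agent.P160.Half.Rows2
import Vale.Agent.P160.Half.MTop
import Vale.Agent.P160.Half.Fin.FStmt
import Vale.Agent.P160.Half.Fin.CntNum

/-! # P160, rate 1/2: the killed lemma in asymptotic form, sizes `m ∈ [n - τ, n]`, moduli with parameter `n` (helper12)

`killed` : nonsingular symmetric 0/1 matrices of size `m`, `n - τ ≤ m ≤ n`, moduli `q_p = qp ζ n p`, at least `⌈n^(1-ζ)⌉` unit coordinates.
`killF` : the case `m = n` in the form used in `FStmt`. -/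

set_option linter.unusedVariables false

namespace Vale.Agent.P160.Half.F.K12

open Finset Matrix Vale.Agent.P160.Half Vale.Agent.P160.Half.G

/-- the moduli -/
def Qz (ζ : ℝ) (n : ℕ) (q : ℕ) : Prop := ∃ p : ℕ, p.Prime ∧ q = F.qp ζ n p

theorem corlt_exc {m : ℕ} (hm : 1 ≤ m) (C k : ℕ) (hk : 2 * (C + 12) * m ≤ k ^ 2) :
    Nat.card {b : Sym2 (Fin m) → Bool // ¬ CorLt (matZ b) k} * 2 ^ (C * m) ≤ 2 ^ Fintype.card (Sym2 (Fin m)) := by
  classical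
  have h := card_corank_le_exp (α := Fin m) C k (by rw [Fintype.card_fin]; exact hm) (by rw [Fintype.card_fin]; exact hk)
  rw [Fintype.card_fin] at h
  refine le_trans (Nat.mul_le_mul_right _ ?_) h
  rw [Nat.card_eq_fintype_card, Fintype.card_subtype]
  refine card_le_card fun b hb => ?_
  rw [mem_filter] at hb ⊢
  refine ⟨mem_univ _, ?_⟩
  have h1 := hb.2
  unfold CorLt at h1
  push Not at h1
  obtain ⟨p, hp, T, hT⟩ := h1
  exact ⟨p, ⟨hp⟩, T, hT⟩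

/-- the real inequalities -/
theorem num {ζ ε : ℝ} (hζ0 : 0 < ζ) (hζ : ζ < 1 / 2) (hε : 0 < ε) (R : ℝ) : ∃ n₀ : ℕ, ∀ n ≥ n₀, ∀ m ≤ n, ∀ y D k z : ℕ,
    (n : ℝ) ^ (1 / 2 - ζ) ≤ y → y ≤ n → (n : ℝ) ^ (1 - ζ) ≤ (D : ℝ) + 1 → (k : ℝ) ≤ R * Real.sqrt n →
    (z : ℝ) * Real.logb 2 n ≤ 4 * n →
    2 ≤ y ∧ (1 / (y : ℝ) + 3 / 2 / Real.sqrt (D + 1) ≤ 1) ∧
    ((y : ℝ) + (m : ℝ) ^ 2) * (m.choose z * 4 ^ z) * (1 / (y : ℝ) + 3 / 2 / Real.sqrt (D + 1)) ^ (z - (Nat.clog 2 y + 1) * k) ≤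
      (2 : ℝ) ^ (-((1 / 2 - ζ) * z * Real.logb 2 n) + ε * n) := by
  obtain ⟨n1, h1⟩ := CntNum.sum_choose_two_le 4 (show 0 < ε / 4 by linarith)
  obtain ⟨n2, h2⟩ := CntNum.pow_le_of_logb 16 4 (by norm_num) (show 0 < ε / 4 by linarith)
  obtain ⟨n3, h3⟩ := CntNum.rpow_logb_le 3 (a := 0) (by norm_num) (show 0 < ε / 4 by linarith)
  obtain ⟨n4, h4⟩ := CntNum.rpow_logb_le 1 (a := 3 / 4) (by norm_num) (show (0 : ℝ) < 1 by norm_num)
  obtain ⟨n5, h5⟩ := CntNum.rpow_logb_le (3 / 2 * |R|) (a := 3 / 4) (by norm_num) (show 0 < ε / 4 by linarith)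
  set a : ℝ := 1 / 2 - ζ with ha
  have ha0 : 0 < a := by rw [ha]; linarith
  have ha1 : a ≤ 1 / 2 := by rw [ha]; linarith
  obtain ⟨n6, h6⟩ : ∃ n6 : ℕ, ∀ n ≥ n6, (4 : ℝ) ≤ (n : ℝ) ^ a := by
    have := (tendsto_rpow_atTop ha0).comp tendsto_natCast_atTop_atTop
    exact Filter.eventually_atTop.1 (this.eventually_ge_atTop 4)
  refine ⟨max (max (max n1 n2) (max n3 n4)) (max (max n5 n6) 2), fun n hn m hm y D k z hy hyn hD hk hz => ?_⟩
  have e1 : n1 ≤ n := le_trans (le_trans (le_max_left _ _) (le_trans (le_max_left _ _) (le_max_left _ _))) hn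
  have e2 : n2 ≤ n := le_trans (le_trans (le_max_right _ _) (le_trans (le_max_left _ _) (le_max_left _ _))) hn
  have e3 : n3 ≤ n := le_trans (le_trans (le_max_left _ _) (le_trans (le_max_right _ _) (le_max_left _ _))) hn
  have e4 : n4 ≤ n := le_trans (le_trans (le_max_right _ _) (le_trans (le_max_right _ _) (le_max_left _ _))) hn
  have e5 : n5 ≤ n := le_trans (le_trans (le_max_left _ _) (le_trans (le_max_left _ _) (le_max_right _ _))) hn
  have e6 : n6 ≤ n := le_trans (le_trans (le_max_right _ _) (le_trans (le_max_left _ _) (le_max_right _ _))) hn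
  have e7 : 2 ≤ n := le_trans (le_trans (le_max_right _ _) (le_max_right _ _)) hn
  have hn0 : (0 : ℝ) < n := by exact_mod_cast (by omega : 0 < n)
  have hn2 : (2 : ℝ) ≤ n := by exact_mod_cast e7
  set L := Real.logb 2 n with hL
  have hL1 : 1 ≤ L := by
    rw [hL, Real.le_logb_iff_rpow_le (by norm_num) hn0, Real.rpow_one]
    exact hn2
  have hnL : (2 : ℝ) ^ L = n := by rw [hL, Real.rpow_logb (by norm_num) (by norm_num) hn0]
  have f6 := h6 n e6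
  have hy4 : (4 : ℝ) ≤ y := f6.trans hy
  have hy2 : 2 ≤ y := by
    have : (4 : ℕ) ≤ y := by exact_mod_cast hy4
    omega
  have hna : (0 : ℝ) < (n : ℝ) ^ a := by positivity
  -- the atom
  set q : ℝ := 1 / (y : ℝ) + 3 / 2 / Real.sqrt (D + 1) with hq
  have hsD : (n : ℝ) ^ a ≤ Real.sqrt (D + 1) := by
    have g1 : (n : ℝ) ^ a ≤ ((n : ℝ) ^ (1 - ζ)) ^ (1 / 2 : ℝ) := by
      rw [← Real.rpow_mul hn0.le]
      refine Real.rpow_le_rpow_of_exponent_le (by linarith) ?_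
      rw [ha]
      linarith
    rw [← Real.sqrt_eq_rpow] at g1
    exact g1.trans (Real.sqrt_le_sqrt hD)
  have hq4 : q ≤ 4 * ((n : ℝ) ^ a)⁻¹ := by
    have g1 : 1 / (y : ℝ) ≤ ((n : ℝ) ^ a)⁻¹ := by
      rw [one_div]
      exact inv_anti₀ hna hy
    have g2 : 3 / 2 / Real.sqrt (D + 1) ≤ 3 / 2 * ((n : ℝ) ^ a)⁻¹ := by
      rw [div_eq_mul_inv (3 / 2 : ℝ) (Real.sqrt (D + 1))]
      exact mul_le_mul_of_nonneg_left (inv_anti₀ hna hsD) (by norm_num)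
    have g3 : (0 : ℝ) < ((n : ℝ) ^ a)⁻¹ := by positivity
    rw [hq]
    linarith
  have hq1 : 4 * ((n : ℝ) ^ a)⁻¹ ≤ 1 := by
    rw [← div_eq_mul_inv, div_le_one hna]
    exact f6
  have hq0 : 0 ≤ q := by rw [hq]; positivity
  refine ⟨hy2, hq4.trans hq1, ?_⟩
  -- the factors
  have F1 : (m.choose z : ℝ) ≤ (2 : ℝ) ^ (ε / 4 * n) := by
    refine le_trans ?_ (h1 n e1 z hz)
    calc (m.choose z : ℝ) ≤ ((2 * n).choose z : ℝ) := by
          exact_mod_cast Nat.choose_le_choose z (by omega)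
      _ ≤ ∑ i ∈ range (z + 1), ((2 * n).choose i : ℝ) :=
          single_le_sum (f := fun i => ((2 * n).choose i : ℝ)) (fun i _ => Nat.cast_nonneg _) (mem_range.2 (by omega))
  have F2 : (16 : ℝ) ^ z ≤ (2 : ℝ) ^ (ε / 4 * n) := h2 n e2 z hz
  have F3 : (y : ℝ) + (m : ℝ) ^ 2 ≤ (2 : ℝ) ^ (ε / 4 * n) := by
    have g1 : (y : ℝ) ≤ (n : ℝ) ^ 2 := by
      have : (y : ℝ) ≤ n := by exact_mod_cast hyn
      nlinarith
    have g2 : (m : ℝ) ^ 2 ≤ (n : ℝ) ^ 2 := by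
      have : (m : ℝ) ≤ n := by exact_mod_cast hm
      exact pow_le_pow_left₀ (Nat.cast_nonneg _) this 2
    have g3 : 2 * (n : ℝ) ^ 2 = (2 : ℝ) ^ (1 + 2 * L) := by
      rw [Real.rpow_add (by norm_num), Real.rpow_one, mul_comm 2 L, Real.rpow_mul (by norm_num), hnL]
      norm_num
    have g4 := h3 n e3
    rw [Real.rpow_zero, mul_one] at g4
    calc (y : ℝ) + (m : ℝ) ^ 2 ≤ 2 * (n : ℝ) ^ 2 := by linarith
      _ = (2 : ℝ) ^ (1 + 2 * L) := g3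
      _ ≤ (2 : ℝ) ^ (ε / 4 * n) := Real.rpow_le_rpow_of_exponent_le (by norm_num) (by linarith)
  set r : ℕ := (Nat.clog 2 y + 1) * k with hr
  have F4 : a * r * L ≤ ε / 4 * n := by
    have g1 : (Nat.clog 2 y : ℝ) ≤ L + 1 := by
      have g2 : Nat.clog 2 y ≤ Nat.clog 2 n := Nat.clog_mono_right 2 hyn
      have g3 : (Nat.clog 2 n : ℝ) ≤ L + 1 := by
        have g4 : Nat.clog 2 n - 1 < Nat.clog 2 n := by
          have := Nat.clog_pos (by norm_num : 1 < 2) e7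
          omega
        have g5 : 2 ^ (Nat.clog 2 n - 1) < n := by
          by_contra hcon
          exact absurd (Nat.clog_le_of_le_pow (not_lt.1 hcon)) (not_le.2 g4)
        have g6 : ((Nat.clog 2 n - 1 : ℕ) : ℝ) ≤ L := by
          rw [hL, Real.le_logb_iff_rpow_le (by norm_num) hn0, Real.rpow_natCast]
          exact_mod_cast g5.le
        have g7 : (Nat.clog 2 n : ℝ) ≤ ((Nat.clog 2 n - 1 : ℕ) : ℝ) + 1 := by
          exact_mod_cast (by omega : Nat.clog 2 n ≤ (Nat.clog 2 n - 1) + 1)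
        linarith
      exact le_trans (by exact_mod_cast g2) g3
    have g2 : (r : ℝ) ≤ 3 * L * (|R| * Real.sqrt n) := by
      rw [hr]
      push_cast
      refine mul_le_mul (by linarith) (hk.trans ?_) (Nat.cast_nonneg _) (by linarith)
      exact mul_le_mul_of_nonneg_right (le_abs_self R) (Real.sqrt_nonneg _)
    have g3 : L ≤ (n : ℝ) ^ (1 / 4 : ℝ) := by
      have g4 := h4 n e4
      have g5 : (n : ℝ) = (n : ℝ) ^ (3 / 4 : ℝ) * (n : ℝ) ^ (1 / 4 : ℝ) := by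
        rw [← Real.rpow_add hn0]
        norm_num
      have g6 : (0 : ℝ) < (n : ℝ) ^ (3 / 4 : ℝ) := by positivity
      have g7 : (n : ℝ) ^ (3 / 4 : ℝ) * L ≤ (n : ℝ) ^ (3 / 4 : ℝ) * (n : ℝ) ^ (1 / 4 : ℝ) := by
        rw [← g5]
        linarith
      exact le_of_mul_le_mul_left g7 g6
    have g4 : L * Real.sqrt n ≤ (n : ℝ) ^ (3 / 4 : ℝ) := by
      have g5 : (n : ℝ) ^ (3 / 4 : ℝ) = (n : ℝ) ^ (1 / 4 : ℝ) * Real.sqrt n := by
        rw [Real.sqrt_eq_rpow, ← Real.rpow_add hn0]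
        norm_num
      rw [g5]
      exact mul_le_mul_of_nonneg_right g3 (Real.sqrt_nonneg _)
    have g5 := h5 n e5
    have g6 : 0 ≤ |R| := abs_nonneg _
    calc a * r * L ≤ 1 / 2 * (3 * L * (|R| * Real.sqrt n)) * L := by
          refine mul_le_mul_of_nonneg_right ?_ (by linarith)
          exact mul_le_mul ha1 g2 (Nat.cast_nonneg _) (by norm_num)
      _ = 3 / 2 * |R| * (L * Real.sqrt n) * L := by ring
      _ ≤ 3 / 2 * |R| * (n : ℝ) ^ (3 / 4 : ℝ) * L := by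
          refine mul_le_mul_of_nonneg_right ?_ (by linarith)
          exact mul_le_mul_of_nonneg_left g4 (by positivity)
      _ ≤ ε / 4 * n := g5
  -- the power of the atom
  have hinv : ((n : ℝ) ^ a)⁻¹ = (2 : ℝ) ^ (-(a * L)) := by
    rw [Real.rpow_neg (by norm_num), mul_comm a L, Real.rpow_mul (by norm_num), hnL]
  have F5 : q ^ (z - r) ≤ (4 : ℝ) ^ z * (2 : ℝ) ^ (a * r * L - a * z * L) := by
    rcases le_total z r with hzr | hzr
    · rw [Nat.sub_eq_zero_of_le hzr, pow_zero]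
      have g1 : (1 : ℝ) ≤ (4 : ℝ) ^ z := one_le_pow₀ (by norm_num)
      have g2 : (1 : ℝ) ≤ (2 : ℝ) ^ (a * r * L - a * z * L) := by
        refine Real.one_le_rpow (by norm_num) ?_
        have g3 : (z : ℝ) ≤ r := by exact_mod_cast hzr
        have g4 : 0 ≤ a * L * ((r : ℝ) - z) := by
          have : 0 ≤ (r : ℝ) - z := by linarith
          positivity
        nlinarith
      nlinarith
    · calc q ^ (z - r) ≤ (4 * ((n : ℝ) ^ a)⁻¹) ^ (z - r) := pow_le_pow_left₀ hq0 hq4 _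
        _ = (4 : ℝ) ^ (z - r) * (2 : ℝ) ^ (a * r * L - a * z * L) := by
            rw [mul_pow, hinv, ← Real.rpow_natCast ((2 : ℝ) ^ (-(a * L))) (z - r), ← Real.rpow_mul (by norm_num)]
            congr 2
            rw [Nat.cast_sub hzr]
            ring
        _ ≤ (4 : ℝ) ^ z * (2 : ℝ) ^ (a * r * L - a * z * L) := by
            refine mul_le_mul_of_nonneg_right ?_ (by positivity)
            exact pow_le_pow_right₀ (by norm_num) (Nat.sub_le _ _)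
  calc ((y : ℝ) + (m : ℝ) ^ 2) * (m.choose z * 4 ^ z) * q ^ (z - r)
      ≤ (2 : ℝ) ^ (ε / 4 * n) * ((2 : ℝ) ^ (ε / 4 * n) * 4 ^ z) * ((4 : ℝ) ^ z * (2 : ℝ) ^ (a * r * L - a * z * L)) := by
        refine mul_le_mul ?_ F5 (by positivity) (by positivity)
        refine mul_le_mul F3 ?_ (by positivity) (by positivity)
        exact mul_le_mul_of_nonneg_right F1 (by positivity)
    _ = (2 : ℝ) ^ (ε / 4 * n) * (2 : ℝ) ^ (ε / 4 * n) * (16 : ℝ) ^ z * (2 : ℝ) ^ (a * r * L - a * z * L) := by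
        rw [show (16 : ℝ) = 4 * 4 by norm_num, mul_pow]
        ring
    _ ≤ (2 : ℝ) ^ (ε / 4 * n) * (2 : ℝ) ^ (ε / 4 * n) * (2 : ℝ) ^ (ε / 4 * n) * (2 : ℝ) ^ (ε / 4 * n - a * z * L) := by
        refine mul_le_mul ?_ ?_ (by positivity) (by positivity)
        · exact mul_le_mul_of_nonneg_left F2 (by positivity)
        · exact Real.rpow_le_rpow_of_exponent_le (by norm_num) (by linarith)
    _ = (2 : ℝ) ^ (-(a * z * L) + ε * n) := by
        rw [← Real.rpow_add (by norm_num), ← Real.rpow_add (by norm_num), ← Real.rpow_add (by norm_num)]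
        congr 1
        ring

/-- **the killed lemma** at sizes `m ∈ [n - τ, n]`, nonsingular matrices -/
theorem killed {ζ ε : ℝ} (hζ0 : 0 < ζ) (hζ : ζ < 1 / 2) (hε : 0 < ε) (τ : ℕ) : ∃ n₀ : ℕ, ∀ n ≥ n₀, ∀ m : ℕ, n ≤ m + τ → m ≤ n →
    ∀ z : ℕ, (z : ℝ) * Real.logb 2 n ≤ 4 * n →
    (Nat.card {b : Sym2 (Fin m) → Bool // (matZ b).det ≠ 0 ∧ MTop.Kill (Qz ζ n) ⌈(n : ℝ) ^ (1 - ζ)⌉₊ z (matZ b)} : ℝ) ≤
      (2 : ℝ) ^ (-((1 / 2 - ζ) * z * Real.logb 2 n) + ε * n) * 2 ^ Fintype.card (Sym2 (Fin m)) := by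
  classical
  obtain ⟨n1, h1⟩ := num hζ0 hζ (show 0 < ε / 2 by linarith) 7
  refine ⟨max (max n1 (3 * τ + 1)) (max ⌈2 / ε⌉₊ 2), fun n hn m hm hmn z hz => ?_⟩
  have e1 : n1 ≤ n := le_trans (le_trans (le_max_left _ _) (le_max_left _ _)) hn
  have e2 : 3 * τ + 1 ≤ n := le_trans (le_trans (le_max_right _ _) (le_max_left _ _)) hn
  have e3 : ⌈2 / ε⌉₊ ≤ n := le_trans (le_trans (le_max_left _ _) (le_max_right _ _)) hn
  have e4 : 2 ≤ n := le_trans (le_trans (le_max_right _ _) (le_max_right _ _)) hn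
  have hn0 : (0 : ℝ) < n := by exact_mod_cast (by omega : 0 < n)
  have hn1 : (1 : ℝ) ≤ n := by exact_mod_cast (by omega : 1 ≤ n)
  have hεn : 1 ≤ ε / 2 * n := by
    have h2 : 2 / ε ≤ n := (Nat.le_ceil _).trans (by exact_mod_cast e3)
    rw [div_le_iff₀ hε] at h2
    linarith
  have hm1 : 1 ≤ m := by omega
  set a : ℝ := 1 / 2 - ζ with ha
  have ha0 : 0 < a := by rw [ha]; linarith
  have ha1 : a ≤ 1 / 2 := by rw [ha]; linarith
  set L := Real.logb 2 n with hL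
  have hL0 : 0 ≤ L := Real.logb_nonneg (by norm_num) hn1
  set N := Fintype.card (Sym2 (Fin m)) with hN
  have hcardN : (Nat.card (Sym2 (Fin m) → Bool) : ℝ) = 2 ^ N := by
    rw [Nat.card_eq_fintype_card, Fintype.card_fun, Fintype.card_bool]
    push_cast
    rfl
  rcases Nat.eq_zero_or_pos z with hz0 | hz0
  · subst hz0
    have g1 : (Nat.card {b : Sym2 (Fin m) → Bool // (matZ b).det ≠ 0 ∧
        MTop.Kill (Qz ζ n) ⌈(n : ℝ) ^ (1 - ζ)⌉₊ 0 (matZ b)} : ℝ) ≤ 2 ^ N := by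
      rw [← hcardN]
      exact_mod_cast Nat.card_le_card_of_injective _ Subtype.val_injective
    refine g1.trans ?_
    have g2 : (1 : ℝ) ≤ (2 : ℝ) ^ (-(a * (0 : ℕ) * L) + ε * n) := by
      refine Real.one_le_rpow (by norm_num) ?_
      push_cast
      have := mul_pos hε hn0
      linarith
    have g3 : (0 : ℝ) < 2 ^ N := by positivity
    nlinarith
  -- parameters
  set y : ℕ := ⌈(n : ℝ) ^ (1 / 2 - ζ)⌉₊ with hy
  set D : ℕ := ⌈(n : ℝ) ^ (1 - ζ)⌉₊ - 1 with hD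
  set k : ℕ := ⌈Real.sqrt (30 * n)⌉₊ with hk
  have hD1 : D + 1 = ⌈(n : ℝ) ^ (1 - ζ)⌉₊ := by
    have : 0 < ⌈(n : ℝ) ^ (1 - ζ)⌉₊ := Nat.ceil_pos.2 (by positivity)
    omega
  have hDR : (n : ℝ) ^ (1 - ζ) ≤ (D : ℝ) + 1 := by
    have h2 : ((D + 1 : ℕ) : ℝ) = (D : ℝ) + 1 := by push_cast; ring
    rw [← h2, hD1]
    exact Nat.le_ceil _
  have hyR : (n : ℝ) ^ (1 / 2 - ζ) ≤ y := Nat.le_ceil _
  have hyn : y ≤ n := by
    rw [hy, Nat.ceil_le]
    calc (n : ℝ) ^ (1 / 2 - ζ) ≤ (n : ℝ) ^ (1 : ℝ) := Real.rpow_le_rpow_of_exponent_le hn1 (by linarith)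
      _ = n := Real.rpow_one _
  have hkR : (k : ℝ) ≤ 7 * Real.sqrt n := by
    have h2 : (k : ℝ) < Real.sqrt (30 * n) + 1 := Nat.ceil_lt_add_one (Real.sqrt_nonneg _)
    have h3 : Real.sqrt (30 * n) ≤ 6 * Real.sqrt n := by
      rw [Real.sqrt_mul (by norm_num)]
      refine mul_le_mul_of_nonneg_right ?_ (Real.sqrt_nonneg _)
      rw [Real.sqrt_le_left (by norm_num)]
      norm_num
    have h4 : 1 ≤ Real.sqrt n := by
      rw [show (1 : ℝ) = Real.sqrt 1 by simp]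
      exact Real.sqrt_le_sqrt hn1
    linarith
  have hk2 : 2 * (3 + 12) * m ≤ k ^ 2 := by
    have h2 : (30 * n : ℝ) ≤ (k : ℝ) ^ 2 := by
      calc (30 * n : ℝ) = Real.sqrt (30 * n) ^ 2 := (Real.sq_sqrt (by positivity)).symm
        _ ≤ (k : ℝ) ^ 2 := pow_le_pow_left₀ (Real.sqrt_nonneg _) (Nat.le_ceil _) 2
    have h3 : 30 * n ≤ k ^ 2 := by exact_mod_cast h2
    omega
  obtain ⟨hy2, hq1, hnum⟩ := h1 n e1 m hmn y D k z hyR hyn hDR hkR hz
  have hkc := Kill.kill_count (α := Fin m) rows2 (core2 rows2) y D k z _ hy2 rfl hq1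
  rw [Fintype.card_fin] at hkc
  have hexc := corlt_exc hm1 3 k hk2
  -- union
  have hun : (Nat.card {b : Sym2 (Fin m) → Bool // (matZ b).det ≠ 0 ∧
      MTop.Kill (Qz ζ n) ⌈(n : ℝ) ^ (1 - ζ)⌉₊ z (matZ b)} : ℝ) ≤
      (Nat.card {b : Sym2 (Fin m) → Bool // ¬ CorLt (matZ b) k} : ℝ) +
      (Nat.card {b : Sym2 (Fin m) → Bool // CorLt (matZ b) k ∧ (matZ b).det ≠ 0 ∧
        ∃ p, p.Prime ∧ Kill.KV (p ^ Nat.clog p y) D z b} : ℝ) := by
    have h2 : ∀ Q : (Sym2 (Fin m) → Bool) → Prop, (Nat.card {b : Sym2 (Fin m) → Bool // Q b}) =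
        Set.ncard {b | Q b} := fun Q => rfl
    rw [h2, h2, h2]
    have h3 : {b : Sym2 (Fin m) → Bool | (matZ b).det ≠ 0 ∧
        MTop.Kill (Qz ζ n) ⌈(n : ℝ) ^ (1 - ζ)⌉₊ z (matZ b)} ⊆
        {b : Sym2 (Fin m) → Bool | ¬ CorLt (matZ b) k} ∪
        {b : Sym2 (Fin m) → Bool | CorLt (matZ b) k ∧ (matZ b).det ≠ 0 ∧
        ∃ p, p.Prime ∧ Kill.KV (p ^ Nat.clog p y) D z b} := by
      rintro b ⟨hdet, hK⟩
      by_cases hc : CorLt (matZ b) k
      · refine Or.inr ⟨hc, hdet, ?_⟩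
        rcases hK with h0 | ⟨Q, ⟨p, hp, rfl⟩, u, hu1, hu2, hu3⟩
        · omega
        · refine ⟨p, hp, u, hu2, ?_, ?_⟩
          · rw [← hD1] at hu1
            exact hu1
          · rw [Nat.card_eq_fintype_card, Fintype.card_subtype] at hu3
            exact hu3
      · exact Or.inl hc
    exact_mod_cast (Set.ncard_le_ncard h3 (Set.toFinite _)).trans (Set.ncard_union_le _ _)
  have hA : (Nat.card {b : Sym2 (Fin m) → Bool // ¬ CorLt (matZ b) k} : ℝ) ≤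
      (2 : ℝ) ^ (-(a * z * L) + ε / 2 * n) * 2 ^ N := by
    have h2 : (Nat.card {b : Sym2 (Fin m) → Bool // ¬ CorLt (matZ b) k} : ℝ) * 2 ^ (3 * m) ≤ 2 ^ N := by
      exact_mod_cast hexc
    have h3 : (1 : ℝ) ≤ (2 : ℝ) ^ (-(a * z * L) + ε / 2 * n) * 2 ^ (3 * m) := by
      rw [← Real.rpow_natCast 2 (3 * m), ← Real.rpow_add (by norm_num)]
      refine Real.one_le_rpow (by norm_num) ?_
      have h4 : a * z * L ≤ 2 * n := by
        calc a * z * L = a * (z * L) := by ring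
          _ ≤ 1 / 2 * (4 * n) := mul_le_mul ha1 hz (by positivity) (by norm_num)
          _ = 2 * n := by ring
      have h5 : (2 * n : ℝ) ≤ ((3 * m : ℕ) : ℝ) := by exact_mod_cast (by omega : 2 * n ≤ 3 * m)
      linarith
    have h4 : (0 : ℝ) ≤ (Nat.card {b : Sym2 (Fin m) → Bool // ¬ CorLt (matZ b) k} : ℝ) := Nat.cast_nonneg _
    have h5 : (0 : ℝ) < (2 : ℝ) ^ (-(a * z * L) + ε / 2 * n) := by positivity
    calc (Nat.card {b : Sym2 (Fin m) → Bool // ¬ CorLt (matZ b) k} : ℝ)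
        = (Nat.card {b : Sym2 (Fin m) → Bool // ¬ CorLt (matZ b) k} : ℝ) * 1 := (mul_one _).symm
      _ ≤ (Nat.card {b : Sym2 (Fin m) → Bool // ¬ CorLt (matZ b) k} : ℝ) *
          ((2 : ℝ) ^ (-(a * z * L) + ε / 2 * n) * 2 ^ (3 * m)) := mul_le_mul_of_nonneg_left h3 h4
      _ = (2 : ℝ) ^ (-(a * z * L) + ε / 2 * n) *
          ((Nat.card {b : Sym2 (Fin m) → Bool // ¬ CorLt (matZ b) k} : ℝ) * 2 ^ (3 * m)) := by ring
      _ ≤ (2 : ℝ) ^ (-(a * z * L) + ε / 2 * n) * 2 ^ N := mul_le_mul_of_nonneg_left h2 h5.le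
  have hB : (Nat.card {b : Sym2 (Fin m) → Bool // CorLt (matZ b) k ∧ (matZ b).det ≠ 0 ∧
        ∃ p, p.Prime ∧ Kill.KV (p ^ Nat.clog p y) D z b} : ℝ) ≤
      (2 : ℝ) ^ (-(a * z * L) + ε / 2 * n) * 2 ^ N :=
    hkc.trans (mul_le_mul_of_nonneg_right hnum (by positivity))
  have hfin : 2 * (2 : ℝ) ^ (-(a * z * L) + ε / 2 * n) ≤ (2 : ℝ) ^ (-(a * z * L) + ε * n) := by
    have h2 : 2 * (2 : ℝ) ^ (-(a * z * L) + ε / 2 * n) = (2 : ℝ) ^ (1 + (-(a * z * L) + ε / 2 * n)) := by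
      rw [Real.rpow_add (by norm_num) 1, Real.rpow_one]
    rw [h2]
    exact Real.rpow_le_rpow_of_exponent_le (by norm_num) (by linarith)
  calc _ ≤ _ := hun
    _ ≤ (2 : ℝ) ^ (-(a * z * L) + ε / 2 * n) * 2 ^ N + (2 : ℝ) ^ (-(a * z * L) + ε / 2 * n) * 2 ^ N := add_le_add hA hB
    _ = 2 * (2 : ℝ) ^ (-(a * z * L) + ε / 2 * n) * 2 ^ N := by ring
    _ ≤ (2 : ℝ) ^ (-(a * z * L) + ε * n) * 2 ^ N := mul_le_mul_of_nonneg_right hfin (by positivity)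

/-- the killed event of `FStmt` is the killed event of `MTop` -/
theorem kill_iff (ζ : ℝ) {n : ℕ} (P : Matrix (Fin n) (Fin n) ℤ) (z : ℕ) :
    F.Kill ζ P z ↔ MTop.Kill (Qz ζ n) ⌈(n : ℝ) ^ (1 - ζ)⌉₊ z P := by
  unfold F.Kill MTop.Kill Qz
  constructor
  · rintro (h | ⟨p, hp, u, h1, h2, h3⟩)
    · exact Or.inl h
    · exact Or.inr ⟨_, ⟨p, hp, rfl⟩, u, Nat.ceil_le.2 h1, h2, h3⟩
  · rintro (h | ⟨q, ⟨p, hp, rfl⟩, u, h1, h2, h3⟩)
    · exact Or.inl h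
    · exact Or.inr ⟨p, hp, u, Nat.ceil_le.1 h1, h2, h3⟩

open Classical in
/-- **KILLP**: the killed lemma for nonsingular `P`, in the form of `FStmt` (same text as `F.KillStmt`, `F.KillPStmt`) -/
theorem killF {ζ : ℝ} (hζ0 : 0 < ζ) (hζ : ζ < 1 / 2) : ∀ ε : ℝ, 0 < ε → ∃ n₀ : ℕ, ∀ n ≥ n₀, ∀ z : ℕ,
    (z : ℝ) * Real.logb 2 n ≤ 4 * n →
    (((univ : Finset (A.Bits n)).filter fun b => (matZ b).det ≠ 0 ∧ F.Kill ζ (matZ b) z).card : ℝ) ≤
      (2 : ℝ) ^ (-((1 / 2 - ζ) * z * Real.logb 2 n) + ε * n) * 2 ^ Fintype.card (Sym2 (Fin n)) := by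
  intro ε hε
  obtain ⟨n₀, h⟩ := killed hζ0 hζ hε 0
  refine ⟨n₀, fun n hn z hz => ?_⟩
  have h1 := h n hn n le_rfl le_rfl z hz
  rw [Nat.card_eq_fintype_card, Fintype.card_subtype] at h1
  refine le_trans (le_of_eq ?_) h1
  congr 2
  ext b
  simp only [mem_filter, mem_univ, true_and, kill_iff]

end Vale.Agent.P160.Half.F.K12
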