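import Vale.Agent.P160.Half.Fin.MBridge838
import Vale.Agent.P160.Half.Fin.Kill12
import Vale.Agent.P160.Half.MSing

/-! # P160, rate 1/2: the bridge `MTop.StmtM → F.StmtM` without further hypotheses (helper838) -/

namespace Vale.Agent.P160.Half.F.B838

open Finset Matrix Vale.Agent.P160.Half Vale.Agent.P160.Half.A

theorem kdenZ (ζ : ℝ) (h0 : 0 < ζ) (h1 : ζ < 1 / 2) : KdenZ ζ := by
  classical
  intro e he τ
  obtain ⟨n₁, hn1⟩ := K12.killed h0 h1 he τ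
  obtain ⟨n₂, hn2⟩ := M8Top.sing (1 / 2 - e / 2) (by linarith)
  obtain ⟨n₃, hn3⟩ := exists_nat_ge ((τ : ℝ) / e)
  refine ⟨max n₁ (max (n₂ + τ) n₃), fun n hn m hm hmn z hz => ?_⟩
  simp only [ge_iff_le, max_le_iff] at hn
  obtain ⟨e1, e2, e3⟩ := hn
  have hcm : (0 : ℝ) < 2 ^ Fintype.card (Sym2 (Fin m)) := by positivity
  have h5 := hn1 n e1 m (by omega) hmn z hz
  have h6 := hn2 m (by omega)
  unfold MTop.kden
  rw [div_le_iff₀ hcm]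
  have h7 : (Nat.card {b : Sym2 (Fin m) → Bool // MTop.Kill (Qf ζ n) ⌈(n : ℝ) ^ (1 - ζ)⌉₊ z (matZ b)} : ℝ) ≤
      (Nat.card {b : Sym2 (Fin m) → Bool // (matZ b).det ≠ 0 ∧ MTop.Kill (K12.Qz ζ n) ⌈(n : ℝ) ^ (1 - ζ)⌉₊ z (matZ b)} : ℝ) +
      (Nat.card {b : Sym2 (Fin m) → Bool // (matZ b).det = 0} : ℝ) := by
    rw [Nat.card_eq_fintype_card, Nat.card_eq_fintype_card, Nat.card_eq_fintype_card, Fintype.card_subtype,
      Fintype.card_subtype, Fintype.card_subtype, ← Nat.cast_add]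
    refine Nat.cast_le.2 ((card_le_card fun b hb => ?_).trans (card_union_le _ _))
    rw [mem_union, mem_filter, mem_filter]
    rw [mem_filter] at hb
    by_cases hd : (matZ b).det = 0
    · exact Or.inr ⟨mem_univ _, hd⟩
    · exact Or.inl ⟨mem_univ _, hd, hb.2⟩
  have h8 : (2 : ℝ) ^ (-((1 / 2 - e / 2) * m)) ≤ (2 : ℝ) ^ (-((1 / 2 - e) * n)) := by
    refine Real.rpow_le_rpow_of_exponent_le (by norm_num) ?_
    have hmn' : (m : ℝ) ≤ n := by exact_mod_cast hmn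
    have hmτ : (n : ℝ) ≤ m + τ := by exact_mod_cast (show n ≤ m + τ by omega)
    have hτ : (τ : ℝ) ≤ n * e := (div_le_iff₀ he).1 (hn3.trans (by exact_mod_cast e3))
    have h9 : 0 ≤ e * (n - m) := mul_nonneg he.le (by linarith)
    linarith
  refine h7.trans ?_
  rw [add_mul]
  exact add_le_add h5 (h6.trans (mul_le_mul_of_nonneg_right h8 hcm.le))

theorem kill0 (ζ : ℝ) (h0 : 0 < ζ) (h1 : ζ < 1 / 2) : Kill0 ζ := K12.killF h0 h1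

/-- `F.StmtM` from `MTop.StmtM` -/
theorem stmtM_link {b₁ lam lam' ζ : ℝ} (hb : 1 ≤ b₁) (hζ0 : 0 < ζ) (hζ : ζ < 1 / 2) (hlam : 0 ≤ lam) (hl : lam ≤ lam')
    (hg : 1 / (4 * b₁) - 1 / 8 ≤ lam') (hM : MTop.StmtM b₁ lam) : StmtM lam' b₁ ζ :=
  stmtM_of_top hb hζ0.le hζ hlam hl hg hM (kill0 ζ hζ0 hζ) (kdenZ ζ hζ0 hζ)

/-- **input of `Fin/Top.cor1_zero`** from the output of part (M) -/
theorem all_lam_top (hM : ∀ b₁ : ℝ, 199 / 100 ≤ b₁ → b₁ < 2 → MTop.StmtM b₁ 0) (lam : ℝ) (hlam : 0 < lam) :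
    ∃ b₁ : ℝ, 1 ≤ b₁ ∧ b₁ < 2 ∧ ∀ ζ : ℝ, 0 < ζ → ζ < 1 / 16 → StmtM lam b₁ ζ :=
  all_lam hM (fun ζ h0 h1 => kill0 ζ h0 (by linarith)) (fun ζ h0 h1 => kdenZ ζ h0 (by linarith)) lam hlam

end Vale.Agent.P160.Half.F.B838
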