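import Vale.Agent.P160.Half.Fin.Top
import Vale.Agent.P160.Half.Fin.Cnt262
import Vale.Agent.P160.Half.RichFin
import Vale.Agent.P160.Half.Mid.MidF184
import Vale.Agent.P160.Half.MProd358
import Vale.Agent.P160.Half.RowHypAll428
import Vale.Agent.P160.Half.M67Close
import Vale.Agent.P160.Half.StmtSparse324
import Vale.Agent.P160.Half.MomTop836
import Vale.Agent.P160.Half.Fin.MLink838
import Vale.Agent.P160.Half.End.Adapt116

/-! # P160, rate 1/2: the composition without hypotheses -/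

namespace Vale.Agent.P160.Half.H4772

open Vale.Agent.P160.Half Filter

theorem topM (b₁ : ℝ) (hb : 199 / 100 ≤ b₁) (hb2 : b₁ < 2) : MTop.StmtM b₁ 0 :=
  MProd.stmtM_prod b₁ (by linarith) (RowHypAll428.rowHyp b₁ hb fun B hB =>
    M67.close (β := 1 / 8) (by norm_num) le_rfl MomTop836.mom3 StmtSparse324.sparse b₁ (3 / 5) B
      (by linarith) (by linarith) (by norm_num))

theorem cor1_zero : F.Cor1 0 :=
  F.Top.cor1_zero A.richSmallFin (F.B838.all_lam_top topM)
    (fun β h1 h2 => Mid184.midStmt (by linarith) h2) F.Cnt262.cnt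

theorem half : (∀ lam : ℝ, 1 / 2 < lam → ∀ᶠ n : ℕ in atTop, Shell.q n ≤ lam ^ n) ∧
    Tendsto (fun n : ℕ => Shell.q n ^ (1 / (n : ℝ))) atTop (nhds (1 / 2)) :=
  Shell.half_of_F cor1_zero

end Vale.Agent.P160.Half.H4772
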