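import Vale.Agent.P160.Half.Fin.Kill12

/-! # P160, rate 1/2: the killed lemma at sizes `m ∈ [n - τ, n]`, forms for the bridge `MTop.StmtM → F.StmtM` (helper12)

`killM` (838's `KillM`), `singHalf` (838's `SingHalf`: rate `1/√2` for 0/1 matrices), `killSub` (535's `KillSub`: density `MTop.kden`, singular
matrices included). -/

set_option linter.unusedVariables false

namespace Vale.Agent.P160.Half.F.K12

open Finset Matrix Vale.Agent.P160.Half Vale.Agent.P160.Half.G Filter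

/-- killed lemma with `z - τ` zeros -/
theorem killed_sub {ζ ε : ℝ} (hζ0 : 0 < ζ) (hζ : ζ < 1 / 2) (hε : 0 < ε) (τ : ℕ) : ∃ n₀ : ℕ, ∀ n ≥ n₀, ∀ m : ℕ, n ≤ m + τ → m ≤ n →
    ∀ z : ℕ, (z : ℝ) * Real.logb 2 n ≤ 4 * n →
    (Nat.card {b : Sym2 (Fin m) → Bool // (matZ b).det ≠ 0 ∧ MTop.Kill (Qz ζ n) ⌈(n : ℝ) ^ (1 - ζ)⌉₊ (z - τ) (matZ b)} : ℝ) ≤
      (2 : ℝ) ^ (-((1 / 2 - ζ) * z * Real.logb 2 n) + ε * n) * 2 ^ Fintype.card (Sym2 (Fin m)) := by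
  obtain ⟨n1, h1⟩ := killed hζ0 hζ (show 0 < ε / 2 by linarith) τ
  obtain ⟨n2, h2⟩ := CntNum.rpow_logb_le (τ : ℝ) (a := 0) (by norm_num) (show 0 < ε / 2 by linarith)
  refine ⟨max (max n1 n2) 1, fun n hn m hm hmn z hz => ?_⟩
  have e1 : n1 ≤ n := le_trans (le_trans (le_max_left _ _) (le_max_left _ _)) hn
  have e2 : n2 ≤ n := le_trans (le_trans (le_max_right _ _) (le_max_left _ _)) hn
  have e3 : 1 ≤ n := le_trans (le_max_right _ _) hn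
  have hL0 : 0 ≤ Real.logb 2 n := Real.logb_nonneg (by norm_num) (by exact_mod_cast e3)
  have hz' : ((z - τ : ℕ) : ℝ) * Real.logb 2 n ≤ 4 * n := by
    refine le_trans (mul_le_mul_of_nonneg_right ?_ hL0) hz
    exact_mod_cast Nat.sub_le z τ
  refine (h1 n e1 m hm hmn (z - τ) hz').trans ?_
  refine mul_le_mul_of_nonneg_right ?_ (by positivity)
  refine Real.rpow_le_rpow_of_exponent_le (by norm_num) ?_
  have g1 := h2 n e2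
  rw [Real.rpow_zero, mul_one] at g1
  have g2 : (z : ℝ) - τ ≤ ((z - τ : ℕ) : ℝ) := by
    rw [sub_le_iff_le_add]
    exact_mod_cast (by omega : z ≤ (z - τ) + τ)
  have g3 : (1 / 2 - ζ) * Real.logb 2 n * ((z : ℝ) - τ) ≤ (1 / 2 - ζ) * Real.logb 2 n * ((z - τ : ℕ) : ℝ) := by
    refine mul_le_mul_of_nonneg_left g2 ?_
    have : 0 < 1 / 2 - ζ := by linarith
    positivity
  have g4 : (1 / 2 - ζ) * (τ * Real.logb 2 n) ≤ 1 * (τ * Real.logb 2 n) :=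
    mul_le_mul_of_nonneg_right (by linarith) (by positivity)
  have g5 : (1 / 2 - ζ) * Real.logb 2 n * ((z : ℝ) - τ) = (1 / 2 - ζ) * z * Real.logb 2 n - (1 / 2 - ζ) * (τ * Real.logb 2 n) := by ring
  have g6 : (1 / 2 - ζ) * Real.logb 2 n * ((z - τ : ℕ) : ℝ) = (1 / 2 - ζ) * ((z - τ : ℕ) : ℝ) * Real.logb 2 n := by ring
  linarith

/-- 838's `KillM` (same text) -/
def KillM (ζ : ℝ) : Prop := ∀ (e : ℝ) (τ : ℕ), 0 < e → ∃ n0 : ℕ, ∀ n ≥ n0, ∀ m z : ℕ, n - τ ≤ m → m ≤ n →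
  (z : ℝ) * Real.logb 2 n ≤ 4 * n →
  (Nat.card {b : Sym2 (Fin m) → Bool // (matZ b).det ≠ 0 ∧ (z - τ = 0 ∨ ∃ p : ℕ, p.Prime ∧ ∃ u : Fin m → ZMod (F.qp ζ n p),
    (n : ℝ) ^ (1 - ζ) ≤ Nat.card {i // IsUnit (u i)} ∧ (matZ b).map (Int.cast : ℤ → ZMod (F.qp ζ n p)) *ᵥ u = 0 ∧
      z - τ ≤ Nat.card {i // u i = 0})} : ℝ) ≤
    (2 : ℝ) ^ (-((1 / 2 - ζ) * z * Real.logb 2 n) + e * n) * 2 ^ Fintype.card (Sym2 (Fin m))

theorem killM {ζ : ℝ} (hζ0 : 0 < ζ) (hζ : ζ < 1 / 2) : KillM ζ := by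
  intro e τ he
  obtain ⟨n0, h⟩ := killed_sub hζ0 hζ he τ
  refine ⟨n0, fun n hn m z hm hmn hz => ?_⟩
  refine le_trans ?_ (h n hn m (by omega) hmn z hz)
  have hinj : Function.Injective (fun b : {b : Sym2 (Fin m) → Bool // (matZ b).det ≠ 0 ∧ (z - τ = 0 ∨ ∃ p : ℕ, p.Prime ∧
      ∃ u : Fin m → ZMod (F.qp ζ n p), (n : ℝ) ^ (1 - ζ) ≤ Nat.card {i // IsUnit (u i)} ∧
      (matZ b).map (Int.cast : ℤ → ZMod (F.qp ζ n p)) *ᵥ u = 0 ∧ z - τ ≤ Nat.card {i // u i = 0})} =>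
      (⟨b.1, b.2.1, by
        rcases b.2.2 with h0 | ⟨p, hp, u, h1, h2, h3⟩
        · exact Or.inl h0
        · exact Or.inr ⟨_, ⟨p, hp, rfl⟩, u, Nat.ceil_le.2 h1, h2, h3⟩⟩ :
        {b : Sym2 (Fin m) → Bool // (matZ b).det ≠ 0 ∧ MTop.Kill (Qz ζ n) ⌈(n : ℝ) ^ (1 - ζ)⌉₊ (z - τ) (matZ b)})) :=
    fun b b' hb => Subtype.ext (by simpa using hb)
  exact_mod_cast Nat.card_le_card_of_injective _ hinj

/-- 838's `SingHalf` (rate `1/√2` for singular 0/1 matrices) -/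
def SingHalf : Prop := ∀ e : ℝ, 0 < e → ∃ n0 : ℕ, ∀ n ≥ n0,
  (Nat.card {b : Sym2 (Fin n) → Bool // (matZ b).det = 0} : ℝ) ≤
    (2 : ℝ) ^ (-((1 / 2 - e) * n)) * 2 ^ Fintype.card (Sym2 (Fin n))

/-- density form, singular matrices included -/
theorem kden_le (hS : SingHalf) {ζ ε : ℝ} (hζ0 : 0 < ζ) (hζ : ζ < 1 / 2) (hε : 0 < ε) (τ : ℕ) : ∃ n₀ : ℕ, ∀ n ≥ n₀, ∀ m : ℕ,
    n - τ ≤ m → m ≤ n → ∀ z : ℕ, (z : ℝ) * Real.logb 2 n ≤ 4 * n →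
    MTop.kden m (Qz ζ n) ⌈(n : ℝ) ^ (1 - ζ)⌉₊ z ≤
      (2 : ℝ) ^ (-((1 / 2 - ζ) * z * Real.logb 2 n) + ε * n) + (2 : ℝ) ^ (-((1 / 2 - ε) * n)) := by
  classical
  obtain ⟨n1, h1⟩ := killed hζ0 hζ hε τ
  obtain ⟨n2, h2⟩ := hS (ε / 2) (by linarith)
  refine ⟨max (max n1 (n2 + τ)) ⌈(τ : ℝ) / ε⌉₊, fun n hn m hm' hmn z hz => ?_⟩
  have hm : n ≤ m + τ := by omega
  have e1 : n1 ≤ n := le_trans (le_trans (le_max_left _ _) (le_max_left _ _)) hn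
  have e2 : n2 + τ ≤ n := le_trans (le_trans (le_max_right _ _) (le_max_left _ _)) hn
  have e3 : (τ : ℝ) ≤ ε * n := by
    have h3 : (τ : ℝ) / ε ≤ n := (Nat.le_ceil _).trans (by exact_mod_cast le_trans (le_max_right _ _) hn)
    rw [div_le_iff₀ hε] at h3
    linarith
  have g1 := h1 n e1 m hm hmn z hz
  have g2 := h2 m (by omega)
  set N := Fintype.card (Sym2 (Fin m)) with hN
  have hN0 : (0 : ℝ) < 2 ^ N := by positivity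
  have g3 : (2 : ℝ) ^ (-((1 / 2 - ε / 2) * m)) ≤ (2 : ℝ) ^ (-((1 / 2 - ε) * n)) := by
    refine Real.rpow_le_rpow_of_exponent_le (by norm_num) ?_
    have g4 : (n : ℝ) - τ ≤ m := by
      rw [sub_le_iff_le_add]
      exact_mod_cast hm
    have g5 : (m : ℝ) ≤ n := by exact_mod_cast hmn
    have g6 : ε / 2 * (m : ℝ) ≤ ε / 2 * n := mul_le_mul_of_nonneg_left g5 (by linarith)
    linarith
  have g4 : (Nat.card {b : Sym2 (Fin m) → Bool // MTop.Kill (Qz ζ n) ⌈(n : ℝ) ^ (1 - ζ)⌉₊ z (matZ b)} : ℝ) ≤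
      (Nat.card {b : Sym2 (Fin m) → Bool // (matZ b).det ≠ 0 ∧
        MTop.Kill (Qz ζ n) ⌈(n : ℝ) ^ (1 - ζ)⌉₊ z (matZ b)} : ℝ) +
      (Nat.card {b : Sym2 (Fin m) → Bool // (matZ b).det = 0} : ℝ) := by
    have k2 : ∀ Q : (Sym2 (Fin m) → Bool) → Prop, (Nat.card {b : Sym2 (Fin m) → Bool // Q b}) =
        Set.ncard {b | Q b} := fun Q => rfl
    rw [k2, k2, k2]
    have k3 : {b : Sym2 (Fin m) → Bool | MTop.Kill (Qz ζ n) ⌈(n : ℝ) ^ (1 - ζ)⌉₊ z (matZ b)} ⊆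
        {b : Sym2 (Fin m) → Bool | (matZ b).det ≠ 0 ∧ MTop.Kill (Qz ζ n) ⌈(n : ℝ) ^ (1 - ζ)⌉₊ z (matZ b)} ∪
        {b : Sym2 (Fin m) → Bool | (matZ b).det = 0} := by
      intro b hb
      by_cases hd : (matZ b).det = 0
      · exact Or.inr hd
      · exact Or.inl ⟨hd, hb⟩
    exact_mod_cast (Set.ncard_le_ncard k3 (Set.toFinite _)).trans (Set.ncard_union_le _ _)
  unfold MTop.kden
  rw [div_le_iff₀ hN0, add_mul]
  refine g4.trans (add_le_add g1 (g2.trans ?_))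
  exact mul_le_mul_of_nonneg_right g3 hN0.le

end Vale.Agent.P160.Half.F.K12
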