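import Vale.Agent.P160.Half.Fin.FStmt
import Vale.Agent.P160.Half.MTop

/-! # P160, rate 1/2: the bridge `MTop.StmtM → F.StmtM` (helper838)

`StmtMg b₁ lam g` is `MTop.StmtM b₁ lam` with the additive term `2^(-(g n))`. For `1 ≤ b₁`, `0 ≤ lam ≤ lam'` and
`1 / (4 b₁) ≤ g + lam'` it implies `F.StmtM lam' b₁ ζ`, given the killed lemma (`Kill0 ζ`, `KdenZ ζ`). -/

set_option linter.unusedVariables false

namespace Vale.Agent.P160.Half.F.B838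

open Finset Matrix Vale.Agent.P160.Half Vale.Agent.P160.Half.A

/-- `MTop.StmtM` with the additive term `2^(-(g n))` -/
def StmtMg (b₁ lam g : ℝ) : Prop := ∀ (ε B : ℝ), 0 < ε → ∃ τ n₀ : ℕ, ∀ n ≥ n₀,
  ∀ Qs : ℕ → Prop, (∀ q, Qs q → 2 ≤ q) → ∀ t z s : ℕ, ε * n ≤ s →
  (Nat.card {b : Sym2 (Fin n) → Bool // (matZ b).det ≠ 0 ∧ MTop.Kill Qs t z (matZ b) ∧
    s ≤ MTop.N2 (matZ b) ((n : ℝ) ^ b₁) ((n : ℝ) ^ B)} : ℝ) ≤
    ((∑ m ∈ Icc (n - τ) n, MTop.kden m Qs t (z - τ)) * 2 ^ (-(s - lam * n) + ε * n) +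
      2 ^ (-(g * n))) * 2 ^ Fintype.card (Sym2 (Fin n))

/-- the moduli -/
def Qf (ζ : ℝ) (n : ℕ) (q : ℕ) : Prop := ∃ p : ℕ, p.Prime ∧ q = qp ζ n p

open Classical in
/-- the killed lemma for nonsingular matrices (the text of `KillStmt`, `KillPStmt`) -/
def Kill0 (ζ : ℝ) : Prop := ∀ ε : ℝ, 0 < ε → ∃ n₀ : ℕ, ∀ n ≥ n₀, ∀ z : ℕ, (z : ℝ) * Real.logb 2 n ≤ 4 * n →
  (((univ : Finset (Bits n)).filter fun b => (matZ b).det ≠ 0 ∧ Kill ζ (matZ b) z).card : ℝ) ≤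
    (2 : ℝ) ^ (-((1 / 2 - ζ) * z * Real.logb 2 n) + ε * n) * 2 ^ Fintype.card (Sym2 (Fin n))

/-- the killed lemma for the density `MTop.kden` at the sizes `m ∈ [n - τ, n]` (singular matrices included) -/
def KdenZ (ζ : ℝ) : Prop := ∀ ε : ℝ, 0 < ε → ∀ τ : ℕ, ∃ n₀ : ℕ, ∀ n ≥ n₀, ∀ m : ℕ, n - τ ≤ m → m ≤ n → ∀ z : ℕ,
  (z : ℝ) * Real.logb 2 n ≤ 4 * n →
  MTop.kden m (Qf ζ n) ⌈(n : ℝ) ^ (1 - ζ)⌉₊ z ≤
    (2 : ℝ) ^ (-((1 / 2 - ζ) * z * Real.logb 2 n) + ε * n) + (2 : ℝ) ^ (-((1 / 2 - ε) * n))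

theorem two_le_qf {ζ : ℝ} {n : ℕ} (hζ : ζ < 1 / 2) (hn : 2 ≤ n) (q : ℕ) (h : Qf ζ n q) : 2 ≤ q := by
  obtain ⟨p, hp, rfl⟩ := h
  unfold qp
  have hn1 : (1 : ℝ) < n := by exact_mod_cast (show 1 < n by omega)
  have h1 : (1 : ℝ) < (n : ℝ) ^ (1 / 2 - ζ) := Real.one_lt_rpow hn1 (by linarith)
  have h2 : 1 < ⌈(n : ℝ) ^ (1 / 2 - ζ)⌉₊ := by
    rw [Nat.lt_ceil]
    simpa using h1
  have h3 := Nat.clog_pos hp.one_lt h2
  calc 2 ≤ p := hp.two_le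
    _ ≤ p ^ Nat.clog p ⌈(n : ℝ) ^ (1 / 2 - ζ)⌉₊ := Nat.le_self_pow (by omega) p

theorem kill_iff {ζ : ℝ} {n z : ℕ} (P : Matrix (Fin n) (Fin n) ℤ) :
    MTop.Kill (Qf ζ n) ⌈(n : ℝ) ^ (1 - ζ)⌉₊ z P ↔ Kill ζ P z := by
  unfold MTop.Kill Kill
  constructor
  · rintro (h | ⟨q, ⟨p, hp, rfl⟩, u, h1, h2, h3⟩)
    · exact Or.inl h
    · exact Or.inr ⟨p, hp, u, Nat.ceil_le.1 h1, h2, h3⟩
  · rintro (h | ⟨p, hp, u, h1, h2, h3⟩)
    · exact Or.inl h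
    · exact Or.inr ⟨_, ⟨p, hp, rfl⟩, u, Nat.ceil_le.2 h1, h2, h3⟩

theorem crk_eq {n : ℕ} (P : Matrix (Fin n) (Fin n) ℤ) (p : ℕ) : MTop.crk P p = crk P p := by
  unfold MTop.crk crk HadN.rP
  rw [Fintype.card_fin]

/-- Hadamard -/
theorem N2_le {n : ℕ} (hn : 2 ≤ n) {β : ℝ} (hβ : 0 < β) (b : Bits n) (hdet : (matZ b).det ≠ 0) :
    (N2 β (matZ b) : ℝ) ≤ n / (4 * β) := by
  classical
  refine le_trans ?_ (MTop.N2_le (matZ b) hdet (fun i j => matZ_abs b i j) hn n le_rfl β (((matZ b).det.natAbs : ℕ) : ℝ) hβ)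
  unfold N2 MTop.N2 MTop.S2
  refine Nat.cast_le.2 (card_le_card fun p hp => ?_)
  rw [mem_filter] at hp ⊢
  obtain ⟨h1, h2, h3⟩ := hp
  refine ⟨?_, Nat.prime_of_mem_primeFactors h1, h2, ?_⟩
  · rw [mem_range, Nat.floor_natCast]
    exact Nat.lt_succ_of_le (Nat.le_of_mem_primeFactors h1)
  · rw [crk_eq]
    exact h3

theorem N2_split {n : ℕ} (β B : ℝ) (P : Matrix (Fin n) (Fin n) ℤ) :
    N2 β P ≤ MTop.N2 P ((n : ℝ) ^ β) ((n : ℝ) ^ B) + N2 B P := by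
  classical
  unfold N2 MTop.N2 MTop.S2
  refine (card_le_card fun p hp => ?_).trans (card_union_le _ _)
  rw [mem_filter] at hp
  obtain ⟨h1, h2, h3⟩ := hp
  rw [mem_union, mem_filter, mem_filter]
  rcases le_or_gt (p : ℝ) ((n : ℝ) ^ B) with h | h
  · refine Or.inl ⟨?_, Nat.prime_of_mem_primeFactors h1, h2, ?_⟩
    · rw [mem_range]
      exact Nat.lt_succ_of_le (Nat.le_floor h)
    · rw [crk_eq]
      exact h3
  · exact Or.inr ⟨h1, h.le, h3⟩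

theorem ev_logb (τ : ℕ) (e : ℝ) (he : 0 < e) : ∃ n₀ : ℕ, ∀ n ≥ n₀, (τ : ℝ) * Real.logb 2 n ≤ e * n := by
  have h1 := Real.isLittleO_log_id_atTop.bound (show 0 < e * Real.log 2 / (τ + 1) by
    have := Real.log_pos (show (1 : ℝ) < 2 by norm_num)
    positivity)
  have h2 := (tendsto_natCast_atTop_atTop (R := ℝ)).eventually h1
  obtain ⟨n₀, h3⟩ := Filter.eventually_atTop.1 h2
  refine ⟨n₀, fun n hn => ?_⟩
  have h4 := h3 n hn
  have hl2 := Real.log_pos (show (1 : ℝ) < 2 by norm_num)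
  have hn0 : (0 : ℝ) ≤ n := Nat.cast_nonneg n
  have hτ : (0 : ℝ) ≤ τ := Nat.cast_nonneg τ
  have h5 : Real.log n ≤ e * Real.log 2 / (τ + 1) * n := by
    refine (le_abs_self _).trans ?_
    simpa [Real.norm_eq_abs, abs_of_nonneg hn0] using h4
  unfold Real.logb
  rw [← mul_div_assoc, div_le_iff₀ hl2]
  calc (τ : ℝ) * Real.log n ≤ τ * (e * Real.log 2 / (τ + 1) * n) := mul_le_mul_of_nonneg_left h5 hτ
    _ = τ / (τ + 1) * (e * n * Real.log 2) := by ring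
    _ ≤ 1 * (e * n * Real.log 2) := by
      refine mul_le_mul_of_nonneg_right ?_ (by positivity)
      rw [div_le_one (by positivity)]
      linarith
    _ = _ := one_mul _

/-- the three exponents -/
theorem num1 {n τ s t W M lam lam' e : ℝ} (he : 0 < e) (hn : 0 < n) (hen : 2 * τ + 4 ≤ e * n) (hτ : 0 ≤ τ)
    (hs : t - e * n ≤ s) (htM : t * M ≤ t) (hll : lam * n ≤ lam' * n) :
    τ + (-W + 2 * e * n) + (-(s - lam * n) + e * n) + 2 ≤ -(W + t * M) + (lam' + 16 * e) * n := by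
  have : 0 < e * n := mul_pos he hn
  linarith

theorem num2 {n τ s t W M lam lam' e : ℝ} (he : 0 < e) (hn : 0 < n) (hen : 2 * τ + 4 ≤ e * n) (hτ : 0 ≤ τ)
    (hs : t - e * n ≤ s) (htM : t * M ≤ t) (hll : lam * n ≤ lam' * n) (hW : W ≤ n / 2) :
    τ + (-((1 / 2 - e) * n)) + (-(s - lam * n) + e * n) + 2 ≤ -(W + t * M) + (lam' + 16 * e) * n := by
  have : 0 < e * n := mul_pos he hn
  linarith

theorem num3 {n τ t W M K g lam' e b₁ : ℝ} (he : 0 < e) (hn : 0 < n) (hen : 2 * τ + 4 ≤ e * n) (hτ : 0 ≤ τ)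
    (htM : t * M ≤ n / (4 * b₁) - K * n / 2) (hW : W ≤ K * n / 2) (hg : n / (4 * b₁) ≤ g * n + lam' * n) :
    -(g * n) + 2 ≤ -(W + t * M) + (lam' + 16 * e) * n := by
  have : 0 < e * n := mul_pos he hn
  linarith

theorem fin_real {n τ s t W K M lam lam' g ζ b₁ e : ℝ} (hn : 0 < n) (he : 0 < e) (hτ : 0 ≤ τ) (hen : 2 * τ + 4 ≤ e * n)
    (hs : t - e * n ≤ s) (hW : W = (1 / 2 - ζ) * (K * n)) (hK0 : 0 ≤ K) (hM : M = 1 - 2 * b₁ * K) (hM0 : 0 < M) (hM1 : M ≤ 1)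
    (htb : t ≤ n / (4 * b₁)) (hb : 1 ≤ b₁) (hζ0 : 0 ≤ ζ) (hl : lam ≤ lam') (hg : 1 / (4 * b₁) ≤ g + lam') (ht0 : 0 ≤ t) (S : ℝ)
    (hS : S ≤ (2 : ℝ) ^ τ * ((2 : ℝ) ^ (-W + 2 * e * n) + (2 : ℝ) ^ (-((1 / 2 - e) * n)))) :
    S * 2 ^ (-(s - lam * n) + e * n) + 2 ^ (-(g * n)) ≤ (2 : ℝ) ^ (-(W + t * M) + (lam' + 16 * e) * n) := by
  have hpos2 : (0 : ℝ) < 2 := by norm_num
  set T : ℝ := (2 : ℝ) ^ (-(W + t * M) + (lam' + 16 * e) * n) with hT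
  have hq : ∀ x : ℝ, x + 2 ≤ -(W + t * M) + (lam' + 16 * e) * n → (2 : ℝ) ^ x ≤ T / 4 := by
    intro x hx
    rw [le_div_iff₀ (by norm_num)]
    have h7 : (2 : ℝ) ^ x * 4 = (2 : ℝ) ^ (x + 2) := by
      rw [Real.rpow_add hpos2]
      norm_num
    rw [h7, hT]
    exact Real.rpow_le_rpow_of_exponent_le (by norm_num) hx
  have hll : lam * n ≤ lam' * n := mul_le_mul_of_nonneg_right hl hn.le
  have htM : t * M ≤ t := mul_le_of_le_one_right ht0 hM1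
  have hKn0 : 0 ≤ K * n := mul_nonneg hK0 hn.le
  have hWK : W ≤ K * n / 2 := by
    rw [hW]
    have : 0 ≤ ζ * (K * n) := mul_nonneg hζ0 hKn0
    linarith
  have hK1 : K ≤ 1 := by
    have h1 : K * 1 ≤ K * b₁ := mul_le_mul_of_nonneg_left hb hK0
    linarith
  have hWn : W ≤ n / 2 := by
    have : K * n ≤ 1 * n := mul_le_mul_of_nonneg_right hK1 hn.le
    linarith
  have h1 : (2 : ℝ) ^ τ * (2 : ℝ) ^ (-W + 2 * e * n) * 2 ^ (-(s - lam * n) + e * n) ≤ T / 4 := by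
    rw [← Real.rpow_add hpos2, ← Real.rpow_add hpos2]
    exact hq _ (num1 he hn hen hτ hs htM hll)
  have h2 : (2 : ℝ) ^ τ * (2 : ℝ) ^ (-((1 / 2 - e) * n)) * 2 ^ (-(s - lam * n) + e * n) ≤ T / 4 := by
    rw [← Real.rpow_add hpos2, ← Real.rpow_add hpos2]
    exact hq _ (num2 he hn hen hτ hs htM hll hWn)
  have h3 : (2 : ℝ) ^ (-(g * n)) ≤ T / 4 := by
    refine hq _ (num3 (b₁ := b₁) he hn hen hτ ?_ hWK ?_)
    · calc t * M ≤ n / (4 * b₁) * M := mul_le_mul_of_nonneg_right htb hM0.le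
        _ = n / (4 * b₁) - (b₁ / b₁) * (K * n / 2) := by
          rw [hM]
          ring
        _ = n / (4 * b₁) - K * n / 2 := by
          rw [div_self (by linarith : b₁ ≠ 0), one_mul]
    · calc n / (4 * b₁) = 1 / (4 * b₁) * n := by ring
        _ ≤ (g + lam') * n := mul_le_mul_of_nonneg_right hg hn.le
        _ = _ := by ring
  have hE : (0 : ℝ) < 2 ^ (-(s - lam * n) + e * n) := by positivity
  have hT0 : 0 < T := by positivity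
  calc S * 2 ^ (-(s - lam * n) + e * n) + 2 ^ (-(g * n))
      ≤ ((2 : ℝ) ^ τ * ((2 : ℝ) ^ (-W + 2 * e * n) + (2 : ℝ) ^ (-((1 / 2 - e) * n)))) * 2 ^ (-(s - lam * n) + e * n) +
          2 ^ (-(g * n)) := add_le_add (mul_le_mul_of_nonneg_right hS hE.le) le_rfl
    _ = (2 : ℝ) ^ τ * (2 : ℝ) ^ (-W + 2 * e * n) * 2 ^ (-(s - lam * n) + e * n) +
          (2 : ℝ) ^ τ * (2 : ℝ) ^ (-((1 / 2 - e) * n)) * 2 ^ (-(s - lam * n) + e * n) + 2 ^ (-(g * n)) := by ring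
    _ ≤ T / 4 + T / 4 + T / 4 := add_le_add (add_le_add h1 h2) h3
    _ ≤ T := by linarith

/-- **the bridge** -/
theorem bridge {b₁ lam lam' g ζ : ℝ} (hb : 1 ≤ b₁) (hζ0 : 0 ≤ ζ) (hζ : ζ < 1 / 2) (hlam : 0 ≤ lam) (hl : lam ≤ lam')
    (hg : 1 / (4 * b₁) ≤ g + lam') (hM : StmtMg b₁ lam g) (hK : Kill0 ζ) (hD : KdenZ ζ) : StmtM lam' b₁ ζ := by
  classical
  intro ε hε
  set e : ℝ := ε / 16 with he
  have he0 : 0 < e := by positivity
  set B : ℝ := 1 / (4 * e) with hB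
  have hB0 : 0 < B := by positivity
  obtain ⟨τ, n₁, hM1⟩ := hM e B he0
  obtain ⟨n₂, hK1⟩ := hD e he0 τ
  obtain ⟨n₃, hK0⟩ := hK e he0
  obtain ⟨n₄, hS1⟩ := ev_logb τ e he0
  obtain ⟨n₅, hn5⟩ := exists_nat_ge ((2 * τ + 4) / e)
  refine ⟨max 2 (max n₁ (max n₂ (max n₃ (max n₄ n₅)))), fun n hn z t hz => ?_⟩
  simp only [ge_iff_le, max_le_iff] at hn
  obtain ⟨h2, hn1, hn2, hn3, hn4, hn5'⟩ := hn
  have hn0 : (0 : ℝ) < n := by exact_mod_cast (show 0 < n by omega)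
  have hen : 2 * (τ : ℝ) + 4 ≤ e * n := by
    have h3 : (2 * (τ : ℝ) + 4) / e ≤ n := hn5.trans (by exact_mod_cast hn5')
    rw [div_le_iff₀ he0] at h3
    linarith
  have hτ0 : (0 : ℝ) ≤ τ := Nat.cast_nonneg τ
  have hL : 0 ≤ Real.logb 2 n := Real.logb_nonneg (by norm_num) (by exact_mod_cast (show 1 ≤ n by omega))
  have hcard : (0 : ℝ) < 2 ^ Fintype.card (Sym2 (Fin n)) := by positivity
  set L := Real.logb 2 n with hLdef
  set K : ℝ := z * L / n with hKdef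
  have hKn : K * n = z * L := by rw [hKdef]; field_simp
  have hK0' : 0 ≤ K := by positivity
  set M : ℝ := max 0 (1 - 2 * b₁ * K) with hMdef
  have hM0 : 0 ≤ M := le_max_left _ _
  have hMle : M ≤ 1 := max_le (by norm_num) (by nlinarith [mul_nonneg (by linarith : (0:ℝ) ≤ b₁) hK0'])
  have ht0 : (0 : ℝ) ≤ t := Nat.cast_nonneg t
  have htM : (t : ℝ) * M ≤ t := mul_le_of_le_one_right ht0 hMle
  have hzK : (1 / 2 - ζ) * z * L = (1 / 2 - ζ) * (K * n) := by rw [hKn]; ring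
  rcases le_or_gt (t : ℝ) (n / (4 * b₁)) with htb | htb
  swap
  · have h0 : ((univ : Finset (Bits n)).filter fun b => (matZ b).det ≠ 0 ∧ Kill ζ (matZ b) z ∧ t ≤ N2 b₁ (matZ b)) = ∅ := by
      rw [filter_eq_empty_iff]
      rintro b - ⟨h1, -, h3⟩
      have h4 := N2_le h2 (by linarith : (0 : ℝ) < b₁) b h1
      have h5 : (t : ℝ) ≤ N2 b₁ (matZ b) := by exact_mod_cast h3
      linarith
    rw [h0, card_empty, Nat.cast_zero]
    positivity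
  by_cases hcase : (t : ℝ) * M ≤ 2 * e * n
  · have h3 := hK0 n hn3 z hz
    have h4 : (((univ : Finset (Bits n)).filter fun b => (matZ b).det ≠ 0 ∧ Kill ζ (matZ b) z ∧
        t ≤ N2 b₁ (matZ b)).card : ℝ) ≤
        (((univ : Finset (Bits n)).filter fun b => (matZ b).det ≠ 0 ∧ Kill ζ (matZ b) z).card : ℝ) := by
      refine Nat.cast_le.2 (card_le_card fun b hb => ?_)
      rw [mem_filter] at hb ⊢
      exact ⟨mem_univ _, hb.2.1, hb.2.2.1⟩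
    refine h4.trans (h3.trans (mul_le_mul_of_nonneg_right ?_ hcard.le))
    refine Real.rpow_le_rpow_of_exponent_le (by norm_num) ?_
    have h5 : 0 ≤ lam' * n := mul_nonneg (hlam.trans hl) hn0.le
    have h6 : ε = 16 * e := by rw [he]; ring
    rw [h6]
    have h7 : 0 ≤ e * n := by positivity
    linarith
  · push Not at hcase
    have hMpos : 0 < M := by
      by_contra h
      have : M = 0 := le_antisymm (not_lt.1 h) hM0
      rw [this, mul_zero] at hcase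
      have : 0 < 2 * e * n := by positivity
      linarith
    have hM1' : M = 1 - 2 * b₁ * K := by
      rcases max_choice 0 (1 - 2 * b₁ * K) with h | h
      · rw [hMdef, h] at hMpos
        exact absurd hMpos (lt_irrefl _)
      · exact h
    have ht2 : 2 * e * n < t := lt_of_lt_of_le hcase htM
    set f : ℕ := ⌊e * n⌋₊ with hf
    have hf1 : (f : ℝ) ≤ e * n := Nat.floor_le (by positivity)
    have hft : f ≤ t := by
      have : (f : ℝ) ≤ t := by linarith [mul_pos he0 hn0]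
      exact_mod_cast this
    set s : ℕ := t - f with hs
    have hs1 : (s : ℝ) = t - f := by rw [hs, Nat.cast_sub hft]
    have hs2 : e * n ≤ s := by rw [hs1]; linarith
    have h3 := hM1 n hn1 (Qf ζ n) (two_le_qf hζ h2) ⌈(n : ℝ) ^ (1 - ζ)⌉₊ z s hs2
    have h4 : (((univ : Finset (Bits n)).filter fun b => (matZ b).det ≠ 0 ∧ Kill ζ (matZ b) z ∧
        t ≤ N2 b₁ (matZ b)).card : ℝ) ≤
        (Nat.card {b : Sym2 (Fin n) → Bool // (matZ b).det ≠ 0 ∧ MTop.Kill (Qf ζ n) ⌈(n : ℝ) ^ (1 - ζ)⌉₊ z (matZ b) ∧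
          s ≤ MTop.N2 (matZ b) ((n : ℝ) ^ b₁) ((n : ℝ) ^ B)} : ℝ) := by
      rw [Nat.card_eq_fintype_card, Fintype.card_subtype]
      refine Nat.cast_le.2 (card_le_card fun b hb => ?_)
      rw [mem_filter] at hb ⊢
      obtain ⟨-, h5, h6, h7⟩ := hb
      refine ⟨mem_univ _, h5, (kill_iff _).2 h6, ?_⟩
      have h8 := N2_split b₁ B (matZ b)
      have h9 := N2_le h2 hB0 b h5
      have h10 : (n : ℝ) / (4 * B) = e * n := by
        rw [hB]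
        field_simp
      rw [h10] at h9
      have h11 : N2 B (matZ b) ≤ f := Nat.le_floor h9
      omega
    refine h4.trans (h3.trans (mul_le_mul_of_nonneg_right ?_ hcard.le))
    -- the density of the killed event
    set Aa : ℝ := (2 : ℝ) ^ (-((1 / 2 - ζ) * z * L) + 2 * e * n) with hAa
    set Ss : ℝ := (2 : ℝ) ^ (-((1 / 2 - e) * n)) with hSs
    have hden : ∀ m ∈ Icc (n - τ) n, MTop.kden m (Qf ζ n) ⌈(n : ℝ) ^ (1 - ζ)⌉₊ (z - τ) ≤ Aa + Ss := by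
      intro m hm
      rw [mem_Icc] at hm
      have hz1 : ((z - τ : ℕ) : ℝ) ≤ z := by exact_mod_cast Nat.sub_le z τ
      have hz2 : (z : ℝ) ≤ ((z - τ : ℕ) : ℝ) + τ := by exact_mod_cast (show z ≤ (z - τ) + τ by omega)
      have h5 := hK1 n hn2 m hm.1 hm.2 (z - τ) ((mul_le_mul_of_nonneg_right hz1 hL).trans hz)
      refine h5.trans (add_le_add (Real.rpow_le_rpow_of_exponent_le (by norm_num) ?_) le_rfl)
      have h6 := hS1 n hn4
      have h7 : (1 / 2 - ζ) * z * L ≤ (1 / 2 - ζ) * ((z - τ : ℕ) : ℝ) * L + (1 / 2 - ζ) * (τ * L) := by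
        have h8 : (1 / 2 - ζ) * L * z ≤ (1 / 2 - ζ) * L * (((z - τ : ℕ) : ℝ) + τ) :=
          mul_le_mul_of_nonneg_left hz2 (mul_nonneg (by linarith) hL)
        linarith
      have h8 : (1 / 2 - ζ) * (τ * L) ≤ 1 * (τ * L) := mul_le_mul_of_nonneg_right (by linarith) (mul_nonneg hτ0 hL)
      linarith
    have hsum : ∑ m ∈ Icc (n - τ) n, MTop.kden m (Qf ζ n) ⌈(n : ℝ) ^ (1 - ζ)⌉₊ (z - τ) ≤ (2 : ℝ) ^ (τ : ℝ) * (Aa + Ss) := by
      refine (sum_le_sum hden).trans ?_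
      rw [sum_const, nsmul_eq_mul]
      refine mul_le_mul_of_nonneg_right ?_ (by positivity)
      rw [Nat.card_Icc, Real.rpow_natCast]
      have h5 : n + 1 - (n - τ) ≤ τ + 1 := by omega
      have h6 : τ + 1 ≤ 2 ^ τ := Nat.lt_two_pow_self
      exact_mod_cast h5.trans h6
    have h6 : ε = 16 * e := by rw [he]; ring
    rw [h6]
    exact fin_real hn0 he0 hτ0 hen (by rw [hs1]; linarith) hzK hK0' hM1' hMpos hMle htb hb hζ0 hl hg ht0 _ hsum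

/-- `MTop.StmtM` (additive term `n / 8` or `n / 7`) gives `StmtMg` with `g = 1 / 8` -/
theorem stmtMg_of {b₁ lam : ℝ} (h : MTop.StmtM b₁ lam) : StmtMg b₁ lam (1 / 8) := by
  intro ε B hε
  obtain ⟨τ, n₀, h1⟩ := h ε B hε
  refine ⟨τ, n₀, fun n hn Qs hQ t z s hs => (h1 n hn Qs hQ t z s hs).trans ?_⟩
  refine mul_le_mul_of_nonneg_right (add_le_add le_rfl ?_) (by positivity)
  refine Real.rpow_le_rpow_of_exponent_le (by norm_num) ?_
  have : (0 : ℝ) ≤ n := Nat.cast_nonneg n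
  linarith

/-- **the bridge** for the statement of `MTop.lean` -/
theorem stmtM_of_top {b₁ lam lam' ζ : ℝ} (hb : 1 ≤ b₁) (hζ0 : 0 ≤ ζ) (hζ : ζ < 1 / 2) (hlam : 0 ≤ lam) (hl : lam ≤ lam')
    (hg : 1 / (4 * b₁) - 1 / 8 ≤ lam') (hM : MTop.StmtM b₁ lam) (hK : Kill0 ζ) (hD : KdenZ ζ) : StmtM lam' b₁ ζ :=
  bridge hb hζ0 hζ hlam hl (by linarith) (stmtMg_of hM) hK hD

/-- for every `lam > 0` some `b₁ < 2` works (`b₁ ∈ [199/100, 2)`) -/
theorem exists_b1 (lam : ℝ) (hlam : 0 < lam) : ∃ b₁ : ℝ, 199 / 100 ≤ b₁ ∧ b₁ < 2 ∧ 1 / (4 * b₁) - 1 / 8 ≤ lam := by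
  refine ⟨max (199 / 100) (2 - lam), le_max_left _ _, max_lt (by norm_num) (by linarith), ?_⟩
  set b := max (199 / 100) (2 - lam) with hb
  have h1 : 199 / 100 ≤ b := le_max_left _ _
  have h2 : 2 - lam ≤ b := le_max_right _ _
  have h3 : 1 / (4 * b) ≤ 1 / 8 + lam := by
    rw [div_le_iff₀ (by linarith)]
    nlinarith
  linarith

/-- **the statement which the final assembly takes**: `StmtM lam b₁ ζ` for every `lam > 0`, some `b₁ < 2` -/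
theorem all_lam (hM : ∀ b₁ : ℝ, 199 / 100 ≤ b₁ → b₁ < 2 → MTop.StmtM b₁ 0)
    (hK : ∀ ζ : ℝ, 0 < ζ → ζ < 1 / 16 → Kill0 ζ) (hD : ∀ ζ : ℝ, 0 < ζ → ζ < 1 / 16 → KdenZ ζ) (lam : ℝ) (hlam : 0 < lam) :
    ∃ b₁ : ℝ, 1 ≤ b₁ ∧ b₁ < 2 ∧ ∀ ζ : ℝ, 0 < ζ → ζ < 1 / 16 → StmtM lam b₁ ζ := by
  obtain ⟨b₁, h1, h2, h3⟩ := exists_b1 lam hlam
  exact ⟨b₁, by linarith, h2, fun ζ hζ hζ' => stmtM_of_top (by linarith) hζ.le (by linarith) le_rfl hlam.le h3 (hM b₁ h1 h2)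
    (hK ζ hζ hζ') (hD ζ hζ hζ')⟩

end Vale.Agent.P160.Half.F.B838
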