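import Vale.Agent.P160.Half.Fin.Kden12
import Vale.Agent.P160.Half.Fin.MBridge838
import Vale.Agent.P160.Half.MSing

/-! # P160, rate 1/2: the density input `KdenZ` of the bridge `MTop.StmtM → F.StmtM` (helper12) -/

namespace Vale.Agent.P160.Half.F.K12

open Finset Matrix Vale.Agent.P160.Half

theorem singHalf : SingHalf := by
  intro e he
  obtain ⟨n0, h⟩ := M8Top.sing (1 / 2 - e) (by linarith)
  exact ⟨n0, fun n hn => h n hn⟩

/-- the density input of the bridge -/
theorem kdenZ {ζ : ℝ} (hζ0 : 0 < ζ) (hζ : ζ < 1 / 2) : B838.KdenZ ζ := by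
  intro e he τ
  obtain ⟨n0, h⟩ := kden_le singHalf hζ0 hζ he τ
  exact ⟨n0, fun n hn m hm hmn z hz => h n hn m hm hmn z hz⟩

end Vale.Agent.P160.Half.F.K12
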