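import Vale.Agent.P160.Half.Kill456
import Vale.Agent.P160.Half.Fin.M14_573
import Vale.Agent.P160.Half.KSmallAs418
import Vale.Agent.P160.Half.Rows2

/-! # P160, final assembly: `KillStmt` (helper525), from the finite form of helper456 -/

open Finset Matrix Filter

namespace Vale.Agent.P160.Half.F.Kill525

open Vale.Agent.P160.Half Vale.Agent.P160.Half.A

theorem num_kill (ε : ℝ) (hε : 0 < ε) : ∃ η : ℝ, 0 < η ∧ ∀ᶠ n : ℕ in atTop, ∀ z r : ℕ, (z : ℝ) * Real.logb 2 n ≤ 4 * n →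
    (r : ℝ) ≤ (Real.logb 2 n + 3) * (31 * Real.sqrt n) →
    Real.log (2 * (n : ℝ) ^ 2) + η * n + z * Real.log (10 / η) + r * Real.log n ≤ (ε * n - 1) * Real.log 2 := by
  have hl2 : 0 < Real.log 2 := Real.log_pos (by norm_num)
  obtain ⟨c, hc⟩ : ∃ c, c = ε * Real.log 2 / 4 := ⟨_, rfl⟩
  have hc0 : 0 < c := by rw [hc]; positivity
  refine ⟨min c 1, lt_min hc0 one_pos, ?_⟩
  set η := min c 1 with hη
  have hη0 : 0 < η := lt_min hc0 one_pos
  have hη1 : η ≤ 1 := min_le_right _ _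
  have hηc : η ≤ c := min_le_left _ _
  have hlη : 0 ≤ Real.log (10 / η) := by
    refine Real.log_nonneg ?_
    rw [le_div_iff₀ hη0]; linarith
  have hcast : Tendsto (fun n : ℕ => (n : ℝ)) atTop atTop := tendsto_natCast_atTop_atTop
  have hlogb : Tendsto (fun n : ℕ => Real.logb 2 (n : ℝ)) atTop atTop :=
    (Real.tendsto_logb_atTop (by norm_num)).comp hcast
  -- `log n ≤ c' n^(1/4)`
  obtain ⟨d, hd⟩ : ∃ d, d = min (c / 248) 1 := ⟨_, rfl⟩
  have hd0 : 0 < d := by rw [hd]; exact lt_min (by positivity) one_pos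
  have h1 := hcast.eventually ((isLittleO_log_rpow_atTop (show (0 : ℝ) < 1 / 4 by norm_num)).bound hd0)
  filter_upwards [h1, hlogb.eventually_ge_atTop (3 + 4 * Real.log (10 / η) / c), eventually_ge_atTop 8,
    hcast.eventually_ge_atTop (16 / c ^ 2 + 16)] with n hn1 hn2 hn3 hn4 z r hz hr
  have hnR : (8 : ℝ) ≤ n := by exact_mod_cast hn3
  have hlog0 : 0 ≤ Real.log n := Real.log_nonneg (by linarith)
  have hE0 : 3 ≤ Real.logb 2 (n : ℝ) := le_trans (by have : 0 ≤ 4 * Real.log (10 / η) / c := by positivity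
                                                     linarith) hn2
  have hE0' : 0 < Real.logb 2 (n : ℝ) := by linarith
  -- the little-o bound
  rw [Real.norm_of_nonneg hlog0, Real.norm_of_nonneg (by positivity)] at hn1
  have hsq : Real.log n ^ 2 ≤ d ^ 2 * Real.sqrt n := by
    have e : ((n : ℝ) ^ (1 / 4 : ℝ)) ^ 2 = Real.sqrt n := by
      rw [← Real.rpow_natCast, ← Real.rpow_mul (by linarith), Real.sqrt_eq_rpow]
      norm_num
    calc Real.log n ^ 2 ≤ (d * (n : ℝ) ^ (1 / 4 : ℝ)) ^ 2 := pow_le_pow_left₀ hlog0 hn1 2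
      _ = d ^ 2 * ((n : ℝ) ^ (1 / 4 : ℝ)) ^ 2 := by ring
      _ = _ := by rw [e]
  have hdd : d ^ 2 ≤ c / 248 := by
    have e1 : d ≤ c / 248 := by rw [hd]; exact min_le_left _ _
    have e2 : d ≤ 1 := by rw [hd]; exact min_le_right _ _
    nlinarith
  have hs0 : 0 ≤ Real.sqrt n := Real.sqrt_nonneg _
  have hss : Real.sqrt n * Real.sqrt n = n := Real.mul_self_sqrt (by linarith)
  have hL2 : Real.sqrt n * Real.log n ^ 2 ≤ c / 248 * n := by
    calc Real.sqrt n * Real.log n ^ 2 ≤ Real.sqrt n * (c / 248 * Real.sqrt n) :=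
          mul_le_mul_of_nonneg_left (hsq.trans (mul_le_mul_of_nonneg_right hdd hs0)) hs0
      _ = c / 248 * (Real.sqrt n * Real.sqrt n) := by ring
      _ = _ := by rw [hss]
  -- (iii)
  have h3 : (r : ℝ) * Real.log n ≤ c * n := by
    have e1 : Real.logb 2 (n : ℝ) + 3 ≤ 2 * Real.logb 2 (n : ℝ) := by linarith
    have e2 : Real.logb 2 (n : ℝ) ≤ 2 * Real.log n := by
      rw [Real.logb, div_le_iff₀ hl2]
      have := Real.log_two_gt_d9
      nlinarith
    calc (r : ℝ) * Real.log n ≤ ((Real.logb 2 n + 3) * (31 * Real.sqrt n)) * Real.log n :=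
          mul_le_mul_of_nonneg_right hr hlog0
      _ ≤ ((4 * Real.log n) * (31 * Real.sqrt n)) * Real.log n := by
          refine mul_le_mul_of_nonneg_right (mul_le_mul_of_nonneg_right (by linarith) (by positivity)) hlog0
      _ = 124 * (Real.sqrt n * Real.log n ^ 2) := by ring
      _ ≤ 124 * (c / 248 * n) := mul_le_mul_of_nonneg_left hL2 (by norm_num)
      _ ≤ c * n := by nlinarith
  -- (ii)
  have h2 : (z : ℝ) * Real.log (10 / η) ≤ c * n := by
    have e1 : 4 * Real.log (10 / η) / c ≤ Real.logb 2 (n : ℝ) := by linarith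
    have e2 : 4 * Real.log (10 / η) ≤ c * Real.logb 2 (n : ℝ) := by
      rw [div_le_iff₀ hc0] at e1; linarith
    have e3 : (z : ℝ) * Real.log (10 / η) * (4 * Real.logb 2 (n : ℝ)) ≤ (c * n) * (4 * Real.logb 2 (n : ℝ)) := by
      calc (z : ℝ) * Real.log (10 / η) * (4 * Real.logb 2 (n : ℝ)) = (z * Real.logb 2 (n : ℝ)) * (4 * Real.log (10 / η)) := by ring
        _ ≤ (4 * n) * (c * Real.logb 2 (n : ℝ)) := mul_le_mul hz e2 (by positivity) (by positivity)
        _ = _ := by ring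
    exact le_of_mul_le_mul_right e3 (by positivity)
  -- (i)
  have h4 : Real.log (2 * (n : ℝ) ^ 2) + Real.log 2 ≤ c * n := by
    have e0 : Real.log (2 * (n : ℝ) ^ 2) = Real.log 2 + 2 * Real.log n := by
      rw [Real.log_mul (by norm_num) (by positivity), Real.log_pow]; push_cast; ring
    have e1 : Real.log 2 ≤ Real.log n := Real.log_le_log (by norm_num) (by linarith)
    -- `4 log n ≤ c n`
    have e2 : Real.log n ≤ Real.sqrt n := by
      have := Real.log_le_sub_one_of_pos (show (0 : ℝ) < Real.sqrt n by positivity)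
      have e3 : Real.log n = 2 * Real.log (Real.sqrt n) := by
        rw [Real.log_sqrt (by linarith)]; ring
      have e4 : Real.log (Real.sqrt n) ≤ Real.sqrt (n : ℝ) / 2 := by
        have := Real.add_one_le_exp (Real.sqrt (n : ℝ) / 2 - 1)
        have h5 : Real.sqrt (n : ℝ) ≤ Real.exp (Real.sqrt n / 2) := by
          have h6 := Real.quadratic_le_exp_of_nonneg (show 0 ≤ Real.sqrt (n : ℝ) / 2 by positivity)
          nlinarith [sq_nonneg (Real.sqrt (n : ℝ) / 2 - 1)]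
        calc Real.log (Real.sqrt n) ≤ Real.log (Real.exp (Real.sqrt n / 2)) := Real.log_le_log (by positivity) h5
          _ = _ := Real.log_exp _
      linarith
    have e5 : 4 / c ≤ Real.sqrt n := by
      rw [Real.le_sqrt' (by positivity)]
      have : (4 / c) ^ 2 = 16 / c ^ 2 := by ring
      rw [this]; linarith
    have e6 : 4 ≤ c * Real.sqrt n := by
      rw [div_le_iff₀ hc0] at e5; linarith
    calc Real.log (2 * (n : ℝ) ^ 2) + Real.log 2 ≤ 4 * Real.log n := by rw [e0]; linarith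
      _ ≤ 4 * Real.sqrt n := by linarith
      _ ≤ (c * Real.sqrt n) * Real.sqrt n := mul_le_mul_of_nonneg_right e6 hs0
      _ = c * n := by rw [mul_assoc, hss]
  have h5 : η * n ≤ c * n := mul_le_mul_of_nonneg_right hηc (by linarith)
  have h6 : (ε * n - 1) * Real.log 2 = 4 * (c * n) - Real.log 2 := by rw [hc]; ring
  rw [h6]
  linarith

theorem choose_bd (n z : ℕ) (η : ℝ) (hη : 0 < η) : (n.choose z : ℝ) ≤ Real.exp (η * n) * (1 / η) ^ z := by
  have h1 := G.KS.choose_small n z η hη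
  have h2 : (1 + η) ^ n ≤ Real.exp (η * n) := by
    calc (1 + η) ^ n ≤ (Real.exp η) ^ n := pow_le_pow_left₀ (by linarith) (by linarith [Real.add_one_le_exp η]) n
      _ = _ := by rw [← Real.exp_nat_mul, mul_comm]
  have h3 : (n.choose z : ℝ) = (n.choose z : ℝ) * η ^ z * (1 / η) ^ z := by
    rw [mul_assoc, ← mul_pow]
    field_simp
    simp
  rw [h3]
  exact mul_le_mul_of_nonneg_right (h1.trans h2) (by positivity)

/-- the finite form, cleaned up -/
theorem part2 (ζ : ℝ) (h0 : 0 < ζ) (h1 : ζ < 1 / 16) (n z k : ℕ) (hn : 81 ≤ n) (η : ℝ) (hη : 0 < η) :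
    (Nat.card {b : Bits n // G.CorLt (matZ b) k ∧ (matZ b).det ≠ 0 ∧ ∃ p, p.Prime ∧
      G.Kill.KV (p ^ Nat.clog p ⌈(n : ℝ) ^ (1 / 2 - ζ)⌉₊) (⌈(n : ℝ) ^ (1 - ζ)⌉₊ - 1) z b} : ℝ) ≤
    (2 * (n : ℝ) ^ 2 * Real.exp (η * n) * (10 / η) ^ z * (n : ℝ) ^ ((Nat.clog 2 ⌈(n : ℝ) ^ (1 / 2 - ζ)⌉₊ + 1) * k)) *
      ((((n : ℝ) ^ (1 / 2 - ζ)) ^ z)⁻¹ * 2 ^ Fintype.card (Sym2 (Fin n))) := by
  have hnR : (81 : ℝ) ≤ n := by exact_mod_cast hn
  have hn1 : (1 : ℝ) ≤ n := by linarith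
  obtain ⟨B, hB⟩ : ∃ B, B = (n : ℝ) ^ (1 / 2 - ζ) := ⟨_, rfl⟩
  obtain ⟨y, hy⟩ : ∃ y, y = ⌈(n : ℝ) ^ (1 / 2 - ζ)⌉₊ := ⟨_, rfl⟩
  obtain ⟨D, hD⟩ : ∃ D, D = ⌈(n : ℝ) ^ (1 - ζ)⌉₊ - 1 := ⟨_, rfl⟩
  rw [← hy, ← hD, ← hB]
  have hB3 : 3 ≤ B := by
    have e1 : (3 : ℝ) = (81 : ℝ) ^ (1 / 4 : ℝ) := by
      rw [show (81 : ℝ) = 3 ^ (4 : ℝ) by norm_num, ← Real.rpow_mul (by norm_num)]
      norm_num
    rw [hB, e1]
    exact (Real.rpow_le_rpow (by norm_num) hnR (by norm_num)).trans (Real.rpow_le_rpow_of_exponent_le hn1 (by linarith))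
  have hB0 : 0 < B := by linarith
  have hBn : B ≤ Real.sqrt n := by
    rw [hB, Real.sqrt_eq_rpow]
    exact Real.rpow_le_rpow_of_exponent_le hn1 (by linarith)
  have hsn : Real.sqrt n + 1 ≤ n := by
    have e1 : Real.sqrt n * Real.sqrt n = n := Real.mul_self_sqrt (by linarith)
    have e2 : 9 ≤ Real.sqrt n := by
      rw [Real.le_sqrt' (by norm_num)]; linarith
    nlinarith
  have hBn' : B ≤ n := by linarith
  have hyB : B ≤ y := by rw [hy, hB]; exact Nat.le_ceil _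
  have hyn : (y : ℝ) ≤ n := by
    have := Nat.ceil_lt_add_one (show 0 ≤ (n : ℝ) ^ (1 / 2 - ζ) by positivity)
    rw [← hy, ← hB] at this
    linarith
  have hy2 : 2 ≤ y := by
    have : (2 : ℝ) ≤ y := by linarith
    exact_mod_cast this
  have hDB : B ≤ Real.sqrt (D + 1) := by
    have e0 : 1 ≤ ⌈(n : ℝ) ^ (1 - ζ)⌉₊ := Nat.one_le_ceil_iff.2 (by positivity)
    have e1 : (n : ℝ) ^ (1 - ζ) ≤ (D : ℝ) + 1 := by
      rw [hD]
      push_cast [Nat.cast_sub e0]
      have := Nat.le_ceil ((n : ℝ) ^ (1 - ζ))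
      linarith
    rw [Real.le_sqrt' hB0]
    refine le_trans ?_ e1
    rw [hB, ← Real.rpow_natCast, ← Real.rpow_mul (by linarith)]
    refine Real.rpow_le_rpow_of_exponent_le hn1 ?_
    push_cast
    linarith
  obtain ⟨q, hq⟩ : ∃ q : ℝ, q = 1 / y + 3 / 2 / Real.sqrt (D + 1) := ⟨_, rfl⟩
  have hq0 : 0 ≤ q := by rw [hq]; positivity
  have hqQ : q ≤ 5 / 2 / B := by
    have e1 : 1 / (y : ℝ) ≤ 1 / B := one_div_le_one_div_of_le hB0 hyB
    have e2 : 3 / 2 / Real.sqrt (D + 1) ≤ 3 / 2 / B := div_le_div_of_nonneg_left (by norm_num) hB0 hDB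
    have e3 : 5 / 2 / B = 1 / B + 3 / 2 / B := by field_simp; norm_num
    rw [hq, e3]
    exact add_le_add e1 e2
  have hQ1 : 5 / 2 / B ≤ 1 := by rw [div_le_one hB0]; linarith
  have hQ0 : 0 < 5 / 2 / B := by positivity
  have key := G.Kill.kill_count (α := Fin n) G.rows2 (G.core2 G.rows2) y D k z q hy2 hq (hqQ.trans hQ1)
  rw [Fintype.card_fin] at key
  set r := (Nat.clog 2 y + 1) * k with hr
  have hpow : q ^ (z - r) ≤ (5 / 2) ^ z * (B ^ z)⁻¹ * (n : ℝ) ^ r := by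
    have e1 : q ^ (z - r) ≤ (5 / 2 / B) ^ (z - r) := pow_le_pow_left₀ hq0 hqQ _
    have e2 : (5 / 2 / B) ^ (z - r) * (5 / 2 / B) ^ r ≤ (5 / 2 / B) ^ z := by
      rw [← pow_add]
      exact pow_le_pow_of_le_one hQ0.le hQ1 (by omega)
    have e3 : 1 ≤ (5 / 2 / B) ^ r * (n : ℝ) ^ r := by
      rw [← mul_pow]
      refine one_le_pow₀ ?_
      rw [div_mul_eq_mul_div, one_le_div hB0]
      linarith
    calc q ^ (z - r) ≤ (5 / 2 / B) ^ (z - r) * 1 := by rw [mul_one]; exact e1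
      _ ≤ (5 / 2 / B) ^ (z - r) * ((5 / 2 / B) ^ r * (n : ℝ) ^ r) := mul_le_mul_of_nonneg_left e3 (by positivity)
      _ = ((5 / 2 / B) ^ (z - r) * (5 / 2 / B) ^ r) * (n : ℝ) ^ r := by ring
      _ ≤ (5 / 2 / B) ^ z * (n : ℝ) ^ r := mul_le_mul_of_nonneg_right e2 (by positivity)
      _ = _ := by rw [div_pow, div_eq_mul_inv]
  have hch := choose_bd n z η hη
  have hyy : (y : ℝ) + (n : ℝ) ^ 2 ≤ 2 * (n : ℝ) ^ 2 := by nlinarith
  calc _ ≤ ((y : ℝ) + (n : ℝ) ^ 2) * ((n.choose z : ℝ) * 4 ^ z) * q ^ (z - r) * 2 ^ Fintype.card (Sym2 (Fin n)) := key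
    _ ≤ (2 * (n : ℝ) ^ 2) * ((Real.exp (η * n) * (1 / η) ^ z) * 4 ^ z) * ((5 / 2) ^ z * (B ^ z)⁻¹ * (n : ℝ) ^ r) *
          2 ^ Fintype.card (Sym2 (Fin n)) := by
        refine mul_le_mul_of_nonneg_right ?_ (by positivity)
        refine mul_le_mul ?_ hpow (by positivity) (by positivity)
        exact mul_le_mul hyy (mul_le_mul_of_nonneg_right hch (by positivity)) (by positivity) (by positivity)
    _ = _ := by
        have e : (10 / η) ^ z = (1 / η) ^ z * 4 ^ z * (5 / 2) ^ z := by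
          rw [← mul_pow, ← mul_pow]
          congr 1
          ring
        rw [e]
        ring

theorem clog_le (n y : ℕ) (hn : 1 ≤ n) (hy : y ≤ n) : (Nat.clog 2 y : ℝ) ≤ Real.logb 2 n + 1 := by
  have h1 : Nat.clog 2 y ≤ Nat.clog 2 n := Nat.clog_mono_right 2 hy
  have h2 : (Nat.clog 2 n : ℝ) ≤ Real.logb 2 n + 1 := by
    rw [← Real.natCeil_logb_natCast]
    have h3 : 0 ≤ Real.logb ((2 : ℕ) : ℝ) (n : ℝ) := Real.logb_nonneg (by norm_num) (by exact_mod_cast hn)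
    have h4 := (Nat.ceil_lt_add_one h3).le
    simpa using h4
  exact le_trans (by exact_mod_cast h1) h2

open Classical in
/-- **KILL**, the exact interface statement -/
theorem killStmt (ζ : ℝ) (h0 : 0 < ζ) (h1 : ζ < 1 / 16) : KillStmt ζ := by
  intro ε hε
  obtain ⟨η, hη, hev⟩ := num_kill ε hε
  obtain ⟨n₁, hn₁⟩ := eventually_atTop.1 hev
  refine ⟨max n₁ 81, fun n hn z hz => ?_⟩
  have hn81 : 81 ≤ n := (le_max_right _ _).trans hn
  have hnum := hn₁ n ((le_max_left _ _).trans hn)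
  have hnR : (81 : ℝ) ≤ n := by exact_mod_cast hn81
  have hE0 : 0 ≤ Real.logb 2 (n : ℝ) := Real.logb_nonneg (by norm_num) (by linarith)
  have hz0 : (0 : ℝ) ≤ z := Nat.cast_nonneg _
  have hcard0 : (0 : ℝ) < 2 ^ Fintype.card (Sym2 (Fin n)) := by positivity
  rcases Nat.eq_zero_or_pos z with hz1 | hz1
  · -- no zeros
    subst hz1
    have e1 : (((univ : Finset (Bits n)).filter fun b => (matZ b).det ≠ 0 ∧ Kill ζ (matZ b) 0).card : ℝ) ≤
        2 ^ Fintype.card (Sym2 (Fin n)) := by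
      have := Finset.card_filter_le (univ : Finset (Bits n)) (fun b => (matZ b).det ≠ 0 ∧ Kill ζ (matZ b) 0)
      rw [card_univ, Fintype.card_fun, Fintype.card_bool] at this
      exact_mod_cast this
    have e2 : (1 : ℝ) ≤ (2 : ℝ) ^ (-((1 / 2 - ζ) * ((0 : ℕ) : ℝ) * Real.logb 2 n) + ε * n) := by
      refine Real.one_le_rpow (by norm_num) ?_
      have : 0 ≤ ε * (n : ℝ) := by positivity
      simp only [Nat.cast_zero, mul_zero, zero_mul, neg_zero, zero_add]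
      exact this
    calc _ ≤ (2 : ℝ) ^ Fintype.card (Sym2 (Fin n)) := e1
      _ = 1 * 2 ^ Fintype.card (Sym2 (Fin n)) := (one_mul _).symm
      _ ≤ _ := mul_le_mul_of_nonneg_right e2 hcard0.le
  -- split
  set k := G.KS.kk 3 n with hk
  obtain ⟨X, hX⟩ : ∃ X, X = (1 / 2 - ζ) * z * Real.logb 2 n := ⟨_, rfl⟩
  rw [← hX]
  have hX0 : X ≤ 2 * n := by
    have e1 : X = (1 / 2 - ζ) * (z * Real.logb 2 n) := by rw [hX]; ring
    have e2 : (1 / 2 - ζ) * (z * Real.logb 2 n) ≤ (1 / 2) * (z * Real.logb 2 n) :=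
      mul_le_mul_of_nonneg_right (by linarith) (by positivity)
    rw [e1]
    linarith
  have hsub : ((univ : Finset (Bits n)).filter fun b => (matZ b).det ≠ 0 ∧ Kill ζ (matZ b) z) ⊆
      (univ.filter fun b : Bits n => ¬ G.CorLt (matZ b) k) ∪
      (univ.filter fun b : Bits n => G.CorLt (matZ b) k ∧ (matZ b).det ≠ 0 ∧ ∃ p, p.Prime ∧
        G.Kill.KV (p ^ Nat.clog p ⌈(n : ℝ) ^ (1 / 2 - ζ)⌉₊) (⌈(n : ℝ) ^ (1 - ζ)⌉₊ - 1) z b) := by
    intro b hb
    obtain ⟨hdet, hK⟩ := (mem_filter.1 hb).2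
    rw [mem_union, mem_filter, mem_filter]
    by_cases hc : G.CorLt (matZ b) k
    · refine Or.inr ⟨mem_univ _, hc, hdet, ?_⟩
      rcases hK with h | ⟨p, hp, u, hu1, hu2, hu3⟩
      · omega
      · refine ⟨p, hp, u, hu2, ?_, ?_⟩
        · have e1 : ⌈(n : ℝ) ^ (1 - ζ)⌉₊ ≤ Nat.card {i // IsUnit (u i)} := Nat.ceil_le.2 hu1
          have e2 : 1 ≤ ⌈(n : ℝ) ^ (1 - ζ)⌉₊ := Nat.one_le_ceil_iff.2 (by positivity)
          have e3 : ⌈(n : ℝ) ^ (1 - ζ)⌉₊ - 1 < Nat.card {i // IsUnit (u i)} := by omega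
          exact e3
        · rw [Nat.card_eq_fintype_card, Fintype.card_subtype] at hu3
          exact hu3
    · exact Or.inl ⟨mem_univ _, hc⟩
  have hA : ((univ.filter fun b : Bits n => ¬ G.CorLt (matZ b) k).card : ℝ) ≤
      (2 : ℝ) ^ (-X + ε * n - 1) * 2 ^ Fintype.card (Sym2 (Fin n)) := by
    have e1 := G.KS.cor_fail 3 n (by omega)
    rw [Nat.card_eq_fintype_card, Fintype.card_subtype] at e1
    refine e1.trans (mul_le_mul_of_nonneg_right ?_ hcard0.le)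
    have e2 : Real.exp (-(((3 : ℕ) : ℝ) * n * Real.log 2)) = (2 : ℝ) ^ (-(3 * (n : ℝ))) := by
      rw [Real.rpow_def_of_pos (by norm_num)]
      congr 1
      push_cast
      ring
    rw [e2]
    refine Real.rpow_le_rpow_of_exponent_le (by norm_num) ?_
    have : 0 ≤ ε * (n : ℝ) := by positivity
    linarith
  have hB : ((univ.filter fun b : Bits n => G.CorLt (matZ b) k ∧ (matZ b).det ≠ 0 ∧ ∃ p, p.Prime ∧
        G.Kill.KV (p ^ Nat.clog p ⌈(n : ℝ) ^ (1 / 2 - ζ)⌉₊) (⌈(n : ℝ) ^ (1 - ζ)⌉₊ - 1) z b).card : ℝ) ≤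
      (2 : ℝ) ^ (-X + ε * n - 1) * 2 ^ Fintype.card (Sym2 (Fin n)) := by
    have e1 := part2 ζ h0 h1 n z k hn81 η hη
    rw [Nat.card_eq_fintype_card, Fintype.card_subtype] at e1
    refine e1.trans ?_
    rw [← mul_assoc]
    refine mul_le_mul_of_nonneg_right ?_ hcard0.le
    -- the power of `n`
    have e2 : (((n : ℝ) ^ (1 / 2 - ζ)) ^ z)⁻¹ = (2 : ℝ) ^ (-X) := by
      have h2 : (n : ℝ) = (2 : ℝ) ^ (Real.logb 2 (n : ℝ)) := (Real.rpow_logb (by norm_num) (by norm_num) (by linarith)).symm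
      rw [Real.rpow_neg (by norm_num)]
      congr 1
      rw [← Real.rpow_natCast, ← Real.rpow_mul (by linarith)]
      conv_lhs => rw [h2]
      rw [← Real.rpow_mul (by norm_num)]
      congr 1
      rw [hX]
      ring
    rw [e2]
    set r := (Nat.clog 2 ⌈(n : ℝ) ^ (1 / 2 - ζ)⌉₊ + 1) * k with hr
    have hyn : ⌈(n : ℝ) ^ (1 / 2 - ζ)⌉₊ ≤ n := by
      refine Nat.ceil_le.2 ?_
      calc (n : ℝ) ^ (1 / 2 - ζ) ≤ (n : ℝ) ^ (1 : ℝ) := Real.rpow_le_rpow_of_exponent_le (by linarith) (by linarith)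
        _ = n := Real.rpow_one _
    have hr' : (r : ℝ) ≤ (Real.logb 2 n + 3) * (31 * Real.sqrt n) := by
      have h3 := clog_le n _ (by omega) hyn
      have h4 := G.KS.kk_le 3 n (by omega)
      rw [hr]
      push_cast
      push_cast at h4
      refine mul_le_mul (by linarith) ?_ (by positivity) (by linarith)
      rw [← hk] at h4
      linarith
    have h5 := hnum z r hz hr'
    have hpos : 0 < 2 * (n : ℝ) ^ 2 * Real.exp (η * n) * (10 / η) ^ z * (n : ℝ) ^ r := by positivity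
    have h6 : 2 * (n : ℝ) ^ 2 * Real.exp (η * n) * (10 / η) ^ z * (n : ℝ) ^ r ≤ (2 : ℝ) ^ (ε * n - 1) := by
      rw [Real.rpow_def_of_pos (by norm_num), ← Real.log_le_iff_le_exp hpos]
      rw [Real.log_mul (by positivity) (by positivity), Real.log_mul (by positivity) (by positivity),
        Real.log_mul (by positivity) (by positivity), Real.log_exp, Real.log_pow, Real.log_pow]
      linarith
    calc _ ≤ (2 : ℝ) ^ (ε * n - 1) * (2 : ℝ) ^ (-X) := mul_le_mul_of_nonneg_right h6 (by positivity)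
      _ = (2 : ℝ) ^ (-X + ε * n - 1) := by
        rw [← Real.rpow_add (by norm_num)]
        congr 1
        ring
  calc _ ≤ (((univ.filter fun b : Bits n => ¬ G.CorLt (matZ b) k) ∪
      (univ.filter fun b : Bits n => G.CorLt (matZ b) k ∧ (matZ b).det ≠ 0 ∧ ∃ p, p.Prime ∧
        G.Kill.KV (p ^ Nat.clog p ⌈(n : ℝ) ^ (1 / 2 - ζ)⌉₊) (⌈(n : ℝ) ^ (1 - ζ)⌉₊ - 1) z b)).card : ℝ) := by
        exact_mod_cast card_le_card hsub
    _ ≤ _ := by exact_mod_cast card_union_le _ _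
    _ ≤ (2 : ℝ) ^ (-X + ε * n - 1) * 2 ^ Fintype.card (Sym2 (Fin n)) +
        (2 : ℝ) ^ (-X + ε * n - 1) * 2 ^ Fintype.card (Sym2 (Fin n)) := add_le_add hA hB
    _ = _ := by
        rw [← two_mul, ← mul_assoc]
        congr 1
        rw [Real.rpow_sub (by norm_num), Real.rpow_one]
        ring

end Vale.Agent.P160.Half.F.Kill525
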