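import Vale.Agent.P160.Half.Fin.LinkK535
import Vale.Agent.P160.Half.Fin.KillM456

/-! # P160, rate 1/2: the bridge with all inputs filled (helper535) -/

namespace Vale.Agent.P160.Half.F

/-- `MTop.StmtM β 0` gives `F.StmtM lam β ζ` for `lam ≥ max 0 (1/(4β) - 1/8)` -/
theorem stmtM_full {β ζ lam : ℝ} (hβ0 : 0 < β) (hlam0 : 0 ≤ lam) (hlam : 1 / (4 * β) ≤ 1 / 8 + lam) (hζ0 : 0 < ζ)
    (hζ : ζ < 1 / 2) (hM : MTop.StmtM β 0) : StmtM lam β ζ :=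
  stmtM_bridge hβ0 hlam0 hlam hζ0.le hζ hM (K456.killStmt ζ hζ0 hζ) (K456.killM ζ hζ0 hζ)

/-- part (M) for all `b₁` close to 2 gives `F.StmtM lam b₁ ζ` for every `lam > 0` and a suitable `b₁` -/
theorem all_lam535 (hM : ∀ b₁ : ℝ, 199 / 100 ≤ b₁ → b₁ < 2 → MTop.StmtM b₁ 0) :
    ∀ lam : ℝ, 0 < lam → ∃ b₁ : ℝ, 1 ≤ b₁ ∧ 199 / 100 ≤ b₁ ∧ b₁ < 2 ∧ ∀ ζ : ℝ, 0 < ζ → ζ < 1 / 16 → StmtM lam b₁ ζ := by
  intro lam hlam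
  obtain ⟨d, hd0, hd1, hd2⟩ : ∃ d : ℝ, 0 < d ∧ d ≤ 1 / 100 ∧ d ≤ lam :=
    ⟨min (1 / 100) lam, lt_min (by norm_num) hlam, min_le_left _ _, min_le_right _ _⟩
  refine ⟨2 - d, by linarith, by linarith, by linarith, fun ζ h0 h1 => ?_⟩
  refine stmtM_full (by linarith) hlam.le ?_ h0 (by linarith) (hM (2 - d) (by linarith) (by linarith))
  rw [div_le_iff₀ (by linarith)]
  nlinarith

/-- the input `hM` of `Top.cor1_zero` -/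
theorem hM535 (hM : ∀ b₁ : ℝ, 199 / 100 ≤ b₁ → b₁ < 2 → MTop.StmtM b₁ 0) :
    ∀ lam : ℝ, 0 < lam → ∃ β : ℝ, 1 ≤ β ∧ β < 2 ∧ ∀ ζ : ℝ, 0 < ζ → ζ < 1 / 16 → StmtM lam β ζ := fun lam hlam => by
  obtain ⟨b, h1, _, h2, h3⟩ := all_lam535 hM lam hlam
  exact ⟨b, h1, h2, h3⟩

end Vale.Agent.P160.Half.F
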