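import Vale.Agent.P160.Half.Fin.LinkM535
import Vale.Agent.P160.Half.Fin.KillM456
import Vale.Agent.P160.Half.DetCor428

/-! # P160, rate 1/2: `KillSub` and the link `MTop.StmtM b₁ 0 → F.StmtM lam b₁ ζ` from `F.Cor1 (1/4)`, without the `1/√2` chain (helper428)

The singular part of `KillSub` comes from `DetCor428.det_of_cor`; proof text of `killSub_of` by helper535. -/

set_option linter.unusedVariables false

namespace Vale.Agent.P160.Half.F.LinkG428

open Finset Matrix Vale.Agent.P160.Half Vale.Agent.P160.Half.A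

theorem killSub_of {ζ : ℝ} (hcor : Cor1 (1 / 4)) (h : K456.KillM ζ) : KillSub ζ := by
  classical
  intro ε τ hε
  obtain ⟨n₁, h₁⟩ := h ε τ hε
  obtain ⟨m₁, hm₁⟩ := DetCor428.det_of_cor (1 / 4) (3 / 8) (by norm_num) (by norm_num) hcor
  refine ⟨max n₁ (max (m₁ + τ) (3 * τ)), fun n hn m hm z hz => ?_⟩
  have hn1 : n₁ ≤ n := le_trans (le_max_left _ _) hn
  have hn2 : m₁ + τ ≤ n := le_trans (le_trans (le_max_left _ _) (le_max_right _ _)) hn
  have hn3 : 3 * τ ≤ n := le_trans (le_trans (le_max_right _ _) (le_max_right _ _)) hn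
  rw [mem_Icc] at hm
  have hcard : (0 : ℝ) < 2 ^ Fintype.card (Sym2 (Fin m)) := by positivity
  have hA := h₁ n hn1 m z hm.1 hm.2 hz
  have hp := hm₁ m (by omega) (Fin m) (Fintype.card_fin m)
  have hdet : (Nat.card {b : Sym2 (Fin m) → Bool // (matZ b).det = 0} : ℝ) ≤
      (2 : ℝ) ^ (-((n : ℝ) / 4)) * 2 ^ Fintype.card (Sym2 (Fin m)) := by
    refine hp.trans (mul_le_mul_of_nonneg_right (Real.rpow_le_rpow_of_exponent_le (by norm_num) ?_) hcard.le)
    have h3 : (n : ℝ) ≤ m + τ := by exact_mod_cast (show n ≤ m + τ by omega)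
    have h4 : 3 * (τ : ℝ) ≤ n := by exact_mod_cast hn3
    linarith
  unfold MTop.kden
  rw [div_le_iff₀ hcard, add_mul]
  have hsplit : (Nat.card {b : Sym2 (Fin m) → Bool // MTop.Kill (Qn ζ n) ⌈(n : ℝ) ^ (1 - ζ)⌉₊ (z - τ) (matZ b)} : ℝ) ≤
      (Nat.card {b : Sym2 (Fin m) → Bool // (matZ b).det ≠ 0 ∧ (z - τ = 0 ∨ ∃ p : ℕ, p.Prime ∧
        ∃ u : Fin m → ZMod (qp ζ n p), (n : ℝ) ^ (1 - ζ) ≤ Nat.card {i // IsUnit (u i)} ∧
          (matZ b).map (Int.cast : ℤ → ZMod (qp ζ n p)) *ᵥ u = 0 ∧ z - τ ≤ Nat.card {i // u i = 0})} : ℝ) +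
      (Nat.card {b : Sym2 (Fin m) → Bool // (matZ b).det = 0} : ℝ) := by
    rw [Nat.card_eq_fintype_card, Nat.card_eq_fintype_card, Nat.card_eq_fintype_card, Fintype.card_subtype,
      Fintype.card_subtype, Fintype.card_subtype]
    norm_cast
    refine (card_le_card ?_).trans (card_union_le _ _)
    intro b hb
    rw [mem_filter] at hb
    rw [mem_union, mem_filter, mem_filter]
    by_cases hd : (matZ b).det = 0
    · exact Or.inr ⟨mem_univ _, hd⟩
    · refine Or.inl ⟨mem_univ _, hd, ?_⟩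
      rcases hb.2 with h0 | ⟨q, ⟨p, hp, rfl⟩, u, hu, hPu, hzu⟩
      · exact Or.inl h0
      · exact Or.inr ⟨p, hp, u, Nat.ceil_le.1 hu, hPu, hzu⟩
  linarith

/-- **the input (M) of the assembly**, every loss `lam > 0`, from `MTop.StmtM b₁ 0` and `F.Cor1 (1/4)` -/
theorem all_lam (hcor : Cor1 (1 / 4)) (hM : ∀ b₁ : ℝ, 199 / 100 ≤ b₁ → b₁ < 2 → MTop.StmtM b₁ 0) (lam : ℝ) (hlam : 0 < lam) :
    ∃ β : ℝ, 1 ≤ β ∧ β < 2 ∧ ∀ ζ : ℝ, 0 < ζ → ζ < 1 / 16 → StmtM lam β ζ := by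
  refine ⟨max (199 / 100) (2 - lam), (by norm_num : (1 : ℝ) ≤ 199 / 100).trans (le_max_left _ _),
    max_lt (by norm_num) (by linarith), fun ζ h0 h1 => ?_⟩
  set b := max (199 / 100) (2 - lam) with hb
  have h2 : 199 / 100 ≤ b := le_max_left _ _
  have h3 : 2 - lam ≤ b := le_max_right _ _
  have h4 : b < 2 := max_lt (by norm_num) (by linarith)
  have h5 : 1 / (4 * b) ≤ 1 / 8 + lam := by
    rw [div_le_iff₀ (by linarith)]
    nlinarith
  exact stmtM_link (by linarith) hlam.le h5 h0.le (by linarith) (hM b h2 h4) (K456.killStmt ζ h0 (by linarith))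
    (killSub_of hcor (K456.killM ζ h0 (by linarith)))

end Vale.Agent.P160.Half.F.LinkG428
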