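import Vale.Agent.P160.Half.Fin.LinkM535
import Vale.Agent.P160.Half.MRec613c

/-! # P160, rate 1/2: `KillSub` from the killed lemma for nonsingular matrices and the landed rate `1/√2` (helper535) -/

set_option linter.unusedVariables false

namespace Vale.Agent.P160.Half.F

open Finset Matrix Vale.Agent.P160.Half Vale.Agent.P160.Half.A

/-- the killed lemma of helper838's text: sizes `m ∈ [n - τ, n]`, moduli and units of size `n`, `z - τ` zeros, `det ≠ 0` -/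
def KillM535 (ζ : ℝ) : Prop := ∀ (e : ℝ) (τ : ℕ), 0 < e → ∃ n₀ : ℕ, ∀ n ≥ n₀, ∀ m z : ℕ, n - τ ≤ m → m ≤ n →
  (z : ℝ) * Real.logb 2 n ≤ 4 * n →
  (Nat.card {b : Sym2 (Fin m) → Bool // (matZ b).det ≠ 0 ∧ (z - τ = 0 ∨ ∃ p : ℕ, p.Prime ∧
    ∃ u : Fin m → ZMod (qp ζ n p), (n : ℝ) ^ (1 - ζ) ≤ Nat.card {i // IsUnit (u i)} ∧
      (matZ b).map (Int.cast : ℤ → ZMod (qp ζ n p)) *ᵥ u = 0 ∧ z - τ ≤ Nat.card {i // u i = 0})} : ℝ) ≤
    (2 : ℝ) ^ (-((1 / 2 - ζ) * z * Real.logb 2 n) + e * n) * 2 ^ Fintype.card (Sym2 (Fin m))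

theorem killSub_of {ζ : ℝ} (h : KillM535 ζ) : KillSub ζ := by
  classical
  intro ε τ hε
  obtain ⟨n₁, h₁⟩ := h ε τ hε
  obtain ⟨m₁, hm₁⟩ := MR.p0_le (1 / 8) (by norm_num) (by norm_num)
  refine ⟨max n₁ (max (m₁ + τ) (3 * τ)), fun n hn m hm z hz => ?_⟩
  have hn1 : n₁ ≤ n := le_trans (le_max_left _ _) hn
  have hn2 : m₁ + τ ≤ n := le_trans (le_trans (le_max_left _ _) (le_max_right _ _)) hn
  have hn3 : 3 * τ ≤ n := le_trans (le_trans (le_max_right _ _) (le_max_right _ _)) hn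
  rw [mem_Icc] at hm
  have hcard : (0 : ℝ) < 2 ^ Fintype.card (Sym2 (Fin m)) := by positivity
  have hA := h₁ n hn1 m z hm.1 hm.2 hz
  have hp := hm₁ m (by omega)
  have hp2 : MR.p0 m ≤ (2 : ℝ) ^ (-((n : ℝ) / 4)) := by
    refine hp.trans (Real.rpow_le_rpow_of_exponent_le (by norm_num) ?_)
    have h3 : (n : ℝ) ≤ m + τ := by exact_mod_cast (show n ≤ m + τ by omega)
    have h4 : 3 * (τ : ℝ) ≤ n := by exact_mod_cast hn3
    linarith
  unfold MTop.kden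
  rw [div_le_iff₀ hcard, add_mul]
  have hsplit : (Nat.card {b : Sym2 (Fin m) → Bool // MTop.Kill (Qn ζ n) ⌈(n : ℝ) ^ (1 - ζ)⌉₊ (z - τ) (matZ b)} : ℝ) ≤
      (Nat.card {b : Sym2 (Fin m) → Bool // (matZ b).det ≠ 0 ∧ (z - τ = 0 ∨ ∃ p : ℕ, p.Prime ∧
        ∃ u : Fin m → ZMod (qp ζ n p), (n : ℝ) ^ (1 - ζ) ≤ Nat.card {i // IsUnit (u i)} ∧
          (matZ b).map (Int.cast : ℤ → ZMod (qp ζ n p)) *ᵥ u = 0 ∧ z - τ ≤ Nat.card {i // u i = 0})} : ℝ) +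
      ((univ.filter fun b : Sym2 (Fin m) → Bool => (matZ b).det = 0).card : ℝ) := by
    rw [Nat.card_eq_fintype_card, Nat.card_eq_fintype_card, Fintype.card_subtype, Fintype.card_subtype]
    norm_cast
    refine (card_le_card ?_).trans (card_union_le _ _)
    intro b hb
    rw [mem_filter] at hb
    rw [mem_union, mem_filter, mem_filter]
    by_cases hd : (matZ b).det = 0
    · exact Or.inr ⟨mem_univ _, hd⟩
    · refine Or.inl ⟨mem_univ _, hd, ?_⟩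
      rcases hb.2 with h0 | ⟨q, ⟨p, hp, rfl⟩, u, hu, hPu, hzu⟩
      · exact Or.inl h0
      · exact Or.inr ⟨p, hp, u, Nat.ceil_le.1 hu, hPu, hzu⟩
  have hdet : ((univ.filter fun b : Sym2 (Fin m) → Bool => (matZ b).det = 0).card : ℝ) ≤
      (2 : ℝ) ^ (-((n : ℝ) / 4)) * 2 ^ Fintype.card (Sym2 (Fin m)) := by
    have h3 : ((univ.filter fun b : Sym2 (Fin m) → Bool => (matZ b).det = 0).card : ℝ) =
        MR.p0 m * 2 ^ Fintype.card (Sym2 (Fin m)) := by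
      unfold MR.p0
      rw [div_mul_cancel₀ _ hcard.ne']
    rw [h3]
    exact mul_le_mul_of_nonneg_right hp2 hcard.le
  linarith

/-- **the bridge**: `MTop.StmtM β 0` and the killed lemma give `F.StmtM lam β ζ`, `lam ≥ max 0 (1/(4β) - 1/8)` -/
theorem stmtM_bridge {β ζ lam : ℝ} (hβ0 : 0 < β) (hlam0 : 0 ≤ lam) (hlam : 1 / (4 * β) ≤ 1 / 8 + lam) (hζ0 : 0 ≤ ζ)
    (hζ : ζ < 1 / 2) (hM : MTop.StmtM β 0) (hK : KillStmt ζ) (hS : KillM535 ζ) : StmtM lam β ζ :=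
  stmtM_link hβ0 hlam0 hlam hζ0 hζ hM hK (killSub_of hS)

end Vale.Agent.P160.Half.F
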