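import Vale.Agent.P160.Half.Fin.M14_573
import Vale.Agent.P160.Half.MTop

/-! # P160, rate 1/2: from `MTop.StmtM b₁ 0` and the killed lemma to `F.StmtM 0 b₁ ζ` (helper535)

`KillSub ζ`: the killed lemma for the sizes `m ∈ [n - τ, n]`, moduli `q_p` of size `n`, without `det ≠ 0`, with additive error `2^(-n/4)`.
`stmtM_link`: `MTop.StmtM β 0 → KillStmt ζ → KillSub ζ → F.StmtM lam β ζ` for `lam ≥ max 0 (1/(4β) - 1/8)`. -/

set_option linter.unusedVariables false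

namespace Vale.Agent.P160.Half.F

open Finset Matrix Vale.Agent.P160.Half Vale.Agent.P160.Half.A

/-- the moduli `q_p` of size `n` -/
def Qn (ζ : ℝ) (n q : ℕ) : Prop := ∃ p : ℕ, p.Prime ∧ q = qp ζ n p

/-- **KILL**, sizes `m ∈ [n - τ, n]`, `z - τ` zeros, density without the condition `det ≠ 0` -/
def KillSub (ζ : ℝ) : Prop := ∀ (ε : ℝ) (τ : ℕ), 0 < ε → ∃ n₀ : ℕ, ∀ n ≥ n₀, ∀ m ∈ Icc (n - τ) n, ∀ z : ℕ,
  (z : ℝ) * Real.logb 2 n ≤ 4 * n →
  MTop.kden m (Qn ζ n) ⌈(n : ℝ) ^ (1 - ζ)⌉₊ (z - τ) ≤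
    (2 : ℝ) ^ (-((1 / 2 - ζ) * z * Real.logb 2 n) + ε * n) + (2 : ℝ) ^ (-((n : ℝ) / 4))

namespace Link535

theorem two_le_qp {ζ : ℝ} (hζ : ζ < 1 / 2) {n : ℕ} (hn : 2 ≤ n) (q : ℕ) (h : Qn ζ n q) : 2 ≤ q := by
  obtain ⟨p, hp, rfl⟩ := h
  unfold qp
  have h1 : 1 < (n : ℝ) ^ (1 / 2 - ζ) :=
    Real.one_lt_rpow (by exact_mod_cast (show 1 < n by omega)) (by linarith)
  have h2 : 2 ≤ ⌈(n : ℝ) ^ (1 / 2 - ζ)⌉₊ := by
    have := Nat.lt_ceil.2 (show ((1 : ℕ) : ℝ) < (n : ℝ) ^ (1 / 2 - ζ) by exact_mod_cast h1)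
    omega
  have h3 : 0 < Nat.clog p ⌈(n : ℝ) ^ (1 / 2 - ζ)⌉₊ := Nat.clog_pos hp.one_lt h2
  calc 2 ≤ p := hp.two_le
    _ = p ^ 1 := (pow_one p).symm
    _ ≤ _ := Nat.pow_le_pow_right hp.pos h3

theorem kill_to {ζ : ℝ} {n : ℕ} {P : Matrix (Fin n) (Fin n) ℤ} {z : ℕ} (h : Kill ζ P z) :
    MTop.Kill (Qn ζ n) ⌈(n : ℝ) ^ (1 - ζ)⌉₊ z P := by
  rcases h with h | ⟨p, hp, u, hu, hPu, hz⟩
  · exact Or.inl h
  · exact Or.inr ⟨qp ζ n p, ⟨p, hp, rfl⟩, u, Nat.ceil_le.2 hu, hPu, hz⟩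

/-- the primes above `n ^ B` are few -/
theorem N2_split {n : ℕ} (hn : 2 ≤ n) {β B : ℝ} (hB : 0 < B) (b : Bits n) (hdet : (matZ b).det ≠ 0) :
    N2 β (matZ b) ≤ MTop.N2 (matZ b) ((n : ℝ) ^ β) ((n : ℝ) ^ B) + ⌊(n : ℝ) / (4 * B)⌋₊ := by
  classical
  have h1 : N2 B (matZ b) ≤ ⌊(n : ℝ) / (4 * B)⌋₊ := Nat.le_floor (M14.N2_le hn hB b hdet)
  have h2 : N2 β (matZ b) ≤ MTop.N2 (matZ b) ((n : ℝ) ^ β) ((n : ℝ) ^ B) + N2 B (matZ b) := by
    unfold N2 MTop.N2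
    refine (card_le_card ?_).trans (card_union_le _ _)
    intro p hp
    rw [mem_filter] at hp
    rw [mem_union]
    rcases le_or_gt ((p : ℝ)) ((n : ℝ) ^ B) with h | h
    · left
      unfold MTop.S2
      rw [mem_filter, mem_range]
      refine ⟨?_, Nat.prime_of_mem_primeFactors hp.1, hp.2.1, ?_⟩
      · have := Nat.le_floor h
        omega
      · have := hp.2.2
        unfold crk at this
        unfold MTop.crk HadN.rP
        rw [Fintype.card_fin]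
        exact this
    · right
      rw [mem_filter]
      exact ⟨hp.1, h.le, hp.2.2⟩
  omega

theorem growth {e : ℝ} (he : 0 < e) (τ : ℕ) : ∃ n₄ : ℕ, ∀ n ≥ n₄, (τ : ℝ) * Real.logb 2 n ≤ e * n ∧
    (τ : ℝ) + 1 ≤ (2 : ℝ) ^ (e * n) ∧ (3 : ℝ) ≤ (2 : ℝ) ^ (e * n) := by
  have hl2 : 0 < Real.log 2 := Real.log_pos (by norm_num)
  have hτ : (0 : ℝ) < (τ : ℝ) + 1 := by positivity
  have h5 := Real.isLittleO_log_id_atTop.bound (show 0 < e * Real.log 2 / ((τ : ℝ) + 1) by positivity)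
  have h6 := (tendsto_natCast_atTop_atTop (R := ℝ)).eventually h5
  obtain ⟨a, ha⟩ := Filter.eventually_atTop.1 h6
  refine ⟨max (max a 1) ⌈((τ : ℝ) + 3) / (e * Real.log 2)⌉₊, fun n hn => ?_⟩
  have hna : a ≤ n := le_trans (le_trans (le_max_left _ _) (le_max_left _ _)) hn
  have hn1 : 1 ≤ n := le_trans (le_trans (le_max_right _ _) (le_max_left _ _)) hn
  have hN : (1 : ℝ) ≤ n := by exact_mod_cast hn1
  have h7 : ((τ : ℝ) + 3) / (e * Real.log 2) ≤ n :=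
    (Nat.le_ceil _).trans (by exact_mod_cast (le_trans (le_max_right _ _) hn))
  have h8 : (τ : ℝ) + 3 ≤ n * (e * Real.log 2) := (div_le_iff₀ (by positivity)).1 h7
  have h9 : (τ : ℝ) + 4 ≤ (2 : ℝ) ^ (e * n) := by
    rw [Real.rpow_def_of_pos (by norm_num)]
    have h10 := Real.add_one_le_exp (Real.log 2 * (e * n))
    have h11 : Real.log 2 * (e * n) = n * (e * Real.log 2) := by ring
    linarith
  have hτ0 : (0 : ℝ) ≤ τ := Nat.cast_nonneg τ
  refine ⟨?_, by linarith, by linarith⟩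
  have h12 := ha n hna
  rw [id, Real.norm_of_nonneg (Real.log_nonneg hN), Real.norm_of_nonneg (by linarith)] at h12
  rw [Real.logb, ← mul_div_assoc, div_le_iff₀ hl2]
  calc (τ : ℝ) * Real.log n ≤ ((τ : ℝ) + 1) * (e * Real.log 2 / ((τ : ℝ) + 1) * n) :=
        mul_le_mul (by linarith) h12 (Real.log_nonneg hN) hτ.le
    _ = e * n * Real.log 2 := by field_simp

/-- real arithmetic of the exponents -/
theorem expo {N L Z T β ζ : ℝ} (hN : 0 < N) (hβ0 : 0 < β) (hζ0 : 0 ≤ ζ) (hZ : 0 ≤ Z) (hL : 0 ≤ L)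
    (hT0 : 0 ≤ T) (hT : T ≤ N / (4 * β)) (hk : 2 * β * (Z * L / N) ≤ 1) :
    (1 / 2 - ζ) * Z * L + T * max 0 (1 - 2 * β * (Z * L / N)) ≤ N / (4 * β) := by
  rw [max_eq_right (by linarith)]
  have h1 : 0 ≤ Z * L := mul_nonneg hZ hL
  have h2 : (1 / 2 - ζ) * Z * L ≤ 1 / 2 * (Z * L) := by
    have : 0 ≤ ζ * (Z * L) := mul_nonneg hζ0 h1
    linarith
  have h3 : T * (1 - 2 * β * (Z * L / N)) ≤ N / (4 * β) * (1 - 2 * β * (Z * L / N)) :=
    mul_le_mul_of_nonneg_right hT (by linarith)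
  have h4 : N / (4 * β) * (1 - 2 * β * (Z * L / N)) = N / (4 * β) - 1 / 2 * (Z * L) := by
    field_simp
    ring
  linarith

end Link535

open Link535 in
/-- **LINK** -/
theorem stmtM_link {β ζ lam : ℝ} (hβ0 : 0 < β) (hlam0 : 0 ≤ lam) (hlam : 1 / (4 * β) ≤ 1 / 8 + lam) (hζ0 : 0 ≤ ζ) (hζ : ζ < 1 / 2)
    (hM : MTop.StmtM β 0) (hK : KillStmt ζ) (hS : KillSub ζ) : StmtM lam β ζ := by
  classical
  intro ε hε
  -- small parameters
  set e : ℝ := min (ε / 16) (1 / 100) with he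
  have he0 : 0 < e := lt_min (by linarith) (by norm_num)
  have he1 : e ≤ ε / 16 := min_le_left _ _
  have he2 : e ≤ 1 / 100 := min_le_right _ _
  set B : ℝ := 1 / (4 * e) with hB
  have hB0 : 0 < B := by positivity
  have hB4 : ∀ x : ℝ, x / (4 * B) = e * x := fun x => by rw [hB]; field_simp
  obtain ⟨n₁, h₁⟩ := hK e he0
  obtain ⟨τ, n₂, h₂⟩ := hM e B he0
  obtain ⟨n₃, h₃⟩ := hS e τ he0
  -- growth
  obtain ⟨n₄, h₄⟩ : ∃ n₄ : ℕ, ∀ n ≥ n₄, (τ : ℝ) * Real.logb 2 n ≤ e * n ∧ (τ : ℝ) + 1 ≤ (2 : ℝ) ^ (e * n) ∧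
      (3 : ℝ) ≤ (2 : ℝ) ^ (e * n) := growth he0 τ
  refine ⟨max (max n₁ n₂) (max (max n₃ n₄) 2), fun n hn z t hz => ?_⟩
  have hn1 : n₁ ≤ n := le_trans (le_trans (le_max_left _ _) (le_max_left _ _)) hn
  have hn2 : n₂ ≤ n := le_trans (le_trans (le_max_right _ _) (le_max_left _ _)) hn
  have hn3 : n₃ ≤ n := le_trans (le_trans (le_trans (le_max_left _ _) (le_max_left _ _)) (le_max_right _ _)) hn
  have hn4 : n₄ ≤ n := le_trans (le_trans (le_trans (le_max_right _ _) (le_max_left _ _)) (le_max_right _ _)) hn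
  have hn22 : 2 ≤ n := le_trans (le_trans (le_max_right _ _) (le_max_right _ _)) hn
  obtain ⟨g1, g2, g3⟩ := h₄ n hn4
  have hN : (0 : ℝ) < n := by exact_mod_cast (show 0 < n by omega)
  set L : ℝ := Real.logb 2 n with hL
  have hL0 : 0 ≤ L := Real.logb_nonneg (by norm_num) (by exact_mod_cast (show 1 ≤ n by omega))
  have hcard : (0 : ℝ) < 2 ^ Fintype.card (Sym2 (Fin n)) := by positivity
  have hZ0 : (0 : ℝ) ≤ z := Nat.cast_nonneg z
  have ht0 : (0 : ℝ) ≤ t := Nat.cast_nonneg t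
  -- empty case
  rcases lt_or_ge ((n : ℝ) / (4 * β)) t with ht | ht
  · have h0 : ((univ : Finset (Bits n)).filter fun b => (matZ b).det ≠ 0 ∧ Kill ζ (matZ b) z ∧ t ≤ N2 β (matZ b)) = ∅ := by
      rw [filter_eq_empty_iff]
      rintro b - ⟨h1, -, h2⟩
      have h3 := M14.N2_le hn22 hβ0 b h1
      have h4 : (t : ℝ) ≤ N2 β (matZ b) := by exact_mod_cast h2
      linarith
    rw [h0, card_empty, Nat.cast_zero]
    positivity
  -- killed lemma alone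
  by_cases hA : (t : ℝ) * max 0 (1 - 2 * β * (z * L / n)) ≤ 2 * e * n
  · refine le_trans ?_ ((h₁ n hn1 z hz).trans ?_)
    · exact_mod_cast card_le_card fun b hb => by
        rw [mem_filter] at hb ⊢
        exact ⟨hb.1, hb.2.1, hb.2.2.1⟩
    · refine mul_le_mul_of_nonneg_right ?_ hcard.le
      refine Real.rpow_le_rpow_of_exponent_le (by norm_num) ?_
      have h5 : e * (n : ℝ) ≤ ε / 16 * n := mul_le_mul_of_nonneg_right he1 hN.le
      have h6 : 0 ≤ ε * (n : ℝ) := by positivity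
      have h7 : 0 ≤ lam * (n : ℝ) := by positivity
      linarith
  · push Not at hA
    have hk : 2 * β * (z * L / n) ≤ 1 := by
      by_contra hcon
      push Not at hcon
      rw [max_eq_left (by linarith), mul_zero] at hA
      have : 0 < 2 * e * n := by positivity
      linarith
    have hmax1 : max 0 (1 - 2 * β * ((z : ℝ) * L / n)) ≤ 1 := by
      refine max_le zero_le_one ?_
      have : 0 ≤ 2 * β * ((z : ℝ) * L / n) := by positivity
      linarith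
    have ht2 : 2 * e * n < t := by
      refine lt_of_lt_of_le hA ?_
      calc (t : ℝ) * max 0 (1 - 2 * β * (z * L / n)) ≤ t * 1 := mul_le_mul_of_nonneg_left hmax1 ht0
        _ = t := mul_one _
    set s : ℕ := t - ⌊(n : ℝ) / (4 * B)⌋₊ with hs
    have hfl : ((⌊(n : ℝ) / (4 * B)⌋₊ : ℕ) : ℝ) ≤ e * n := by
      refine (Nat.floor_le (by positivity)).trans ?_
      rw [hB4]
    have hs1 : (t : ℝ) - e * n ≤ s := by
      have h5 : t ≤ s + ⌊(n : ℝ) / (4 * B)⌋₊ := by omega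
      have h6 : (t : ℝ) ≤ s + ((⌊(n : ℝ) / (4 * B)⌋₊ : ℕ) : ℝ) := by exact_mod_cast h5
      linarith
    have hs2 : e * n ≤ s := by linarith
    have hmain := h₂ n hn2 (Qn ζ n) (two_le_qp hζ hn22) ⌈(n : ℝ) ^ (1 - ζ)⌉₊ z s hs2
    have hsub : (((univ : Finset (Bits n)).filter fun b => (matZ b).det ≠ 0 ∧ Kill ζ (matZ b) z ∧
        t ≤ N2 β (matZ b)).card : ℝ) ≤
        (Nat.card {b : Sym2 (Fin n) → Bool // (matZ b).det ≠ 0 ∧
          MTop.Kill (Qn ζ n) ⌈(n : ℝ) ^ (1 - ζ)⌉₊ z (matZ b) ∧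
          s ≤ MTop.N2 (matZ b) ((n : ℝ) ^ β) ((n : ℝ) ^ B)} : ℝ) := by
      rw [Nat.card_eq_fintype_card, Fintype.card_subtype]
      refine Nat.cast_le.2 (card_le_card fun b hb => ?_)
      rw [mem_filter] at hb ⊢
      refine ⟨mem_univ _, hb.2.1, kill_to hb.2.2.1, ?_⟩
      have h5 := N2_split (β := β) hn22 hB0 b hb.2.1
      have h6 := hb.2.2.2
      omega
    refine hsub.trans (hmain.trans (mul_le_mul_of_nonneg_right ?_ hcard.le))
    -- bound of the sum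
    set X : ℝ := (1 / 2 - ζ) * z * L + t * max 0 (1 - 2 * β * (z * L / n)) with hX
    have hX7 : X ≤ n / 8 + lam * n := by
      have h5 : X ≤ n / (4 * β) := expo hN hβ0 hζ0 hZ0 hL0 ht0 ht hk
      have h6 : (n : ℝ) / (4 * β) = 1 / (4 * β) * n := by ring
      have h7 : 1 / (4 * β) * (n : ℝ) ≤ (1 / 8 + lam) * n := mul_le_mul_of_nonneg_right hlam hN.le
      rw [h6] at h5
      linarith
    have hlamn : 0 ≤ lam * (n : ℝ) := by positivity
    have hterm : ∀ m ∈ Icc (n - τ) n, MTop.kden m (Qn ζ n) ⌈(n : ℝ) ^ (1 - ζ)⌉₊ (z - τ) ≤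
        (2 : ℝ) ^ (-((1 / 2 - ζ) * z * L) + 2 * e * n) + (2 : ℝ) ^ (-((n : ℝ) / 4)) := by
      intro m hm
      refine (h₃ n hn3 m hm z hz).trans (add_le_add ?_ le_rfl)
      refine Real.rpow_le_rpow_of_exponent_le (by norm_num) ?_
      have h5 : 0 < e * (n : ℝ) := by positivity
      show -((1 / 2 - ζ) * z * L) + e * n ≤ -((1 / 2 - ζ) * z * L) + 2 * e * n
      linarith
    have hsum : ∑ m ∈ Icc (n - τ) n, MTop.kden m (Qn ζ n) ⌈(n : ℝ) ^ (1 - ζ)⌉₊ (z - τ) ≤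
        (2 : ℝ) ^ (e * n) * ((2 : ℝ) ^ (-((1 / 2 - ζ) * z * L) + 2 * e * n) + (2 : ℝ) ^ (-((n : ℝ) / 4))) := by
      refine (sum_le_sum hterm).trans ?_
      rw [sum_const, nsmul_eq_mul]
      refine mul_le_mul_of_nonneg_right ?_ (by positivity)
      refine le_trans ?_ g2
      rw [Nat.card_Icc]
      have : n + 1 - (n - τ) ≤ τ + 1 := by omega
      exact_mod_cast this
    have hfac : (2 : ℝ) ^ (-((s : ℝ) - 0 * n) + e * n) ≤ (2 : ℝ) ^ (-(t : ℝ) + 2 * e * n) := by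
      refine Real.rpow_le_rpow_of_exponent_le (by norm_num) ?_
      linarith
    have hprod : (∑ m ∈ Icc (n - τ) n, MTop.kden m (Qn ζ n) ⌈(n : ℝ) ^ (1 - ζ)⌉₊ (z - τ)) *
        (2 : ℝ) ^ (-((s : ℝ) - 0 * n) + e * n) ≤
        (2 : ℝ) ^ (e * n) * ((2 : ℝ) ^ (-((1 / 2 - ζ) * z * L) + 2 * e * n) + (2 : ℝ) ^ (-((n : ℝ) / 4))) *
          (2 : ℝ) ^ (-(t : ℝ) + 2 * e * n) :=
      mul_le_mul hsum hfac (by positivity) (by positivity)
    have hp1 : (2 : ℝ) ^ (e * n) * ((2 : ℝ) ^ (-((1 / 2 - ζ) * z * L) + 2 * e * n) + (2 : ℝ) ^ (-((n : ℝ) / 4))) *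
          (2 : ℝ) ^ (-(t : ℝ) + 2 * e * n) =
        (2 : ℝ) ^ (e * n + (-((1 / 2 - ζ) * z * L) + 2 * e * n) + (-(t : ℝ) + 2 * e * n)) +
        (2 : ℝ) ^ (e * n + (-((n : ℝ) / 4)) + (-(t : ℝ) + 2 * e * n)) := by
      rw [Real.rpow_add (by norm_num) (e * n + (-((1 / 2 - ζ) * z * L) + 2 * e * n)) _,
        Real.rpow_add (by norm_num) (e * n) (-((1 / 2 - ζ) * z * L) + 2 * e * n),
        Real.rpow_add (by norm_num) (e * n + (-((n : ℝ) / 4))) _, Real.rpow_add (by norm_num) (e * n) (-((n : ℝ) / 4))]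
      ring
    have htm : (t : ℝ) * max 0 (1 - 2 * β * (z * L / n)) ≤ t := by
      calc (t : ℝ) * max 0 (1 - 2 * β * (z * L / n)) ≤ t * 1 := mul_le_mul_of_nonneg_left hmax1 ht0
        _ = t := mul_one _
    have hen : e * (n : ℝ) ≤ 1 / 100 * n := mul_le_mul_of_nonneg_right he2 hN.le
    have hen0 : 0 ≤ e * (n : ℝ) := by positivity
    have q1 : (2 : ℝ) ^ (e * n + (-((1 / 2 - ζ) * z * L) + 2 * e * n) + (-(t : ℝ) + 2 * e * n)) ≤
        (2 : ℝ) ^ (-X + lam * n + 5 * (e * n)) := by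
      refine Real.rpow_le_rpow_of_exponent_le (by norm_num) ?_
      rw [hX]
      linarith
    have q2 : (2 : ℝ) ^ (e * n + (-((n : ℝ) / 4)) + (-(t : ℝ) + 2 * e * n)) ≤ (2 : ℝ) ^ (-X + lam * n + 5 * (e * n)) := by
      refine Real.rpow_le_rpow_of_exponent_le (by norm_num) ?_
      linarith
    have q3 : (2 : ℝ) ^ (-(n / 8 : ℝ)) ≤ (2 : ℝ) ^ (-X + lam * n + 5 * (e * n)) := by
      refine Real.rpow_le_rpow_of_exponent_le (by norm_num) ?_
      linarith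
    have q4 : (3 : ℝ) * (2 : ℝ) ^ (-X + lam * n + 5 * (e * n)) ≤ (2 : ℝ) ^ (-X + (lam + ε) * n) := by
      calc (3 : ℝ) * (2 : ℝ) ^ (-X + lam * n + 5 * (e * n)) ≤ (2 : ℝ) ^ (e * n) * (2 : ℝ) ^ (-X + lam * n + 5 * (e * n)) :=
            mul_le_mul_of_nonneg_right g3 (by positivity)
        _ = (2 : ℝ) ^ (e * n + (-X + lam * n + 5 * (e * n))) := (Real.rpow_add (by norm_num) _ _).symm
        _ ≤ _ := by
            refine Real.rpow_le_rpow_of_exponent_le (by norm_num) ?_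
            have h5 : e * (n : ℝ) ≤ ε / 16 * n := mul_le_mul_of_nonneg_right he1 hN.le
            have h6 : 0 ≤ ε * (n : ℝ) := by positivity
            linarith
    rw [hp1] at hprod
    linarith

end Vale.Agent.P160.Half.F
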