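import Vale.Agent.P160.Half.Fin.Expo602

/-! # P160, rate 1/2: the real-number lemma of the union bound, matched to `FSplit.Good` (helper602) -/

namespace Vale.Agent.P160.Half.Expo602

/-- exponent of one term: gain of `StmtM` against the label cost of `Good` (any sign of `1/2 - 2βt/n`) -/
theorem expo_good (n L β ζ δ z t : ℝ) (hn : 0 < n) (hL : 0 ≤ L) (hβ : 0 ≤ β) (hζ : 0 ≤ ζ) (hδ : 0 ≤ δ) (hδ' : δ ≤ 1)
    (hz : 0 ≤ z) (ht : 0 ≤ t) (hzL : z * L ≤ 4 * n) :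
    t + (1 + δ) * (z + 1) * (1 / 2 - 2 * β * t / n) * L - ((1 / 2 - ζ) * z * L + t * max 0 (1 - 2 * β * (z * L / n))) ≤
      (4 * ζ + 2 * δ) * n + L := by
  have h1 : (δ * (z + 1) + 1) * ((1 / 2 - 2 * β * t / n) * L) ≤ (δ * (z + 1) + 1) * (1 / 2 * L) := by
    refine mul_le_mul_of_nonneg_left ?_ (by positivity)
    refine mul_le_mul_of_nonneg_right ?_ hL
    have : 0 ≤ 2 * β * t / n := by positivity
    linarith
  have h2 : (1 + δ) * (z + 1) * (1 / 2 - 2 * β * t / n) * L =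
      z * L / 2 - t * (2 * β * (z * L / n)) + (δ * (z + 1) + 1) * ((1 / 2 - 2 * β * t / n) * L) := by
    field_simp
    ring
  have h3 : t * (1 - 2 * β * (z * L / n)) ≤ t * max 0 (1 - 2 * β * (z * L / n)) :=
    mul_le_mul_of_nonneg_left (le_max_right _ _) ht
  have h4 : δ * (z * L) ≤ δ * (4 * n) := mul_le_mul_of_nonneg_left hzL hδ
  have h5 : ζ * (z * L) ≤ ζ * (4 * n) := mul_le_mul_of_nonneg_left hzL hζ
  have h6 : δ * L ≤ 1 * L := mul_le_mul_of_nonneg_right hδ' hL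
  rw [h2]
  nlinarith

/-- **num**: with these `ζ, δ` (every smaller `ζ`, `δ` is allowed too) a term of the union bound, times `(n+2)^k`, is at most `2^((lam+ε)n)` -/
theorem num (lam β ε : ℝ) (hβ : 0 ≤ β) (hε : 0 < ε) (k : ℕ) (ζ δ : ℝ) (hζ : 0 < ζ) (hζ' : ζ ≤ ε / 32) (hδ : 0 < δ) (hδ' : δ ≤ 1 / 2)
    (hδ'' : δ ≤ ε / 32) :
    ∃ n₀ : ℕ, ∀ n ≥ n₀, ∀ z t : ℕ, (z : ℝ) * Real.logb 2 n ≤ 4 * n →
      ((n : ℝ) + 2) ^ k * ((2 : ℝ) ^ (-((1 / 2 - ζ) * z * Real.logb 2 n + t * max 0 (1 - 2 * β * (z * Real.logb 2 n / n))) +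
        (lam + δ) * n) * ((2 : ℝ) ^ (δ * n) * (2 : ℝ) ^ ((t : ℝ) + δ * n +
          (1 + δ) * ((z : ℝ) + 1) * (1 / 2 - 2 * β * t / n) * Real.logb 2 n + δ * n))) ≤ (2 : ℝ) ^ ((lam + ε) * n) := by
  obtain ⟨n₁, h1⟩ := absorb k (ε / 4) (by positivity)
  obtain ⟨n₂, -, h2⟩ := logb_le (ε / 8) (by positivity)
  refine ⟨max (max n₁ n₂) 1, fun n hn z t hzL => ?_⟩
  have hn1 := h1 n (((le_max_left _ _).trans (le_max_left _ _)).trans hn)
  have hn2 := h2 n (((le_max_right _ _).trans (le_max_left _ _)).trans hn)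
  have hn3 : 1 ≤ n := (le_max_right _ _).trans hn
  have hn0 : (0 : ℝ) < n := by positivity
  have hL : 0 ≤ Real.logb 2 n := Real.logb_nonneg (by norm_num) (by exact_mod_cast hn3)
  have hmain := expo_good n (Real.logb 2 n) β ζ δ z t hn0 hL hβ hζ.le hδ.le (by linarith) (by positivity) (by positivity) hzL
  refine (mul_le_mul_of_nonneg_right hn1 (by positivity)).trans ?_
  rw [← Real.rpow_add (by norm_num), ← Real.rpow_add (by norm_num), ← Real.rpow_add (by norm_num)]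
  refine Real.rpow_le_rpow_of_exponent_le (by norm_num) ?_
  have h3 : ζ * n ≤ ε / 32 * n := mul_le_mul_of_nonneg_right hζ' hn0.le
  have h4 : δ * n ≤ ε / 32 * n := mul_le_mul_of_nonneg_right hδ'' hn0.le
  have h5 : 0 ≤ ε * n := by positivity
  nlinarith

/-- killed minors with `z log₂ n > 4 n`: the level `z₀ = ⌊4 n / log₂ n⌋` alone is enough (no labels) -/
theorem num_big (lam ε : ℝ) (hε : 0 < ε) (k : ℕ) (ζ δ : ℝ) (hζ : ζ < 1 / 16) (hδ : δ ≤ ε / 4) :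
    ∃ n₀ : ℕ, ∀ n ≥ n₀, 1 ≤ ⌊4 * (n : ℝ) / Real.logb 2 n⌋₊ ∧ ((⌊4 * (n : ℝ) / Real.logb 2 n⌋₊ : ℕ) : ℝ) * Real.logb 2 n ≤ 4 * n ∧
      (∀ z : ℕ, 4 * (n : ℝ) < z * Real.logb 2 n → ⌊4 * (n : ℝ) / Real.logb 2 n⌋₊ ≤ z) ∧ ∀ m : ℝ, 0 ≤ m →
      ((n : ℝ) + 2) ^ k * (2 : ℝ) ^ (-((1 / 2 - ζ) * ((⌊4 * (n : ℝ) / Real.logb 2 n⌋₊ : ℕ) : ℝ) * Real.logb 2 n + m) + (lam + δ) * n) ≤
        (2 : ℝ) ^ (-((1 - lam - ε) * n)) := by
  obtain ⟨n₁, h1⟩ := absorb k (min (1 / 4) (ε / 4)) (by positivity)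
  obtain ⟨n₂, h20, h2⟩ := logb_le (1 / 8) (by norm_num)
  refine ⟨max n₁ n₂, fun n hn => ?_⟩
  have hn1 := h1 n ((le_max_left _ _).trans hn)
  have hn2 := h2 n ((le_max_right _ _).trans hn)
  have hn3 : 2 ≤ n := h20.trans ((le_max_right _ _).trans hn)
  have hn0 : (0 : ℝ) < n := by positivity
  have hL : 0 < Real.logb 2 n := Real.logb_pos (by norm_num) (by exact_mod_cast (by omega : 1 < n))
  have hfl : ((⌊4 * (n : ℝ) / Real.logb 2 n⌋₊ : ℕ) : ℝ) * Real.logb 2 n ≤ 4 * n := by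
    have := Nat.floor_le (a := 4 * (n : ℝ) / Real.logb 2 n) (by positivity)
    calc _ ≤ 4 * (n : ℝ) / Real.logb 2 n * Real.logb 2 n := mul_le_mul_of_nonneg_right this hL.le
      _ = 4 * n := by field_simp
  refine ⟨?_, hfl, ?_, ?_⟩
  · rw [Nat.one_le_floor_iff, le_div_iff₀ hL]
    linarith
  · intro z hz
    refine Nat.floor_le_of_le ?_
    rw [div_le_iff₀ hL]
    exact hz.le
  · intro m hm
    have h3 : 4 * (n : ℝ) - Real.logb 2 n ≤ ((⌊4 * (n : ℝ) / Real.logb 2 n⌋₊ : ℕ) : ℝ) * Real.logb 2 n := by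
      have := (Nat.lt_floor_add_one (4 * (n : ℝ) / Real.logb 2 n)).le
      have := mul_le_mul_of_nonneg_right this hL.le
      have e : 4 * (n : ℝ) / Real.logb 2 n * Real.logb 2 n = 4 * n := by field_simp
      rw [e] at this
      linarith
    refine (mul_le_mul_of_nonneg_right hn1 (by positivity)).trans ?_
    rw [← Real.rpow_add (by norm_num)]
    refine Real.rpow_le_rpow_of_exponent_le (by norm_num) ?_
    rw [mul_assoc (1 / 2 - ζ)]
    generalize ((⌊4 * (n : ℝ) / Real.logb 2 n⌋₊ : ℕ) : ℝ) * Real.logb 2 n = y at h3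
    have h4 : (7 / 16 : ℝ) * y ≤ (1 / 2 - ζ) * y := by
      refine mul_le_mul_of_nonneg_right (by linarith) ?_
      linarith
    have h5 : min (1 / 4) (ε / 4) * (n : ℝ) ≤ ε / 4 * n := mul_le_mul_of_nonneg_right (min_le_right _ _) hn0.le
    have h6 : δ * n ≤ ε / 4 * n := mul_le_mul_of_nonneg_right hδ hn0.le
    have h7 : 0 ≤ ε * n := by positivity
    nlinarith

end Vale.Agent.P160.Half.Expo602
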