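import Vale.Agent.P160.Half.MRow205
import Vale.Agent.P160.Half.Fin.FStmt

/-! # P160, fallback H3: `F.StmtM (lamRow b) b ζ` from the one-row bound and the killed lemma -/

open Finset Matrix

namespace Vale.Agent.P160.Half.F.Row205

open Vale.Agent.P160.Half Vale.Agent.P160.Half.A Vale.Agent.P160.Half.MRow205

/-- the killed lemma, sizes `m ∈ [n - τ, n]`, moduli and units of size `n`, `z - τ` zeros (text of helper838) -/
def KillM (ζ : ℝ) : Prop := ∀ (e : ℝ) (τ : ℕ), 0 < e → ∃ n₀ : ℕ, ∀ n ≥ n₀, ∀ m z : ℕ, n - τ ≤ m → m ≤ n →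
  (z : ℝ) * Real.logb 2 n ≤ 4 * n →
  (Nat.card {b : Sym2 (Fin m) → Bool // (matZ b).det ≠ 0 ∧ (z - τ = 0 ∨ ∃ p : ℕ, p.Prime ∧
    ∃ u : Fin m → ZMod (qp ζ n p), (n : ℝ) ^ (1 - ζ) ≤ Nat.card {i // IsUnit (u i)} ∧
      (matZ b).map (Int.cast : ℤ → ZMod (qp ζ n p)) *ᵥ u = 0 ∧ z - τ ≤ Nat.card {i // u i = 0})} : ℝ) ≤
    (2 : ℝ) ^ (-((1 / 2 - ζ) * z * Real.logb 2 n) + e * n) * 2 ^ Fintype.card (Sym2 (Fin m))

open Classical in
/-- density of an event together with `det ≠ 0` -/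
noncomputable def densD (E : MRow205.Ev) (m z : ℕ) : ℝ :=
  ((univ.filter fun b : Sym2 (Fin m) → Bool => (matZ b).det ≠ 0 ∧ E m z b).card : ℝ) / Dn m

theorem densD_nonneg (E : MRow205.Ev) (m z : ℕ) : 0 ≤ densD E m z := by
  unfold densD
  have := Dn_pos m
  positivity

theorem Gm_le_densD (E : MRow205.Ev) {m n : ℕ} (hm : 2 ≤ m) (hmn : m ≤ n) (b : ℝ) (hb : 0 < b) (t z : ℕ) (y Y : ℝ)
    (hy : (m : ℝ) ^ b ≤ y) :
    Gm E m t z y Y / Dn m ≤ densD E m z * (2 : ℝ) ^ ((n : ℝ) / (2 * b * (t + 1))) := by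
  classical
  unfold densD
  rw [div_mul_eq_mul_div]
  refine div_le_div_of_nonneg_right ?_ (Dn_pos m).le
  unfold Gm
  rw [card_filter]
  push_cast
  rw [sum_mul]
  refine sum_le_sum fun bb _ => ?_
  by_cases h1 : (matZ bb).det ≠ 0 ∧ E m z bb
  · rw [if_pos h1, if_pos h1, one_mul]
    exact St_le hm hmn bb h1.1 b hb t y Y hy
  · rw [if_neg h1]
    split_ifs <;> positivity

open Classical in
/-- the core form with `det ≠ 0` in the density -/
theorem coreD (b : ℝ) (hb : 3 / 2 ≤ b) (hS : SingHalf) (ε : ℝ) (hε : 0 < ε) : ∃ τ n₀ : ℕ, ∀ n ≥ n₀,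
    ∀ (E : MRow205.Ev), Hered E → ∀ z s : ℕ, ∀ Y : ℝ,
    ((univ.filter fun bb : Sym2 (Fin n) → Bool => (matZ bb).det ≠ 0 ∧ E n z bb ∧
      s ≤ MTop.N2 (matZ bb) ((n : ℝ) ^ b) Y).card : ℝ) ≤
      (densD E (n - τ) (z - τ) * (2 : ℝ) ^ (-(s - lamRow b * n) + ε * n) +
        (2 : ℝ) ^ (-((s : ℝ) + n / 5))) * Dn n := by
  have hb0 : 0 < b := by linarith
  set δ : ℝ := min ε (1 / 100) with hδ
  have hδ0 : 0 < δ := lt_min hε (by norm_num)
  have hδε : δ ≤ ε := min_le_left _ _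
  have hδ1 : δ ≤ 1 / 100 := min_le_right _ _
  set τ : ℕ := ⌈4 / δ⌉₊ with hτ
  have hτ1 : 4 / δ ≤ τ := Nat.le_ceil _
  have hτ0 : (0 : ℝ) < τ := lt_of_lt_of_le (by positivity) hτ1
  set ε₁ : ℝ := δ / (4 * (τ + 1)) with hε₁
  have hε₁0 : 0 < ε₁ := by positivity
  obtain ⟨n₁, h1⟩ := iterate ε₁ b hε₁0 hb0 τ
  obtain ⟨n₂, h2⟩ := MRow205.growth τ (δ / 4) (by positivity)
  obtain ⟨n₃, h3⟩ := hS δ hδ0
  refine ⟨τ, n₁ + n₂ + n₃ + 20 * τ + 4, fun n hn E hE z s Y => ?_⟩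
  have hnR : 20 * (τ : ℝ) ≤ n := by exact_mod_cast (by omega : 20 * τ ≤ n)
  have hn1 : (1 : ℝ) ≤ n := by exact_mod_cast (by omega : 1 ≤ n)
  have hlam := lamRow_le b hb
  have hlam0 := lamRow_nonneg b hb0
  set L : ℝ := lamRow b with hL
  set σ : ℝ := (2 : ℝ) ^ (-((1 / 2 - δ) * (n - τ))) with hσ
  have hσ0 : 0 ≤ σ := by positivity
  have hsing : ∀ m, n - τ ≤ m → sing m / Dn m ≤ σ := by
    intro m hm
    have hm1 : (n : ℝ) - τ ≤ m := by
      have : (n : ℝ) ≤ m + τ := by exact_mod_cast (by omega : n ≤ m + τ)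
      linarith
    rw [div_le_iff₀ (Dn_pos m)]
    refine (h3 m (by omega)).trans ?_
    refine mul_le_mul_of_nonneg_right ?_ (Dn_pos m).le
    apply Real.rpow_le_rpow_of_exponent_le (by norm_num)
    have : (1 / 2 - δ) * ((n : ℝ) - τ) ≤ (1 / 2 - δ) * m := mul_le_mul_of_nonneg_left hm1 (by linarith)
    linarith
  have h4 := h1 n (by omega) E hE z ((n : ℝ) ^ b) Y σ le_rfl hσ0 hsing τ le_rfl
  have hnτ : ((n - τ : ℕ) : ℝ) ^ b ≤ (n : ℝ) ^ b :=
    Real.rpow_le_rpow (by positivity) (by exact_mod_cast Nat.sub_le n τ) hb0.le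
  have h5 := Gm_le_densD E (by omega : 2 ≤ n - τ) (Nat.sub_le n τ) b hb0 (τ + 1) (z - τ) ((n : ℝ) ^ b) Y hnτ
  -- the product
  have h6 : ∏ k ∈ range τ, ((n : ℝ) * ((2 : ℝ) ^ (ε₁ * n) * Real.exp (ct b (k + 1) * n))) ≤
      (n : ℝ) ^ τ * (2 : ℝ) ^ (δ / 4 * n + L * n) := by
    rw [prod_mul_distrib, prod_const, card_range, prod_mul_distrib, prod_const, card_range,
      ← Real.exp_sum, ← sum_mul]
    refine mul_le_mul_of_nonneg_left ?_ (by positivity)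
    rw [Real.rpow_add (by norm_num)]
    refine mul_le_mul ?_ ?_ (by positivity) (by positivity)
    · rw [← Real.rpow_natCast, ← Real.rpow_mul (by norm_num)]
      apply Real.rpow_le_rpow_of_exponent_le (by norm_num)
      have h7 : ε₁ * τ ≤ δ / 4 := by
        rw [hε₁, div_mul_eq_mul_div, div_le_div_iff₀ (by positivity) (by norm_num)]
        nlinarith
      nlinarith
    · have h8 := sum_ct_le b hb0 τ
      calc Real.exp ((∑ i ∈ range τ, ct b (i + 1)) * n) ≤ Real.exp (L * Real.log 2 * n) := by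
            apply Real.exp_le_exp.2
            exact mul_le_mul_of_nonneg_right h8 (by positivity)
        _ = (2 : ℝ) ^ (L * n) := by
            rw [Real.rpow_def_of_pos (by norm_num)]
            congr 1
            ring
  have hgr := h2 n (by omega)
  have hgr1 : (n : ℝ) ^ τ ≤ (2 : ℝ) ^ (δ / 4 * n) := by
    refine le_trans ?_ hgr
    have h9 : (n : ℝ) ^ τ ≤ (n : ℝ) ^ (τ + 1) := pow_le_pow_right₀ hn1 (by omega)
    have h10 : (0 : ℝ) ≤ (n : ℝ) ^ (τ + 1) := by positivity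
    nlinarith
  have hgr2 : (n : ℝ) ^ τ * (τ * n) ≤ (2 : ℝ) ^ (δ / 4 * n) := by
    refine le_trans ?_ hgr
    have h10 : (0 : ℝ) ≤ (n : ℝ) ^ (τ + 1) := by positivity
    calc (n : ℝ) ^ τ * (τ * n) = τ * (n : ℝ) ^ (τ + 1) := by ring
      _ ≤ ((τ : ℝ) + 1) * (n : ℝ) ^ (τ + 1) := by nlinarith
  have hd := densD_nonneg E (n - τ) (z - τ)
  set d := densD E (n - τ) (z - τ) with hdd
  -- exponents
  have hexp1 : (n : ℝ) / (2 * b * (((τ + 1 : ℕ) : ℝ) + 1)) ≤ δ / 4 * n := by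
    push_cast
    rw [div_le_iff₀ (by positivity)]
    have h11 : 4 ≤ τ * δ := by rwa [div_le_iff₀ hδ0] at hτ1
    have h12 : 1 ≤ δ / 4 * (2 * b * ((τ : ℝ) + 1 + 1)) := by nlinarith
    nlinarith
  have hexp2 : (n : ℝ) / (4 * b) ≤ n / 6 := by
    apply div_le_div_of_nonneg_left (by positivity) (by norm_num) (by linarith)
  have hmain : (2 : ℝ) ^ (-(s : ℝ)) * (Gm E n 1 z ((n : ℝ) ^ b) Y / Dn n) ≤
      d * (2 : ℝ) ^ (-(s - L * n) + ε * n) + (2 : ℝ) ^ (-((s : ℝ) + n / 5)) := by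
    have hG0 : 0 ≤ Gm E (n - τ) (τ + 1) (z - τ) ((n : ℝ) ^ b) Y / Dn (n - τ) :=
      div_nonneg (Gm_nonneg _ _ _ _ _ _) (Dn_pos _).le
    exact num_main n s τ ε δ L b σ d _ _ _ hδ0 hδε hδ1 hlam hlam0 hn1 hnR hd hσ hgr1 hgr2 hexp1 hexp2 hb0
      h4 h6 h5 hG0
  refine (count_le_Gm E n z s ((n : ℝ) ^ b) Y).trans ?_
  have hD := Dn_pos n
  calc (2 : ℝ) ^ (-(s : ℝ)) * Gm E n 1 z ((n : ℝ) ^ b) Y =
        ((2 : ℝ) ^ (-(s : ℝ)) * (Gm E n 1 z ((n : ℝ) ^ b) Y / Dn n)) * Dn n := by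
        field_simp
    _ ≤ _ := mul_le_mul_of_nonneg_right hmain hD.le

/-- all large primes of the determinant are at most `n ^ n` -/
theorem N2_le_MTop {n : ℕ} (β : ℝ) (b : Bits n) (hdet : (matZ b).det ≠ 0) :
    N2 β (matZ b) ≤ MTop.N2 (matZ b) ((n : ℝ) ^ β) ((n : ℝ) ^ n) := by
  classical
  unfold N2 MTop.N2
  refine card_le_card fun p hp => ?_
  rw [mem_filter] at hp
  have hpp : p.Prime := Nat.prime_of_mem_primeFactors hp.1
  have hcr : 2 ≤ MTop.crk (matZ b) p := by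
    unfold MTop.crk
    rw [Fintype.card_fin]
    exact hp.2.2
  refine mem_filter.2 ⟨?_, hpp, hp.2.1, hcr⟩
  rw [mem_range, Nat.lt_succ_iff]
  apply Nat.le_floor
  have h1 := had (matZ b) hdet (fun i j => matZ_abs b i j) 2 {p} (p : ℝ) (by positivity) (by
    intro q hq
    rw [mem_singleton] at hq
    subst hq
    exact ⟨hpp, le_rfl, hcr⟩)
  rw [card_singleton] at h1
  have hp1 : (1 : ℝ) ≤ p := by exact_mod_cast hpp.one_lt.le
  calc (p : ℝ) = (p : ℝ) ^ 1 := (pow_one _).symm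
    _ ≤ (p : ℝ) ^ (2 * 2 * 1) := pow_le_pow_right₀ hp1 (by norm_num)
    _ ≤ _ := h1

theorem two_le_qp {ζ : ℝ} (hζ : ζ < 1 / 2) {n : ℕ} (hn : 2 ≤ n) (p : ℕ) (hp : p.Prime) : 2 ≤ qp ζ n p := by
  unfold qp
  have h1 : 1 < (n : ℝ) ^ (1 / 2 - ζ) :=
    Real.one_lt_rpow (by exact_mod_cast (show 1 < n by omega)) (by linarith)
  have h2 : 2 ≤ ⌈(n : ℝ) ^ (1 / 2 - ζ)⌉₊ := by
    have := Nat.lt_ceil.2 (show ((1 : ℕ) : ℝ) < (n : ℝ) ^ (1 / 2 - ζ) by exact_mod_cast h1)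
    omega
  have h3 : 0 < Nat.clog p ⌈(n : ℝ) ^ (1 / 2 - ζ)⌉₊ := Nat.clog_pos hp.one_lt h2
  calc 2 ≤ p := hp.two_le
    _ = p ^ 1 := (pow_one p).symm
    _ ≤ p ^ Nat.clog p ⌈(n : ℝ) ^ (1 / 2 - ζ)⌉₊ := Nat.pow_le_pow_right hp.pos h3

/-- **H3**: part (M) of the final assembly with the one-row loss -/
theorem stmtM_row_F (b ζ : ℝ) (hb : 3 / 2 ≤ b) (hζ0 : 0 < ζ) (hζ : ζ < 1 / 2) (hS : SingHalf) (hK : KillM ζ) :
    StmtM (lamRow b) b ζ := by
  classical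
  intro ε hε
  have hb0 : 0 < b := by linarith
  have hlam0 := lamRow_nonneg b hb0
  obtain ⟨τ, n₁, h1⟩ := coreD b hb hS (ε / 4) (by positivity)
  obtain ⟨n₂, h2⟩ := hK (ε / 4) τ (by positivity)
  obtain ⟨n₃, h3⟩ := hK (ε / 4) 0 (by positivity)
  obtain ⟨n₄, h4⟩ := exists_nat_ge (4 / ε)
  refine ⟨n₁ + n₂ + n₃ + n₄ + 2, fun n hn z t hz => ?_⟩
  have hn2 : 2 ≤ n := by omega
  have hnpos : (0 : ℝ) < n := by exact_mod_cast (by omega : 0 < n)
  have hnε : 1 ≤ ε / 4 * n := by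
    have h5 : (4 / ε) ≤ n := h4.trans (by exact_mod_cast (by omega : n₄ ≤ n))
    rw [div_le_iff₀ hε] at h5
    linarith
  have hL0 : 0 ≤ Real.logb 2 n := Real.logb_nonneg (by norm_num) (by exact_mod_cast (by omega : 1 ≤ n))
  set Lg : ℝ := Real.logb 2 n with hLg
  set κ : ℝ := z * Lg / n with hκ
  have hκ0 : 0 ≤ κ := by positivity
  have hκn : z * Lg = κ * n := by rw [hκ]; field_simp
  have ht0 : (0 : ℝ) ≤ t := by positivity
  have hDn : Dn n = 2 ^ Fintype.card (Sym2 (Fin n)) := rfl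
  rw [← hDn]
  by_cases hc : 1 - 2 * b * κ ≤ 0
  · -- the killed lemma alone
    rw [max_eq_left hc, mul_zero, add_zero]
    have h6 := h3 n (by omega) n z (by omega) le_rfl hz
    have h7 : (((univ : Finset (Bits n)).filter fun b' => (matZ b').det ≠ 0 ∧ Kill ζ (matZ b') z ∧
        t ≤ N2 b (matZ b')).card : ℝ) ≤ (Nat.card {b : Sym2 (Fin n) → Bool // (matZ b).det ≠ 0 ∧
          (z - 0 = 0 ∨ ∃ p : ℕ, p.Prime ∧
          ∃ u : Fin n → ZMod (qp ζ n p), (n : ℝ) ^ (1 - ζ) ≤ Nat.card {i // IsUnit (u i)} ∧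
          (matZ b).map (Int.cast : ℤ → ZMod (qp ζ n p)) *ᵥ u = 0 ∧ z - 0 ≤ Nat.card {i // u i = 0})} : ℝ) := by
      rw [Nat.card_eq_fintype_card, Fintype.card_subtype]
      refine Nat.cast_le.2 (card_le_card fun b' hb' => ?_)
      rw [mem_filter] at hb' ⊢
      exact ⟨mem_univ _, hb'.2.1, hb'.2.2.1⟩
    refine h7.trans (h6.trans ?_)
    refine mul_le_mul_of_nonneg_right ?_ (Dn_pos n).le
    apply Real.rpow_le_rpow_of_exponent_le (by norm_num)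
    have : 0 ≤ lamRow b * n := by positivity
    linarith
  · push Not at hc
    let E : MRow205.Ev := fun m z' bb => MTop.Kill (fun q => ∃ p : ℕ, p.Prime ∧ q = qp ζ n p)
      ⌈(n : ℝ) ^ (1 - ζ)⌉₊ z' (matZ bb)
    have hE : Hered E := fun m z' bb hk => kill_step bb _ (by
      rintro q ⟨p, hp, rfl⟩
      exact two_le_qp hζ hn2 p hp) _ z' hk
    have h6 := h1 n (by omega) E hE z t ((n : ℝ) ^ n)
    have h7 : (((univ : Finset (Bits n)).filter fun b' => (matZ b').det ≠ 0 ∧ Kill ζ (matZ b') z ∧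
        t ≤ N2 b (matZ b')).card : ℝ) ≤ ((univ.filter fun bb : Sym2 (Fin n) → Bool => (matZ bb).det ≠ 0 ∧
        E n z bb ∧ t ≤ MTop.N2 (matZ bb) ((n : ℝ) ^ b) ((n : ℝ) ^ n)).card : ℝ) := by
      have h8 : ((univ : Finset (Bits n)).filter fun b' => (matZ b').det ≠ 0 ∧ Kill ζ (matZ b') z ∧
        t ≤ N2 b (matZ b')).card ≤ (univ.filter fun bb : Sym2 (Fin n) → Bool => (matZ bb).det ≠ 0 ∧
        E n z bb ∧ t ≤ MTop.N2 (matZ bb) ((n : ℝ) ^ b) ((n : ℝ) ^ n)).card := by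
        refine card_le_card fun b' hb' => ?_
        rw [mem_filter] at hb' ⊢
        refine ⟨mem_univ _, hb'.2.1, ?_, hb'.2.2.2.trans (N2_le_MTop b b' hb'.2.1)⟩
        rcases hb'.2.2.1 with h | ⟨p, hp, u, hu, hPu, hzu⟩
        · exact Or.inl h
        · exact Or.inr ⟨qp ζ n p, ⟨p, hp, rfl⟩, u, Nat.ceil_le.2 hu, hPu, hzu⟩
      exact_mod_cast h8
    refine h7.trans (h6.trans ?_)
    refine mul_le_mul_of_nonneg_right ?_ (Dn_pos n).le
    -- the density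
    have h9 : densD E (n - τ) (z - τ) ≤ (2 : ℝ) ^ (-((1 / 2 - ζ) * z * Lg) + ε / 4 * n) := by
      have h10 := h2 n (by omega) (n - τ) z le_rfl (Nat.sub_le _ _) hz
      unfold densD
      rw [div_le_iff₀ (Dn_pos _)]
      refine le_trans ?_ h10
      rw [Nat.card_eq_fintype_card, Fintype.card_subtype]
      refine Nat.cast_le.2 (card_le_card fun b' hb' => ?_)
      rw [mem_filter] at hb' ⊢
      refine ⟨mem_univ _, hb'.2.1, ?_⟩
      rcases hb'.2.2 with h | ⟨q, ⟨p, hp, rfl⟩, u, hu, hPu, hzu⟩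
      · exact Or.inl h
      · exact Or.inr ⟨p, hp, u, Nat.ceil_le.1 hu, hPu, hzu⟩
    rw [max_eq_right hc.le]
    have h12 : (2 : ℝ) ^ (-((1 / 2 - ζ) * z * Lg) + ε / 4 * n) * (2 : ℝ) ^ (-(t - lamRow b * n) + ε / 4 * n) ≤
        (2 : ℝ) ^ (-((1 / 2 - ζ) * z * Lg + t * (1 - 2 * b * κ)) + (lamRow b + ε) * n - 1) := by
      rw [← Real.rpow_add (by norm_num)]
      apply Real.rpow_le_rpow_of_exponent_le (by norm_num)
      have h13 : t * (1 - 2 * b * κ) ≤ t := by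
        have : 0 ≤ (t : ℝ) * (2 * b * κ) := by positivity
        linarith
      linarith
    have h14 : (2 : ℝ) ^ (-((t : ℝ) + n / 5)) ≤
        (2 : ℝ) ^ (-((1 / 2 - ζ) * z * Lg + t * (1 - 2 * b * κ)) + (lamRow b + ε) * n - 1) := by
      apply Real.rpow_le_rpow_of_exponent_le (by norm_num)
      have h13 : t * (1 - 2 * b * κ) ≤ t := by
        have : 0 ≤ (t : ℝ) * (2 * b * κ) := by positivity
        linarith
      have h15 : κ ≤ 1 / 3 := by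
        have : 2 * b * κ ≤ 1 := by linarith
        nlinarith
      have h16 : (1 / 2 - ζ) * z * Lg ≤ n / 6 := by
        have h17 : (1 / 2 - ζ) * z * Lg = (1 / 2 - ζ) * (κ * n) := by rw [← hκn]; ring
        rw [h17]
        have h18 : κ * n ≤ 1 / 3 * n := mul_le_mul_of_nonneg_right h15 hnpos.le
        have h19 : 0 ≤ ζ * (κ * n) := by positivity
        linarith
      have : 0 ≤ lamRow b * n := by positivity
      linarith
    have h20 : (2 : ℝ) ^ (-((1 / 2 - ζ) * z * Lg + t * (1 - 2 * b * κ)) + (lamRow b + ε) * n) =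
        (2 : ℝ) ^ (-((1 / 2 - ζ) * z * Lg + t * (1 - 2 * b * κ)) + (lamRow b + ε) * n - 1) +
        (2 : ℝ) ^ (-((1 / 2 - ζ) * z * Lg + t * (1 - 2 * b * κ)) + (lamRow b + ε) * n - 1) := by
      rw [Real.rpow_sub (by norm_num), Real.rpow_one]
      ring
    rw [h20]
    exact add_le_add ((mul_le_mul_of_nonneg_right h9 (by positivity)).trans h12) h14

end Vale.Agent.P160.Half.F.Row205
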