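import Vale.Agent.P160.Half.Fin.Row205
import Vale.Agent.P160.Half.MRowS205
import Vale.Agent.P160.Half.Fin.KillM456

/-! # P160, fallback H3: part (M) of the final assembly with the one-row loss, no hypothesis -/

namespace Vale.Agent.P160.Half.F.Row205

open Finset Matrix Vale.Agent.P160.Half Vale.Agent.P160.Half.A Vale.Agent.P160.Half.F Vale.Agent.P160.Half.MRow205

/-- **H3**: `StmtM` of the final assembly with `lam = lamRow b`, unconditional -/
theorem stmtM_lam (b ζ : ℝ) (hb : 3 / 2 ≤ b) (hζ0 : 0 < ζ) (hζ : ζ < 1 / 2) : StmtM (lamRow b) b ζ :=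
  stmtM_row_F b ζ hb hζ0 hζ singHalf (K456.killM ζ hζ0 hζ)

/-- `lamRow (199/100) ≤ .025`: the rate is `2 ^ (-(1 - lam)) < .509` -/
theorem lamRow_199 : lamRow (199 / 100) ≤ 1 / 40 := by
  set x : ℝ := (4 : ℝ) ^ (-(199 / 100) : ℝ) with hx
  have hx0 : 0 < x := by positivity
  have hx1 : x ≤ 16 / 250 := by
    have h2 : x ^ 100 = (1 / 4 : ℝ) ^ 199 := by
      rw [hx, ← Real.rpow_natCast, ← Real.rpow_mul (by norm_num)]
      rw [show (-(199 / 100) : ℝ) * ((100 : ℕ) : ℝ) = -((199 : ℕ) : ℝ) by push_cast; norm_num,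
        Real.rpow_neg (by norm_num), Real.rpow_natCast]
      norm_num
    by_contra h
    push Not at h
    have h3 : (16 / 250 : ℝ) ^ 100 < x ^ 100 := pow_lt_pow_left₀ h (by norm_num) (by norm_num)
    rw [h2] at h3
    norm_num at h3
  have h3 : -Real.log (1 - x) ≤ 16 / 234 := by
    have h4 : Real.log (1 - x)⁻¹ ≤ (1 - x)⁻¹ - 1 := Real.log_le_sub_one_of_pos (by
      have : 0 < 1 - x := by linarith
      positivity)
    rw [Real.log_inv] at h4
    have h5 : (1 - x)⁻¹ ≤ 250 / 234 := by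
      rw [inv_le_comm₀ (by linarith) (by norm_num)]
      linarith
    linarith
  have hl := Real.log_two_gt_d9
  have h6 : lamRow (199 / 100) = (-Real.log (1 - x)) / (2 * (199 / 100) * Real.log 2) := by
    unfold lamRow Real.logb
    rw [← hx]
    have : Real.log 2 ≠ 0 := by linarith
    field_simp
  rw [h6, div_le_iff₀ (by positivity)]
  nlinarith

end Vale.Agent.P160.Half.F.Row205
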