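import Vale.Agent.P160.Half.Fin.FStmt
import Vale.Agent.P160.Half.HadW136

/-!
# P160, rate 1/2, safety net (helper737): `StmtM (1/(4β)) β ζ` from the killed lemma and Hadamard

If `det P ≠ 0` then `∏ p² ` over the primes with corank at least 2 divides `det P`, so
`4 β N2 β P ≤ n` by Hadamard. Hence the killed lemma alone gives `StmtM lam β ζ`
for `β > 0`, `1 ≤ 4 β lam`.
-/

namespace Vale.Agent.P160.Half.F.SafeM

open Finset Matrix Vale.Agent.P160.Half Vale.Agent.P160.Half.A Vale.Agent.P160.Half.F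

open Classical in
/-- **the killed lemma** for nonsingular `P` -/
def KillPStmt (ζ : ℝ) : Prop := ∀ ε : ℝ, 0 < ε → ∃ n₀ : ℕ, ∀ n ≥ n₀, ∀ z : ℕ, (z : ℝ) * Real.logb 2 n ≤ 4 * n →
  (((univ : Finset (Bits n)).filter fun b => (matZ b).det ≠ 0 ∧ Kill ζ (matZ b) z).card : ℝ) ≤
    (2 : ℝ) ^ (-((1 / 2 - ζ) * z * Real.logb 2 n) + ε * n) * 2 ^ Fintype.card (Sym2 (Fin n))

/-- the rational rank of a nonsingular integer matrix -/
theorem rank_rat_of_det {n : ℕ} (P : Matrix (Fin n) (Fin n) ℤ) (h : P.det ≠ 0) :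
    (P.map (Int.cast : ℤ → ℚ)).rank = n := by
  have h1 : (P.map (Int.cast : ℤ → ℚ)).det ≠ 0 := by
    intro h0
    have h2 := (Int.castRingHom ℚ).map_det P
    have h3 : ((P.det : ℤ) : ℚ) = 0 := by
      rw [← h0]; exact h2
    exact h (by exact_mod_cast h3)
  rw [Matrix.rank_of_isUnit _ ((isUnit_iff_isUnit_det _).2 (isUnit_iff_ne_zero.2 h1)),
    Fintype.card_fin]

/-- Hadamard: `∏ p^4 ≤ n^n` over the primes counted by `N2` -/
theorem prod_N2_le {n : ℕ} (P : Matrix (Fin n) (Fin n) ℤ) (hP : ∀ i j, |P i j| ≤ 1)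
    (h : P.det ≠ 0) (B : Finset ℕ) (hB : ∀ p ∈ B, p.Prime) (hc : ∀ p ∈ B, 2 ≤ crk P p) :
    (∏ p ∈ B, p ^ 2) ^ 2 ≤ n ^ n := by
  have h1 := HadW136.hadW P 1 (fun i j => by simpa using hP i j) B hB (fun _ => 2) (fun p hp => by
    rw [rank_rat_of_det P h]
    have h2 := hc p hp
    unfold crk at h2
    omega)
  rw [rank_rat_of_det P h] at h1
  simpa using h1

theorem N2_le {n : ℕ} (hn : 2 ≤ n) (β : ℝ) (P : Matrix (Fin n) (Fin n) ℤ)
    (hP : ∀ i j, |P i j| ≤ 1) (h : P.det ≠ 0) : 4 * β * (N2 β P : ℝ) ≤ n := by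
  set B : Finset ℕ := P.det.natAbs.primeFactors.filter fun p : ℕ =>
    (n : ℝ) ^ β ≤ p ∧ 2 ≤ crk P p with hBdef
  have hcard : N2 β P = B.card := rfl
  have h1 := prod_N2_le P hP h B (fun p hp => Nat.prime_of_mem_primeFactors (mem_filter.1 hp).1)
    (fun p hp => (mem_filter.1 hp).2.2)
  have hn0 : (0 : ℝ) < n := by positivity
  have hn1 : (1 : ℝ) < n := by exact_mod_cast (by omega : 1 < n)
  have h2 : ((∏ p ∈ B, (p : ℝ) ^ 2) ^ 2) ≤ (n : ℝ) ^ (n : ℝ) := by
    rw [Real.rpow_natCast]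
    exact_mod_cast h1
  have h3 : (((n : ℝ) ^ β) ^ (2 * B.card)) ^ 2 ≤ (n : ℝ) ^ (n : ℝ) := by
    refine le_trans ?_ h2
    refine pow_le_pow_left₀ (by positivity) ?_ 2
    have h4 : ∏ _p ∈ B, ((n : ℝ) ^ β) ^ 2 ≤ ∏ p ∈ B, (p : ℝ) ^ 2 := by
      refine Finset.prod_le_prod (fun p _ => by positivity) (fun p hp => ?_)
      exact pow_le_pow_left₀ (by positivity) (mem_filter.1 hp).2.1 2
    rw [Finset.prod_const, ← pow_mul] at h4
    exact h4
  have h5 : (((n : ℝ) ^ β) ^ (2 * B.card)) ^ 2 = (n : ℝ) ^ (4 * β * (B.card : ℝ)) := by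
    rw [← Real.rpow_natCast, ← Real.rpow_natCast, ← Real.rpow_mul hn0.le, ← Real.rpow_mul hn0.le]
    congr 1
    push_cast
    ring
  rw [h5] at h3
  rw [hcard]
  exact (Real.rpow_le_rpow_left_iff hn1).1 h3

theorem matZ_le {n : ℕ} (b : Bits n) (i j : Fin n) : |matZ b i j| ≤ 1 := by
  unfold matZ
  split_ifs <;> simp

/-- `StmtM lam β ζ` from the killed lemma alone, for `1 ≤ 4 β lam` -/
theorem stmtM_of_kill {lam β ζ : ℝ} (hK : KillPStmt ζ) (hβ : 0 < β) (hl : 1 ≤ lam * (4 * β)) :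
    StmtM lam β ζ := by
  classical
  intro ε hε
  obtain ⟨n₀, h⟩ := hK ε hε
  refine ⟨max n₀ 2, fun n hn z t hz => ?_⟩
  have hn0 : n₀ ≤ n := le_trans (le_max_left _ _) hn
  have hn2 : 2 ≤ n := le_trans (le_max_right _ _) hn
  have h1 := h n hn0 z hz
  by_cases ht : 4 * β * (t : ℝ) ≤ n
  · have h2 : (((univ : Finset (Bits n)).filter fun b => (matZ b).det ≠ 0 ∧ Kill ζ (matZ b) z ∧
        t ≤ N2 β (matZ b)).card : ℝ) ≤
        (((univ : Finset (Bits n)).filter fun b => (matZ b).det ≠ 0 ∧ Kill ζ (matZ b) z).card : ℝ) := by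
      exact_mod_cast Finset.card_le_card (fun b hb => by
        rw [mem_filter] at hb ⊢
        exact ⟨hb.1, hb.2.1, hb.2.2.1⟩)
    refine (h2.trans h1).trans ?_
    refine mul_le_mul_of_nonneg_right ?_ (by positivity)
    refine Real.rpow_le_rpow_of_exponent_le (by norm_num) ?_
    have hL : 0 ≤ Real.logb 2 n := Real.logb_nonneg (by norm_num) (by exact_mod_cast (by omega : 1 ≤ n))
    have hmax : max 0 (1 - 2 * β * (z * Real.logb 2 n / n)) ≤ 1 := by
      refine max_le (by norm_num) ?_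
      have : 0 ≤ 2 * β * (z * Real.logb 2 n / n) := by positivity
      linarith
    have ht1 : (t : ℝ) * max 0 (1 - 2 * β * (z * Real.logb 2 n / n)) ≤ t :=
      mul_le_of_le_one_right (Nat.cast_nonneg _) hmax
    have h8 : 0 < 4 * β := by linarith
    have ht2 : (t : ℝ) ≤ lam * n := by
      have h9 : (t : ℝ) ≤ lam * (4 * β) * t := le_mul_of_one_le_left (Nat.cast_nonneg _) hl
      have hlam : 0 ≤ lam := by
        by_contra hneg
        push Not at hneg
        have := mul_neg_of_neg_of_pos hneg h8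
        linarith
      calc (t : ℝ) ≤ lam * (4 * β) * t := h9
        _ = lam * (4 * β * t) := by ring
        _ ≤ lam * n := mul_le_mul_of_nonneg_left ht hlam
    nlinarith [ht1, ht2]
  · have h3 : ((univ : Finset (Bits n)).filter fun b => (matZ b).det ≠ 0 ∧ Kill ζ (matZ b) z ∧
        t ≤ N2 β (matZ b)) = ∅ := by
      refine Finset.filter_eq_empty_iff.2 (fun b _ hb => ht ?_)
      have h4 := N2_le hn2 β (matZ b) (matZ_le b) hb.1
      refine le_trans ?_ h4
      refine mul_le_mul_of_nonneg_left ?_ (by linarith)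
      exact_mod_cast hb.2.2
    rw [h3]
    simp only [Finset.card_empty, Nat.cast_zero]
    positivity

/-- **safety net**, `lam = 1/4`, `β = 1` -/
theorem stmtM_safe {ζ : ℝ} (hK : KillPStmt ζ) : StmtM (1 / 4) 1 ζ :=
  stmtM_of_kill hK (by norm_num) (by norm_num)

end Vale.Agent.P160.Half.F.SafeM
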