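import Vale.Agent.P160.Half.Fin.Step288
import Vale.Agent.P160.Half.Fin.FSplit

/-! # P160, rate 1/2, final assembly: `SelStmt` -/

set_option linter.unusedVariables false

namespace Vale.Agent.P160.Half.F.Sel288

open Finset Matrix Vale.Agent.P160.Half Vale.Agent.P160.Half.A Vale.Agent.P160.Half.F
  Vale.Agent.P160.Half.F.Step288

theorem rpow_le_two_abs {n : ℕ} (hn : 2 ≤ n) (A : ℝ) :
    ((n + 1 : ℕ) : ℝ) ^ A ≤ (n : ℝ) ^ (2 * |A| + 1) := by
  have hn2 : (2 : ℝ) ≤ n := by exact_mod_cast hn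
  have h1 : (1 : ℝ) ≤ ((n + 1 : ℕ) : ℝ) := by push_cast; linarith
  calc ((n + 1 : ℕ) : ℝ) ^ A ≤ ((n + 1 : ℕ) : ℝ) ^ |A| :=
        Real.rpow_le_rpow_of_exponent_le h1 (le_abs_self A)
    _ ≤ ((n : ℝ) ^ (2 : ℝ)) ^ |A| := by
        refine Real.rpow_le_rpow (by positivity) ?_ (abs_nonneg A)
        rw [Real.rpow_two]
        push_cast
        nlinarith
    _ = (n : ℝ) ^ (2 * |A|) := by rw [← Real.rpow_mul (by positivity)]
    _ ≤ _ := Real.rpow_le_rpow_of_exponent_le (by linarith) (by linarith)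

theorem sel : SelStmt := by
  intro ζ β δ A hζ hζ1 hβ hδ hδ1
  refine ⟨2, fun n hn b hrank hsp htame hmid => ?_⟩
  have hn0 : (0 : ℝ) < n := by exact_mod_cast (by omega : 0 < n)
  have hL : 0 < Real.logb 2 n := Real.logb_pos (by norm_num) (by exact_mod_cast (by omega : 1 < n))
  obtain ⟨j, z, t, v', e, c, h1, h2, h3, h4, h5, h6, h7, h8, h9⟩ :=
    step (β := β) (ζ := ζ) (d := ζ / 2) (dt := δ / 8) (θ := δ / 8) (δ := δ) (A := A) b hrank hn
      (by linarith) (by linarith) (by linarith) (by positivity) (by linarith)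
      (fun p hp u hu hk => by
        by_contra hcon
        exact hsp ⟨p, hp, u, hu, not_lt.1 hcon, hk⟩)
      (fun v i hv => by
        by_contra hcon
        exact htame ⟨v, i, hv, not_lt.1 hcon⟩)
      (fun v hv => by
        by_contra hcon
        exact hmid ⟨v, hv, not_lt.1 hcon⟩)
  refine ⟨j, z, t, h1, h3, h4, ?_, h2, v', e, c, h5, fun i => ?_, h7, ?_⟩
  · have h10 : (t : ℝ) ≤ n := by nlinarith
    exact_mod_cast h10
  · exact (h6 i).trans (mul_le_mul_of_nonneg_right (rpow_le_two_abs hn A) (abs_nonneg _))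
  · have hlc := lcost_nonneg ζ n e c
    have h10 : lcost ζ n e c * ((1 - δ / 4) * n) ≤
        (z + 1) * (((n : ℝ) / 2 - 2 * β * t) * Real.logb 2 n) := by
      refine le_trans ?_ h9
      refine mul_le_mul_of_nonneg_left ?_ hlc
      nlinarith
    have h11 : (1 : ℝ) ≤ (1 + δ) * (1 - δ / 4) := by nlinarith
    have h12 : (z + 1) * (((n : ℝ) / 2 - 2 * β * t) * Real.logb 2 n) =
        ((z : ℝ) + 1) * (1 / 2 - 2 * β * t / n) * Real.logb 2 n * n := by
      field_simp
    rw [h12] at h10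
    have h13 : lcost ζ n e c * (1 - δ / 4) ≤
        ((z : ℝ) + 1) * (1 / 2 - 2 * β * t / n) * Real.logb 2 n := by
      have h14 : (lcost ζ n e c * (1 - δ / 4)) * n ≤
          (((z : ℝ) + 1) * (1 / 2 - 2 * β * t / n) * Real.logb 2 n) * n := by linarith
      exact le_of_mul_le_mul_right h14 hn0
    calc lcost ζ n e c ≤ lcost ζ n e c * ((1 + δ) * (1 - δ / 4)) :=
          le_mul_of_one_le_right hlc h11
      _ = (1 + δ) * (lcost ζ n e c * (1 - δ / 4)) := by ring
      _ ≤ (1 + δ) * (((z : ℝ) + 1) * (1 / 2 - 2 * β * t / n) * Real.logb 2 n) :=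
          mul_le_mul_of_nonneg_left h13 (by linarith)
      _ = _ := by ring

end Vale.Agent.P160.Half.F.Sel288
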