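import Vale.Agent.P160.Half.Fin.FSplit
import Vale.Agent.P160.Half.Select150
import Vale.Agent.P160.Half.HadN

/-! # P160, rate 1/2: `SelStmt`, selection of the index (helper907) -/

set_option linter.unusedVariables false

namespace Vale.Agent.P160.Half.F.Sel907

open Finset Matrix Vale.Agent.P160.Half Vale.Agent.P160.Half.A Vale.Agent.P160.Half.F

/-- the logarithm of `|c|` -/
theorem log_c (c : ℤ) (hc : c ≠ 0) :
    ∑ p ∈ c.natAbs.primeFactors, (c.natAbs.factorization p : ℝ) * Real.logb 2 p = Real.logb 2 |(c : ℝ)| := by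
  have h0 : c.natAbs ≠ 0 := Int.natAbs_ne_zero.2 hc
  have h1 : (c.natAbs : ℝ) = |(c : ℝ)| := by
    rw [Nat.cast_natAbs]; push_cast; rfl
  rw [← h1]
  have h2 : (c.natAbs : ℝ) = ∏ p ∈ c.natAbs.primeFactors, (p : ℝ) ^ c.natAbs.factorization p := by
    have h3 := Nat.prod_factorization_pow_eq_self h0
    have h4 : ((c.natAbs.factorization.prod (fun p k => p ^ k) : ℕ) : ℝ) = c.natAbs := by exact_mod_cast h3
    rw [← h4, Finsupp.prod, Nat.support_factorization]
    push_cast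
    rfl
  conv_rhs => rw [h2]
  rw [Real.logb_prod]
  · exact sum_congr rfl fun p _ => by rw [Real.logb_pow]
  · intro p hp
    have : (p : ℝ) ≠ 0 := by exact_mod_cast (Nat.prime_of_mem_primeFactors hp).ne_zero
    exact pow_ne_zero _ this

theorem one_le_abs (e : ℤ) (he : e ≠ 0) : (1 : ℝ) ≤ |(e : ℝ)| := by
  have h1 : (1 : ℤ) ≤ |e| := Int.one_le_abs he
  have h2 : ((1 : ℤ) : ℝ) ≤ ((|e| : ℤ) : ℝ) := by exact_mod_cast h1
  simpa using h2

/-- large primes dividing `e` -/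
theorem t_le (e : ℤ) (he : e ≠ 0) (T : Finset ℕ) (hT : ∀ p ∈ T, p.Prime ∧ (p : ℤ) ∣ e) (n : ℕ) (hn : 1 ≤ n) (β : ℝ)
    (hβ : ∀ p ∈ T, (n : ℝ) ^ β ≤ p) : (T.card : ℝ) * (β * Real.logb 2 n) ≤ Real.logb 2 |(e : ℝ)| := by
  have hdvd : (∏ p ∈ T, p) ∣ e.natAbs := by
    apply Finset.prod_primes_dvd
    · intro p hp; exact (hT p hp).1.prime
    · intro p hp; exact Int.natCast_dvd.1 (hT p hp).2
  have hle : (∏ p ∈ T, p) ≤ e.natAbs := Nat.le_of_dvd (Int.natAbs_pos.2 he) hdvd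
  have h1 : (∏ p ∈ T, (p : ℝ)) ≤ |(e : ℝ)| := by
    have h2 : ((∏ p ∈ T, p : ℕ) : ℝ) ≤ (e.natAbs : ℝ) := by exact_mod_cast hle
    rw [Nat.cast_natAbs] at h2
    push_cast at h2
    exact h2
  have hpos : ∀ p ∈ T, (0 : ℝ) < p := fun p hp => by exact_mod_cast (hT p hp).1.pos
  have h3 : Real.logb 2 (∏ p ∈ T, (p : ℝ)) ≤ Real.logb 2 |(e : ℝ)| :=
    Real.logb_le_logb_of_le (by norm_num) (prod_pos hpos) h1
  rw [Real.logb_prod _ _ (fun p hp => (hpos p hp).ne')] at h3
  refine le_trans ?_ h3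
  rw [← nsmul_eq_mul]
  apply Finset.card_nsmul_le_sum
  intro p hp
  have hn0 : (0 : ℝ) < n := by exact_mod_cast hn
  have h4 : Real.logb 2 ((n : ℝ) ^ β) ≤ Real.logb 2 p :=
    Real.logb_le_logb_of_le (by norm_num) (Real.rpow_pos_of_pos hn0 _) (hβ p hp)
  rwa [Real.logb_rpow_eq_mul_logb_of_pos hn0] at h4

/-- Hadamard in logarithmic form -/
theorem log_det (n : ℕ) (hn : 1 ≤ n) (c e : ℤ) (hc : c ≠ 0) (he : e ≠ 0) (h : (c * e ^ 2) ^ 2 ≤ (n : ℤ) ^ n) :
    Real.logb 2 |(c : ℝ)| + 2 * Real.logb 2 |(e : ℝ)| ≤ n / 2 * Real.logb 2 n := by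
  have hc1 := one_le_abs c hc
  have he1 := one_le_abs e he
  have h1 : (|(c : ℝ)| * |(e : ℝ)| ^ 2) ^ 2 ≤ (n : ℝ) ^ n := by
    have h2 : (((c * e ^ 2) ^ 2 : ℤ) : ℝ) ≤ (((n : ℤ) ^ n : ℤ) : ℝ) := by exact_mod_cast h
    push_cast at h2
    have h3 : (|(c : ℝ)| * |(e : ℝ)| ^ 2) ^ 2 = ((c : ℝ) * (e : ℝ) ^ 2) ^ 2 := by
      rw [mul_pow, mul_pow, sq_abs, ← pow_mul, ← pow_mul]
      congr 1
      rw [show 2 * 2 = 2 * 2 from rfl, pow_mul, sq_abs, ← pow_mul]
    rw [h3]; exact h2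
  have hpos : 0 < |(c : ℝ)| * |(e : ℝ)| ^ 2 := by positivity
  have h4 : Real.logb 2 ((|(c : ℝ)| * |(e : ℝ)| ^ 2) ^ 2) ≤ Real.logb 2 ((n : ℝ) ^ n) :=
    Real.logb_le_logb_of_le (by norm_num) (by positivity) h1
  rw [Real.logb_pow, Real.logb_pow, Real.logb_mul (by positivity) (by positivity), Real.logb_pow] at h4
  push_cast at h4
  linarith

/-- number of solutions outside `j` -/
theorem card_succ {n : ℕ} (j : Fin (n + 1)) (f : Fin (n + 1) → Prop) [DecidablePred f] :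
    (univ.filter f).card = (if f j then 1 else 0) + (univ.filter fun i : Fin n => f (j.succAbove i)).card := by
  rw [card_filter, card_filter, Fin.sum_univ_succAbove _ j]

/-- the killed event for the minor -/
theorem kill_tr {n : ℕ} (b : Bits (n + 1)) (v a : Fin (n + 1) → ℤ) (ha : ∑ i, a i * v i = 1) (hv : matZ b *ᵥ v = 0)
    (ζ : ℝ) (p : ℕ) (hp : p.Prime) (j : Fin (n + 1)) (hj : ((qp ζ n p : ℕ) : ℤ) ∣ v j)
    (hsp : ¬ ∃ p : ℕ, p.Prime ∧ ∃ u : Fin (n + 1) → ZMod p, u ≠ 0 ∧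
      ((univ.filter fun i => u i ≠ 0).card : ℝ) ≤ ((n + 1 : ℕ) : ℝ) ^ (1 - ζ / 2) ∧ (matZ b).map (Int.cast : ℤ → ZMod p) *ᵥ u = 0)
    (hN : (n : ℝ) ^ (1 - ζ) ≤ ((n + 1 : ℕ) : ℝ) ^ (1 - ζ / 2) - 1) :
    Kill ζ (matZ (bj j b)) ((univ.filter fun i => ((qp ζ n p : ℕ) : ℤ) ∣ v i).card - 1) := by
  classical
  have : Fact p.Prime := ⟨hp⟩
  right
  have hcast : ∀ (q : ℕ) (k : Fin (n + 1)), ∑ i, ((matZ b k i : ℤ) : ZMod q) * ((v i : ℤ) : ZMod q) = 0 := by
    intro q k
    have h1 := congrArg (Int.cast : ℤ → ZMod q) (congrFun hv k)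
    rw [mulVec, dotProduct] at h1
    push_cast at h1
    simpa using h1
  refine ⟨p, hp, fun i => ((v (j.succAbove i) : ℤ) : ZMod (qp ζ n p)), ?_, ?_, ?_⟩
  · -- units
    have hne : (fun i => ((v i : ℤ) : ZMod p)) ≠ 0 := by
      intro h
      have h1 := congrArg (Int.cast : ℤ → ZMod p) ha
      push_cast at h1
      have h2 : ∀ i, ((v i : ℤ) : ZMod p) = 0 := fun i => congrFun h i
      simp only [h2, mul_zero, sum_const_zero] at h1
      exact zero_ne_one h1
    have hbig : ((n + 1 : ℕ) : ℝ) ^ (1 - ζ / 2) < ((univ.filter fun i : Fin (n + 1) => ((v i : ℤ) : ZMod p) ≠ 0).card : ℝ) := by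
      by_contra hcon
      push Not at hcon
      exact hsp ⟨p, hp, fun i => ((v i : ℤ) : ZMod p), hne, hcon, by
        funext k
        rw [mulVec, dotProduct]
        exact hcast p k⟩
    have hc1 := card_succ j (fun i => ((v i : ℤ) : ZMod p) ≠ 0)
    have hc2 : ((univ.filter fun i : Fin (n + 1) => ((v i : ℤ) : ZMod p) ≠ 0).card : ℝ) ≤
        1 + ((univ.filter fun i : Fin n => ((v (j.succAbove i) : ℤ) : ZMod p) ≠ 0).card : ℝ) := by
      have : (univ.filter fun i : Fin (n + 1) => ((v i : ℤ) : ZMod p) ≠ 0).card ≤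
          1 + (univ.filter fun i : Fin n => ((v (j.succAbove i) : ℤ) : ZMod p) ≠ 0).card := by
        rw [hc1]
        split_ifs <;> omega
      exact_mod_cast this
    have hc3 : ((univ.filter fun i : Fin n => ((v (j.succAbove i) : ℤ) : ZMod p) ≠ 0).card : ℝ) ≤
        (Nat.card {i // IsUnit (((v (j.succAbove i) : ℤ) : ZMod (qp ζ n p)))} : ℝ) := by
      rw [Nat.card_eq_fintype_card, Fintype.card_subtype]
      norm_cast
      apply card_le_card
      intro i hi
      rw [mem_filter] at hi ⊢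
      refine ⟨mem_univ _, ?_⟩
      rw [ZMod.coe_int_isUnit_iff_isCoprime]
      have h5 : ¬ (p : ℤ) ∣ v (j.succAbove i) := by
        intro hd
        exact hi.2 ((ZMod.intCast_zmod_eq_zero_iff_dvd _ p).2 hd)
      have h6 : IsCoprime (p : ℤ) (v (j.succAbove i)) := by
        rw [Prime.coprime_iff_not_dvd (Nat.prime_iff_prime_int.1 hp)]
        exact h5
      unfold qp
      push_cast
      exact h6.pow_left
    linarith
  · funext i
    have h1 := hcast (qp ζ n p) (j.succAbove i)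
    rw [Fin.sum_univ_succAbove _ j] at h1
    have hj0 : ((v j : ℤ) : ZMod (qp ζ n p)) = 0 := (ZMod.intCast_zmod_eq_zero_iff_dvd _ _).2 hj
    rw [hj0, mul_zero, zero_add] at h1
    rw [mulVec, dotProduct]
    exact h1
  · rw [Nat.card_eq_fintype_card, Fintype.card_subtype]
    have hc1 := card_succ j (fun i => ((qp ζ n p : ℕ) : ℤ) ∣ v i)
    rw [if_pos hj] at hc1
    rw [hc1, Nat.add_sub_cancel_left]
    apply le_of_eq
    congr 1
    ext i
    simp only [mem_filter, mem_univ, true_and]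
    exact (ZMod.intCast_zmod_eq_zero_iff_dvd _ _).symm

theorem pow_le' (n : ℕ) (hn : 2 ≤ n) (A : ℝ) : ((n + 1 : ℕ) : ℝ) ^ A ≤ (n : ℝ) ^ (2 * |A| + 1) := by
  have hn' : (2 : ℝ) ≤ n := by exact_mod_cast hn
  have h1 : ((n + 1 : ℕ) : ℝ) ^ A ≤ ((n + 1 : ℕ) : ℝ) ^ |A| :=
    Real.rpow_le_rpow_of_exponent_le (by push_cast; linarith) (le_abs_self A)
  have h2 : ((n + 1 : ℕ) : ℝ) ^ |A| ≤ ((n : ℝ) ^ (2 : ℝ)) ^ |A| := by
    apply Real.rpow_le_rpow (by positivity) _ (abs_nonneg A)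
    rw [Real.rpow_two]
    push_cast
    nlinarith
  rw [← Real.rpow_mul (by linarith)] at h2
  exact h1.trans (h2.trans (Real.rpow_le_rpow_of_exponent_le (by linarith) (by linarith)))

theorem ev_pow (ζ : ℝ) (h0 : 0 < ζ) (h1 : ζ < 1 / 16) :
    ∃ n₀ : ℕ, ∀ n ≥ n₀, (n : ℝ) ^ (1 - ζ) ≤ ((n + 1 : ℕ) : ℝ) ^ (1 - ζ / 2) - 1 := by
  have ht : Filter.Tendsto (fun n : ℕ => (n : ℝ) ^ (ζ / 2)) Filter.atTop Filter.atTop :=
    (tendsto_rpow_atTop (by linarith)).comp tendsto_natCast_atTop_atTop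
  obtain ⟨n₁, hn₁⟩ := Filter.eventually_atTop.1 (ht.eventually_ge_atTop 2)
  refine ⟨max n₁ 1, fun n hn => ?_⟩
  have ha := hn₁ n ((le_max_left _ _).trans hn)
  have hn1 : (1 : ℝ) ≤ n := by exact_mod_cast (le_max_right _ _).trans hn
  have hb : (1 : ℝ) ≤ (n : ℝ) ^ (1 - ζ) := Real.one_le_rpow hn1 (by linarith)
  have hc : (n : ℝ) ^ (1 - ζ / 2) ≤ ((n + 1 : ℕ) : ℝ) ^ (1 - ζ / 2) :=
    Real.rpow_le_rpow (by positivity) (by push_cast; linarith) (by linarith)
  have hd : (n : ℝ) ^ (1 - ζ / 2) = (n : ℝ) ^ (1 - ζ) * (n : ℝ) ^ (ζ / 2) := by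
    rw [← Real.rpow_add (by linarith)]; congr 1; ring
  nlinarith

/-- the label cost is at most the weight of the primes of `c` through `j` -/
theorem lcost_le (ζ : ℝ) {n : ℕ} (v : Fin (n + 1) → ℤ) (c : ℤ) (j : Fin (n + 1)) :
    lcost ζ n (v j) c ≤ ∑ p ∈ c.natAbs.primeFactors with j ∈ (univ.filter fun i => ((qp ζ n p : ℕ) : ℤ) ∣ v i),
      (c.natAbs.factorization p : ℝ) * Real.logb 2 p := by
  unfold lcost
  rw [← sum_filter_of_ne (p := fun p => p ∈ c.natAbs.primeFactors)]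
  · apply sum_le_sum_of_subset_of_nonneg
    · intro p hp
      simp only [mem_filter, mem_univ, true_and] at hp ⊢
      exact ⟨hp.2, hp.1.2⟩
    · intro p hp _
      rw [mem_filter] at hp
      have : (1 : ℝ) ≤ p := by exact_mod_cast (Nat.prime_of_mem_primeFactors hp.1).one_le
      exact mul_nonneg (Nat.cast_nonneg _) (Real.logb_nonneg (by norm_num) this)
  · intro p hp hne
    by_contra hcon
    apply hne
    have : c.natAbs.factorization p = 0 := by
      rw [← Finsupp.notMem_support_iff, Nat.support_factorization]; exact hcon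
    rw [this]; simp

theorem fin_arith (l s n W g Y δ L : ℝ) {z : ℝ} (hl0 : 0 ≤ l) (hls : l ≤ s) (hj : s * g ≤ W * z) (hW : W ≤ Y * L)
    (hg : (1 - δ / 4) * (n + 1) ≤ g) (hδ : 0 < δ) (hδ' : δ ≤ 1 / 2) (hn : 0 < n) (hz : 0 ≤ z) :
    l ≤ (1 + δ) * z * (Y / n) * L := by
  have hg0 : 0 ≤ g := by
    refine le_trans ?_ hg
    apply mul_nonneg <;> linarith
  have h5 : l * g ≤ Y * L * z := by
    calc l * g ≤ s * g := mul_le_mul_of_nonneg_right hls hg0
      _ ≤ _ := hj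
      _ ≤ _ := mul_le_mul_of_nonneg_right hW hz
  have h6 : l * ((1 - δ / 4) * n) ≤ Y * L * z := by
    refine le_trans ?_ h5
    apply mul_le_mul_of_nonneg_left _ hl0
    linarith
  have h7 : l * n ≤ (1 + δ) * (l * ((1 - δ / 4) * n)) := by
    have h8 : 0 ≤ l * n := by positivity
    have h9 : 0 ≤ l * n * (δ * (3 / 4 - δ / 4)) := by
      apply mul_nonneg h8
      apply mul_nonneg hδ.le
      linarith
    have h10 : (1 + δ) * (l * ((1 - δ / 4) * n)) = l * n + l * n * (δ * (3 / 4 - δ / 4)) := by ring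
    linarith
  have h8 : l * n ≤ (1 + δ) * (Y * L * z) :=
    h7.trans (mul_le_mul_of_nonneg_left h6 (by linarith))
  have h9 : (1 + δ) * z * (Y / n) * L = ((1 + δ) * (Y * L * z)) / n := by
    field_simp
  rw [h9, le_div_iff₀ hn]
  exact h8

theorem sel : SelStmt := by
  intro ζ β δ A hζ hζ' hβ hδ hδ'
  obtain ⟨n₁, hn₁⟩ := ev_pow ζ hζ hζ'
  refine ⟨max n₁ 2, fun n hn b hrk hsp htame hmid => ?_⟩
  have hN := hn₁ n ((le_max_left _ _).trans hn)
  have hn2 : 2 ≤ n := (le_max_right _ _).trans hn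
  have hn2' : (2 : ℝ) ≤ n := by exact_mod_cast hn2
  classical
  obtain ⟨v, c, a, ha, hc, hv, -, hdet⟩ := Adj.adj_struct (matZ b) (matZ_symm b) hrk
  have hv0 : ∃ i, v i ≠ 0 := by
    by_contra hcon
    push Not at hcon
    simp [hcon] at ha
  obtain ⟨i0, hi0⟩ := Finite.exists_max (fun i => |(v i : ℝ)|)
  have hvi0 : 0 < |(v i0 : ℝ)| := by
    obtain ⟨i, hi⟩ := hv0
    have := one_le_abs (v i) hi
    have := hi0 i
    linarith
  set L := Real.logb 2 n with hL
  have hLpos : 0 < L := Real.logb_pos (by norm_num) (by linarith)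
  -- the two exceptional sets
  set S3 := univ.filter fun j : Fin (n + 1) => |(v j : ℝ)| * ((n + 1 : ℕ) : ℝ) ^ A < |(v i0 : ℝ)| with hS3
  set S4 := univ.filter fun j : Fin (n + 1) => v j ≠ 0 ∧ δ * n < ((midSet β (matZ b) v j).card : ℝ) with hS4
  have h3 : (S3.card : ℝ) < δ / 8 * ((n + 1 : ℕ) : ℝ) := by
    by_contra hcon
    push Not at hcon
    apply htame
    refine ⟨fun i => (v i : ℝ), i0, ?_, hcon⟩
    intro k
    have h1 := congrArg (Int.cast : ℤ → ℝ) (congrFun hv k)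
    rw [mulVec, dotProduct] at h1
    push_cast at h1
    rw [Pi.zero_apply, Int.cast_zero] at h1
    refine Eq.trans ?_ h1
    apply sum_congr rfl
    intro j _
    have h2 : matZ b k j = if b s(k, j) then 1 else 0 := rfl
    rw [h2]
    split_ifs <;> simp
  have h4 : (S4.card : ℝ) < δ / 8 * n := by
    by_contra hcon
    push Not at hcon
    exact hmid ⟨v, ⟨hv, a, ha⟩, by convert hcon⟩
  set G := univ.filter fun j : Fin (n + 1) => j ∉ S3 ∧ j ∉ S4 with hG
  have hGc : (1 - δ / 4) * ((n : ℝ) + 1) ≤ (G.card : ℝ) := by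
    have h5 : (univ : Finset (Fin (n + 1))) ⊆ G ∪ (S3 ∪ S4) := by
      intro j _
      by_cases hj3 : j ∈ S3
      · exact mem_union_right _ (mem_union_left _ hj3)
      · by_cases hj4 : j ∈ S4
        · exact mem_union_right _ (mem_union_right _ hj4)
        · exact mem_union_left _ (by rw [hG, mem_filter]; exact ⟨mem_univ _, hj3, hj4⟩)
    have h6 : n + 1 ≤ G.card + (S3.card + S4.card) := by
      calc n + 1 = (univ : Finset (Fin (n + 1))).card := by rw [card_univ, Fintype.card_fin]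
        _ ≤ (G ∪ (S3 ∪ S4)).card := card_le_card h5
        _ ≤ G.card + (S3 ∪ S4).card := card_union_le _ _
        _ ≤ _ := Nat.add_le_add_left (card_union_le _ _) _
    have h7 : (n : ℝ) + 1 ≤ G.card + (S3.card + S4.card) := by exact_mod_cast h6
    push_cast at h3
    nlinarith
  have hGpos : 0 < (G.card : ℝ) := by
    refine lt_of_lt_of_le ?_ hGc
    apply mul_pos <;> linarith
  have hGne : G.Nonempty := by
    rw [← card_pos]; exact_mod_cast hGpos
  -- selection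
  obtain ⟨j, hjG, hj⟩ := Sel150.select G hGne c.natAbs.primeFactors
    (fun p => univ.filter fun i => ((qp ζ n p : ℕ) : ℤ) ∣ v i)
    (fun p => (c.natAbs.factorization p : ℝ) * Real.logb 2 p) (by
      intro p hp
      have : (1 : ℝ) ≤ p := by exact_mod_cast (Nat.prime_of_mem_primeFactors hp).one_le
      exact mul_nonneg (Nat.cast_nonneg _) (Real.logb_nonneg (by norm_num) this)) (log_c c hc).le
  have hlc := lcost_le ζ v c j
  rw [hG, mem_filter] at hjG
  have hjt : |(v i0 : ℝ)| ≤ |(v j : ℝ)| * ((n + 1 : ℕ) : ℝ) ^ A := by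
    by_contra hcon
    push Not at hcon
    exact hjG.2.1 (by rw [hS3, mem_filter]; exact ⟨mem_univ _, hcon⟩)
  have hvj : v j ≠ 0 := by
    intro h
    rw [h] at hjt
    simp at hjt
    have h5 : (v i0 : ℝ) ≠ 0 := by
      intro h6; rw [h6] at hvi0; simp at hvi0
    exact h5 (by exact_mod_cast hjt)
  have hjm : ((midSet β (matZ b) v j).card : ℝ) ≤ δ * n := by
    by_contra hcon
    push Not at hcon
    exact hjG.2.2 (by rw [hS4, mem_filter]; exact ⟨mem_univ _, hvj, hcon⟩)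
  set P := matZ (bj j b) with hP
  have hPdet : P.det = c * v j ^ 2 := by rw [hP, matZ_bj]; exact hdet j
  have hPne : P.det ≠ 0 := by
    rw [hPdet]; exact mul_ne_zero hc (pow_ne_zero _ hvj)
  -- large primes
  set T := (v j).natAbs.primeFactors.filter fun p : ℕ => (n : ℝ) ^ β ≤ p ∧ 2 ≤ crk P p with hT
  have hTN : T.card ≤ N2 β P := by
    unfold N2
    apply card_le_card
    intro p hp
    rw [hT, mem_filter] at hp
    rw [mem_filter]
    refine ⟨?_, hp.2⟩
    rw [Nat.mem_primeFactors]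
    refine ⟨Nat.prime_of_mem_primeFactors hp.1, ?_, Int.natAbs_ne_zero.2 hPne⟩
    have h5 : (p : ℤ) ∣ v j := Int.natCast_dvd.2 (Nat.dvd_of_mem_primeFactors hp.1)
    apply Int.natCast_dvd.1
    rw [hPdet]
    exact Dvd.dvd.mul_left (Dvd.dvd.pow h5 (by norm_num)) _
  have hlogs : Real.logb 2 |(c : ℝ)| + 2 * Real.logb 2 |(v j : ℝ)| ≤ n / 2 * L := by
    apply log_det n (by omega) c (v j) hc hvj
    have h5 := HadN.det_sq_le P (by
      intro i k
      have h6 : P i k = if bj j b s(i, k) then 1 else 0 := rfl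
      rw [h6]
      split_ifs <;> simp)
    rw [hPdet, Fintype.card_fin] at h5
    exact h5
  have hTlog : (T.card : ℝ) * (β * L) ≤ Real.logb 2 |(v j : ℝ)| := by
    apply t_le (v j) hvj T _ n (by omega) β
    · intro p hp
      rw [hT, mem_filter] at hp
      exact hp.2.1
    · intro p hp
      rw [hT, mem_filter] at hp
      exact ⟨Nat.prime_of_mem_primeFactors hp.1, Int.natCast_dvd.2 (Nat.dvd_of_mem_primeFactors hp.1)⟩
  have hc0 : 0 ≤ Real.logb 2 |(c : ℝ)| := Real.logb_nonneg (by norm_num) (one_le_abs c hc)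
  have hW : Real.logb 2 |(c : ℝ)| ≤ (n / 2 - 2 * β * T.card) * L := by nlinarith
  have hX0 : 0 ≤ (n : ℝ) / 2 - 2 * β * T.card := by
    by_contra hcon
    push Not at hcon
    have := mul_neg_of_neg_of_pos hcon hLpos
    linarith
  have hTn : T.card ≤ n := by
    have h5 : (T.card : ℝ) ≤ n := by
      have h6 : (0 : ℝ) ≤ T.card := Nat.cast_nonneg _
      nlinarith
    exact_mod_cast h5
  have hX1 : (1 : ℝ) / 2 - 2 * β * T.card / n = ((n : ℝ) / 2 - 2 * β * T.card) / n := by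
    field_simp
  have hX2 : 0 ≤ (1 : ℝ) / 2 - 2 * β * T.card / n := by
    rw [hX1]; positivity
  have hcol := col_of b v c a ha hv j (hdet j)
  have hbd : ∀ i, |((fun i => v (j.succAbove i)) i : ℝ)| ≤ (n : ℝ) ^ (2 * |A| + 1) * |((v j : ℤ) : ℝ)| := by
    intro i
    have h5 := hi0 (j.succAbove i)
    have h6 : |(v j : ℝ)| * ((n + 1 : ℕ) : ℝ) ^ A ≤ |(v j : ℝ)| * (n : ℝ) ^ (2 * |A| + 1) :=
      mul_le_mul_of_nonneg_left (pow_le' n hn2 A) (abs_nonneg _)
    show |(v (j.succAbove i) : ℝ)| ≤ _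
    linarith [mul_comm |(v j : ℝ)| ((n : ℝ) ^ (2 * |A| + 1))]
  have hbig : ((bigSet P (v j)).card : ℝ) ≤ T.card + δ * n := by
    have h5 : bigSet P (v j) ⊆ T ∪ midSet β (matZ b) v j := by
      intro p hp
      unfold bigSet at hp
      rw [mem_filter] at hp
      by_cases h6 : (n : ℝ) ^ β ≤ p
      · exact mem_union_left _ (by rw [hT, mem_filter]; exact ⟨hp.1, h6, hp.2.2⟩)
      · apply mem_union_right
        unfold midSet
        rw [mem_filter]
        refine ⟨hp.1, hp.2.1, not_le.1 h6, ?_⟩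
        rw [← matZ_bj]
        exact hp.2.2
    have h6 : ((bigSet P (v j)).card : ℝ) ≤ T.card + (midSet β (matZ b) v j).card := by
      exact_mod_cast (card_le_card h5).trans (card_union_le _ _)
    linarith
  rcases hj with hj | ⟨p, hp, hjp, -, -, hj⟩
  · refine ⟨j, 0, T.card, hPne, Or.inl rfl, hTN, hTn, Nat.zero_le _, _, v j, c, hcol, hbd, hbig, ?_⟩
    rw [hj] at hlc
    refine hlc.trans ?_
    have : (0 : ℝ) ≤ ((0 : ℕ) : ℝ) + 1 := by norm_num
    positivity
  · rw [mem_filter] at hjp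
    have hpp := Nat.prime_of_mem_primeFactors hp
    set Z := (univ.filter fun i => ((qp ζ n p : ℕ) : ℤ) ∣ v i) with hZ
    have hjZ : j ∈ Z := by rw [hZ, mem_filter]; exact ⟨mem_univ _, hjp.2⟩
    have hZpos : 0 < Z.card := card_pos.2 ⟨j, hjZ⟩
    have hZle : Z.card ≤ n + 1 := by
      calc Z.card ≤ (univ : Finset (Fin (n + 1))).card := card_le_card (subset_univ _)
        _ = n + 1 := by rw [card_univ, Fintype.card_fin]
    refine ⟨j, Z.card - 1, T.card, hPne, kill_tr b v a ha hv ζ p hpp j hjp.2 hsp hN, hTN, hTn, by omega,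
      _, v j, c, hcol, hbd, hbig, ?_⟩
    have hz : (((Z.card - 1 : ℕ) : ℝ) + 1) = Z.card := by
      have : Z.card - 1 + 1 = Z.card := by omega
      exact_mod_cast this
    rw [hz, hX1]
    have hl0 : 0 ≤ lcost ζ n (v j) c := by
      unfold lcost
      apply sum_nonneg
      intro q hq
      rw [mem_filter] at hq
      have : (1 : ℝ) ≤ q := by exact_mod_cast (Nat.prime_of_mem_primeFactors hq.1).one_le
      exact mul_nonneg (Nat.cast_nonneg _) (Real.logb_nonneg (by norm_num) this)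
    apply fin_arith _ _ n _ _ _ δ L hl0 hlc hj hW hGc hδ hδ' (by linarith) (Nat.cast_nonneg _)

end Vale.Agent.P160.Half.F.Sel907
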