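import Vale.Agent.P160.Half.Fin.FSplit
import Vale.Agent.P160.Half.Select150
import Vale.Agent.P160.Half.HadN

/-! # P160, rate 1/2, final assembly: selection of the index `j` (helper3, second of helper907) -/

set_option linter.unusedVariables false

namespace Vale.Agent.P160.Half.F.SelH3

open Finset Matrix Vale.Agent.P160.Half Vale.Agent.P160.Half.A Vale.Agent.P160.Half.F

/-- Hadamard bound for 0/1 matrices -/
theorem det_had {n : ℕ} (b : Bits n) : (((matZ b).det : ℤ) : ℝ) ^ 2 ≤ (n : ℝ) ^ n := by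
  have h := HadN.det_sq_le (matZ b) (fun i j => matZ_abs b i j)
  rw [Fintype.card_fin] at h
  exact_mod_cast h

theorem dvd_qp {ζ : ℝ} {n p : ℕ} (hp : p.Prime) (hn : 1 < ⌈(n : ℝ) ^ (1 / 2 - ζ)⌉₊) : p ∣ qp ζ n p := by
  unfold qp
  apply dvd_pow_self
  intro h
  have := Nat.clog_pos hp.one_lt (show 2 ≤ ⌈(n : ℝ) ^ (1 / 2 - ζ)⌉₊ by omega)
  omega

/-- the killed word of the minor modulo a power of `p` dividing `v j` -/
theorem kill_of {n : ℕ} (ζ : ℝ) (b : Bits (n + 1)) {v a : Fin (n + 1) → ℤ} (ha : ∑ i, a i * v i = 1)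
    (hv : matZ b *ᵥ v = 0) (p : ℕ) (hp : p.Prime) (hq : p ∣ qp ζ n p) (j : Fin (n + 1)) (hj : ((qp ζ n p : ℕ) : ℤ) ∣ v j)
    (hsp : ¬ ∃ p : ℕ, p.Prime ∧ ∃ u : Fin (n + 1) → ZMod p, u ≠ 0 ∧
      ((univ.filter fun i => u i ≠ 0).card : ℝ) ≤ ((n + 1 : ℕ) : ℝ) ^ (1 - ζ / 2) ∧ (matZ b).map (Int.cast : ℤ → ZMod p) *ᵥ u = 0)
    (hζ : (n : ℝ) ^ (1 - ζ) ≤ ((n + 1 : ℕ) : ℝ) ^ (1 - ζ / 2))
    (z : ℕ) (hz : z + 1 ≤ (univ.filter fun i : Fin (n + 1) => ((qp ζ n p : ℕ) : ℤ) ∣ v i).card) :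
    Kill ζ (matZ (bj j b)) z := by
  classical
  have hj0 : ((v j : ℤ) : ZMod (qp ζ n p)) = 0 := (ZMod.intCast_zmod_eq_zero_iff_dvd _ _).2 hj
  have hpj : (p : ℤ) ∣ v j := (Int.natCast_dvd_natCast.2 hq).trans hj
  have hpos : ∃ k, qp ζ n p = p ^ k := ⟨_, rfl⟩
  obtain ⟨k, hk⟩ := hpos
  refine Or.inr ⟨p, hp, fun i => ((v (j.succAbove i) : ℤ) : ZMod (qp ζ n p)), ?_, ?_, ?_⟩
  · -- units
    have h1 : ((n + 1 : ℕ) : ℝ) ^ (1 - ζ / 2) <
        ((univ.filter fun i : Fin (n + 1) => ((v i : ℤ) : ZMod p) ≠ 0).card : ℝ) := by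
      by_contra hcon
      push Not at hcon
      apply hsp
      have : Fact p.Prime := ⟨hp⟩
      refine ⟨p, hp, fun i => ((v i : ℤ) : ZMod p), ?_, hcon, ?_⟩
      · intro h0
        have h2 : ∀ i, ((v i : ℤ) : ZMod p) = 0 := fun i => congrFun h0 i
        have h3 := congrArg (Int.cast : ℤ → ZMod p) ha
        push_cast at h3
        simp only [h2, mul_zero, sum_const_zero] at h3
        exact zero_ne_one h3
      · funext i
        have h2 := congrArg (Int.cast : ℤ → ZMod p) (congrFun hv i)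
        rw [mulVec, dotProduct] at h2
        push_cast at h2
        rw [mulVec, dotProduct]
        simpa using h2
    refine hζ.trans (h1.le.trans ?_)
    have h4 : (univ.filter fun i : Fin (n + 1) => ((v i : ℤ) : ZMod p) ≠ 0).card =
        (univ.filter fun i : Fin n => ((v (j.succAbove i) : ℤ) : ZMod p) ≠ 0).card := by
      have hj1 : ((v j : ℤ) : ZMod p) = 0 := (ZMod.intCast_zmod_eq_zero_iff_dvd _ _).2 hpj
      rw [card_filter, card_filter, Fin.sum_univ_succAbove _ j, if_neg (by simpa using hj1), zero_add]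
    rw [h4]
    rw [Nat.card_eq_fintype_card, Fintype.card_subtype]
    have h5 : (univ.filter fun i : Fin n => ((v (j.succAbove i) : ℤ) : ZMod p) ≠ 0) ⊆
        (univ.filter fun i : Fin n => IsUnit ((v (j.succAbove i) : ℤ) : ZMod (qp ζ n p))) := by
      intro i hi
      rw [mem_filter] at hi ⊢
      refine ⟨mem_univ _, ?_⟩
      have hd : ¬ (p : ℤ) ∣ v (j.succAbove i) := fun h => hi.2 ((ZMod.intCast_zmod_eq_zero_iff_dvd _ _).2 h)
      have hcop : IsCoprime (v (j.succAbove i)) ((qp ζ n p : ℕ) : ℤ) := by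
        rw [hk]
        push_cast
        refine IsCoprime.pow_right ?_
        rw [isCoprime_comm]
        exact (Prime.coprime_iff_not_dvd (Nat.prime_iff_prime_int.1 hp)).2 hd
      obtain ⟨x, y, hxy⟩ := hcop
      refine IsUnit.of_mul_eq_one (x : ZMod (qp ζ n p)) ?_
      have := congrArg (Int.cast : ℤ → ZMod (qp ζ n p)) hxy
      push_cast at this
      rw [ZMod.natCast_self, mul_zero, add_zero] at this
      rw [mul_comm]; exact this
    exact_mod_cast card_le_card h5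
  · funext i
    have h1 := congrArg (Int.cast : ℤ → ZMod (qp ζ n p)) (congrFun hv (j.succAbove i))
    rw [mulVec, dotProduct, Fin.sum_univ_succAbove _ j] at h1
    push_cast at h1
    rw [hj0, mul_zero, zero_add] at h1
    rw [mulVec, dotProduct, matZ_bj]
    simpa using h1
  · have h1 : (univ.filter fun i : Fin n => ((v (j.succAbove i) : ℤ) : ZMod (qp ζ n p)) = 0).card + 1 =
        (univ.filter fun i : Fin (n + 1) => ((v i : ℤ) : ZMod (qp ζ n p)) = 0).card := by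
      rw [card_filter, card_filter, Fin.sum_univ_succAbove _ j, if_pos hj0, add_comm]
    have h2 : (univ.filter fun i : Fin (n + 1) => ((v i : ℤ) : ZMod (qp ζ n p)) = 0) =
        (univ.filter fun i : Fin (n + 1) => ((qp ζ n p : ℕ) : ℤ) ∣ v i) := by
      refine filter_congr fun i _ => ?_
      exact ZMod.intCast_zmod_eq_zero_iff_dvd _ _
    rw [h2] at h1
    rw [Nat.card_eq_fintype_card, Fintype.card_subtype]
    have h3 : z ≤ (univ.filter fun i : Fin n => ((v (j.succAbove i) : ℤ) : ZMod (qp ζ n p)) = 0).card := by omega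
    exact h3

/-- `log₂ |c| = ∑ v_p(c) log₂ p` -/
theorem logb_fact (c : ℕ) (hc : c ≠ 0) :
    ∑ p ∈ c.primeFactors, (c.factorization p : ℝ) * Real.logb 2 p = Real.logb 2 c := by
  conv_rhs => rw [← Nat.prod_factorization_pow_eq_self hc]
  rw [Finsupp.prod, Nat.cast_prod, Real.logb_prod]
  · rw [Nat.support_factorization]
    refine sum_congr rfl fun p _ => ?_
    push_cast
    rw [Real.logb_pow]
  · intro p hp
    rw [Nat.support_factorization] at hp
    have := (Nat.prime_of_mem_primeFactors hp).pos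
    positivity

/-- product of distinct prime divisors -/
theorem pow_card_le (e : ℕ) (he : e ≠ 0) (S : Finset ℕ) (hS : S ⊆ e.primeFactors) (y : ℝ) (hy : 0 ≤ y)
    (h : ∀ p ∈ S, y ≤ p) : y ^ S.card ≤ e := by
  have h1 : ∏ p ∈ S, p ∣ e :=
    (prod_dvd_prod_of_subset _ _ _ hS).trans (Nat.prod_primeFactors_dvd e)
  have h2 : ((∏ p ∈ S, p : ℕ) : ℝ) ≤ e := by exact_mod_cast Nat.le_of_dvd (Nat.pos_of_ne_zero he) h1
  refine le_trans ?_ h2
  rw [Nat.cast_prod, ← prod_const]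
  exact prod_le_prod (fun _ _ => hy) h

theorem arith1 (δ g n : ℝ) (hδ : 0 < δ) (hδ1 : δ ≤ 1 / 2) (hn : 0 < n) (hg : (1 - δ / 4) * n < g) : n ≤ (1 + δ) * g := by
  have h5 : (1 : ℝ) ≤ (1 + δ) * (1 - δ / 4) := by nlinarith
  have h4 : n ≤ (1 + δ) * ((1 - δ / 4) * n) := by
    calc n = 1 * n := (one_mul n).symm
      _ ≤ (1 + δ) * (1 - δ / 4) * n := mul_le_mul_of_nonneg_right h5 hn.le
      _ = _ := by ring
  exact h4.trans (mul_le_mul_of_nonneg_left hg.le (by linarith))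

theorem arith2 (δ g n Sg K : ℝ) (hδ : 0 < δ) (hδ1 : δ ≤ 1 / 2) (hn : 0 < n) (hg : (1 - δ / 4) * n < g)
    (hSg : 0 ≤ Sg) (h : Sg * g ≤ K) : Sg ≤ (1 + δ) * K / n := by
  rw [le_div_iff₀ hn]
  calc Sg * n ≤ Sg * ((1 + δ) * g) := mul_le_mul_of_nonneg_left (arith1 δ g n hδ hδ1 hn hg) hSg
    _ = (1 + δ) * (Sg * g) := by ring
    _ ≤ _ := mul_le_mul_of_nonneg_left h (by linarith)

theorem arith3 (N u g δ t1 t2 : ℝ) (hδ : 0 < δ) (hδ1 : δ ≤ 1 / 2) (hN : 0 < N) (hg : g = (N + 1) - u) (hu : u ≤ t1 + t2)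
    (h1 : t1 < δ / 8 * (N + 1)) (h2 : t2 < δ / 8 * N) : (1 - δ / 4) * N < g := by
  rw [hg]
  have : δ / 8 ≤ 1 := by linarith
  linarith [mul_comm δ N]

theorem arith4 (n β t L lc le x : ℝ) (h3 : 2 * (lc + 2 * le) ≤ n * L) (h5 : t * (β * L) ≤ le) :
    lc ≤ (n / 2 - 2 * β * t) * L := by
  have : (n / 2 - 2 * β * t) * L = n * L / 2 - 2 * (t * (β * L)) := by ring
  rw [this]
  linarith

/-- **SEL** -/
theorem sel : SelStmt := by
  classical
  intro ζ β δ A hζ hζ1 hβ hδ hδ1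
  refine ⟨2, fun n hn b hr hsp htame hmid => ?_⟩
  have hn1 : (1 : ℝ) < n := by exact_mod_cast (by omega : 1 < n)
  have hn0 : (0 : ℝ) < n := by linarith
  have hn2 : (2 : ℝ) ≤ n := by exact_mod_cast hn
  have hceil : 1 < ⌈(n : ℝ) ^ (1 / 2 - ζ)⌉₊ := by
    rw [Nat.lt_ceil]
    push_cast
    exact Real.one_lt_rpow hn1 (by linarith)
  have hζ' : (n : ℝ) ^ (1 - ζ) ≤ ((n + 1 : ℕ) : ℝ) ^ (1 - ζ / 2) := by
    push_cast
    calc (n : ℝ) ^ (1 - ζ) ≤ ((n : ℝ) + 1) ^ (1 - ζ) := by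
          apply Real.rpow_le_rpow hn0.le (by linarith) (by linarith)
      _ ≤ _ := by
          apply Real.rpow_le_rpow_of_exponent_le (by linarith) (by linarith)
  obtain ⟨v, c, a, ha, hc0, hv, -, hminor⟩ := Adj.adj_struct (matZ b) (matZ_symm b) hr
  obtain ⟨i₀, -, hmax⟩ := exists_max_image (univ : Finset (Fin (n + 1))) (fun i => |v i|) ⟨0, mem_univ _⟩
  have hv0 : v i₀ ≠ 0 := by
    intro h0
    have h1 : ∀ i, v i = 0 := by
      intro i
      have := hmax i (mem_univ _)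
      rw [h0, abs_zero] at this
      exact abs_nonpos_iff.1 this
    simp [h1] at ha
  have hpos : (0 : ℝ) < |(v i₀ : ℝ)| := abs_pos.2 (by exact_mod_cast hv0)
  have hmaxR : ∀ i, |(v i : ℝ)| ≤ |(v i₀ : ℝ)| := by
    intro i
    exact_mod_cast hmax i (mem_univ _)
  -- tame
  have hT1 : ((univ.filter fun j => |(v j : ℝ)| * ((n + 1 : ℕ) : ℝ) ^ A < |(v i₀ : ℝ)|).card : ℝ) <
      δ / 8 * ((n + 1 : ℕ) : ℝ) := by
    by_contra hcon
    push Not at hcon
    apply htame
    refine ⟨fun i => (v i : ℝ), i₀, fun k => ?_, hcon⟩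
    have h1 := congrFun hv k
    rw [mulVec, dotProduct] at h1
    have h2 := congrArg (Int.cast : ℤ → ℝ) h1
    push_cast at h2
    rw [Pi.zero_apply, Int.cast_zero] at h2
    refine Eq.trans (sum_congr rfl fun j _ => ?_) h2
    unfold matZ
    split_ifs <;> simp
  have hT2 : ((univ.filter fun j => v j ≠ 0 ∧ δ * n < ((midSet β (matZ b) v j).card : ℝ)).card : ℝ) < δ / 8 * n := by
    by_contra hcon
    push Not at hcon
    exact hmid ⟨v, ⟨hv, a, ha⟩, hcon⟩
  set T1 := univ.filter fun j => |(v j : ℝ)| * ((n + 1 : ℕ) : ℝ) ^ A < |(v i₀ : ℝ)| with hT1d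
  set T2 := univ.filter fun j => v j ≠ 0 ∧ δ * n < ((midSet β (matZ b) v j).card : ℝ) with hT2d
  set G : Finset (Fin (n + 1)) := (T1 ∪ T2)ᶜ with hGd
  have hGc : (1 - δ / 4) * n < (G.card : ℝ) := by
    have h1 : G.card = (n + 1) - (T1 ∪ T2).card := by
      rw [hGd, card_compl, Fintype.card_fin]
    have h2 : (T1 ∪ T2).card ≤ n + 1 := by
      have := card_le_univ (T1 ∪ T2)
      rwa [Fintype.card_fin] at this
    have h3 : (G.card : ℝ) = (n + 1) - ((T1 ∪ T2).card : ℝ) := by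
      rw [h1, Nat.cast_sub h2]; push_cast; ring
    have h4 : ((T1 ∪ T2).card : ℝ) ≤ T1.card + T2.card := by exact_mod_cast card_union_le _ _
    push_cast at hT1
    exact arith3 n _ _ δ _ _ hδ hδ1 hn0 h3 h4 hT1 hT2
  have hG0 : (0 : ℝ) < G.card := by
    have : 0 ≤ (1 - δ / 4) * n := by
      apply mul_nonneg <;> linarith
    linarith
  have hGne : G.Nonempty := by
    rw [← card_pos]; exact_mod_cast hG0
  -- selection
  have hcN : c.natAbs ≠ 0 := Int.natAbs_ne_zero.2 hc0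
  have hw : ∀ p ∈ c.natAbs.primeFactors, 0 ≤ (c.natAbs.factorization p : ℝ) * Real.logb 2 p := by
    intro p hp
    have h1 : (1 : ℝ) ≤ p := by exact_mod_cast (Nat.prime_of_mem_primeFactors hp).one_lt.le
    exact mul_nonneg (Nat.cast_nonneg _) (Real.logb_nonneg (by norm_num) h1)
  obtain ⟨j, hjG, hcase⟩ := Sel150.select G hGne c.natAbs.primeFactors
    (fun p => univ.filter fun i => ((qp ζ n p : ℕ) : ℤ) ∣ v i)
    (fun p => (c.natAbs.factorization p : ℝ) * Real.logb 2 p) hw (logb_fact c.natAbs hcN).le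
  have hjm : j ∉ T1 ∧ j ∉ T2 := by
    rw [hGd, mem_compl, mem_union, not_or] at hjG
    exact hjG
  have hj1 : |(v i₀ : ℝ)| ≤ |(v j : ℝ)| * ((n + 1 : ℕ) : ℝ) ^ A := by
    have := hjm.1
    rw [hT1d, mem_filter] at this
    push Not at this
    exact this (mem_univ _)
  have he : v j ≠ 0 := by
    intro h0
    rw [h0] at hj1
    simp at hj1
    exact hv0 hj1
  have hj2 : ((midSet β (matZ b) v j).card : ℝ) ≤ δ * n := by
    have := hjm.2
    rw [hT2d, mem_filter] at this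
    push Not at this
    exact this (mem_univ _) he
  have heN : (v j).natAbs ≠ 0 := Int.natAbs_ne_zero.2 he
  have hdet : (matZ (bj j b)).det = c * v j ^ 2 := by
    rw [matZ_bj]; exact hminor j
  have hdet0 : (matZ (bj j b)).det ≠ 0 := by
    rw [hdet]; exact mul_ne_zero hc0 (pow_ne_zero _ he)
  set L := Real.logb 2 n with hL
  have hL0 : 0 < L := Real.logb_pos (by norm_num) hn1
  set S : Finset ℕ := (v j).natAbs.primeFactors.filter fun p : ℕ => (n : ℝ) ^ β ≤ p ∧ 2 ≤ crk (matZ (bj j b)) p with hS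
  set t := S.card with ht
  -- Hadamard
  have hWL : Real.logb 2 c.natAbs ≤ (n / 2 - 2 * β * t) * L := by
    have h1 := det_had (bj j b)
    rw [hdet] at h1
    push_cast at h1
    have hcR : (0 : ℝ) < |(c : ℝ)| := abs_pos.2 (by exact_mod_cast hc0)
    have heR : (0 : ℝ) < |(v j : ℝ)| := abs_pos.2 (by exact_mod_cast he)
    have h2 : (|(c : ℝ)| * |(v j : ℝ)| ^ 2) ^ 2 ≤ (n : ℝ) ^ n := by
      rw [← sq_abs, abs_mul, abs_pow] at h1
      exact h1
    have h3 := Real.logb_le_logb_of_le (b := 2) (by norm_num) (by positivity) h2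
    rw [Real.logb_pow, Real.logb_pow, Real.logb_mul hcR.ne' (by positivity), Real.logb_pow] at h3
    have h4 : ((n : ℝ) ^ β) ^ t ≤ ((v j).natAbs : ℝ) :=
      pow_card_le _ heN S (filter_subset _ _) _ (by positivity) (fun p hp => ((mem_filter.1 hp).2).1)
    have h5 := Real.logb_le_logb_of_le (b := 2) (by norm_num) (by positivity) h4
    rw [Real.logb_pow, Real.logb_rpow_eq_mul_logb_of_pos hn0] at h5
    have h6 : ((v j).natAbs : ℝ) = |(v j : ℝ)| := by
      rw [Nat.cast_natAbs]; push_cast; rfl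
    have h7 : (c.natAbs : ℝ) = |(c : ℝ)| := by
      rw [Nat.cast_natAbs]; push_cast; rfl
    rw [h6] at h5
    rw [h7]
    push_cast at h3
    exact arith4 n β t L _ _ 0 h3 h5
  have hW0 : 0 ≤ Real.logb 2 (c.natAbs : ℝ) := by
    apply Real.logb_nonneg (by norm_num)
    exact_mod_cast Nat.one_le_iff_ne_zero.2 hcN
  have hK0 : 0 ≤ (n / 2 - 2 * β * t : ℝ) := by
    have := hW0.trans hWL
    exact nonneg_of_mul_nonneg_left this hL0
  have ht0 : (0 : ℝ) ≤ t := Nat.cast_nonneg _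
  have htn : (t : ℝ) ≤ n := by
    have h1 : (t : ℝ) ≤ β * t := le_mul_of_one_le_left ht0 hβ
    linarith
  -- label cost
  have hlc : lcost ζ n (v j) c ≤ ∑ p ∈ c.natAbs.primeFactors with
      j ∈ (univ.filter fun i => ((qp ζ n p : ℕ) : ℤ) ∣ v i), (c.natAbs.factorization p : ℝ) * Real.logb 2 p := by
    unfold lcost
    rw [← sum_filter_of_ne (p := fun p => p ∈ c.natAbs.primeFactors)]
    · refine sum_le_sum_of_subset_of_nonneg ?_ (fun p hp _ => hw p (mem_filter.1 hp).1)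
      intro p hp
      rw [mem_filter, mem_filter] at hp
      rw [mem_filter, mem_filter]
      exact ⟨hp.2, mem_univ _, hp.1.2⟩
    · intro p _ hp
      have h1 : c.natAbs.factorization p ≠ 0 := by
        intro h0
        apply hp
        rw [h0]; simp
      rw [← Nat.support_factorization, Finsupp.mem_support_iff]
      exact h1
  -- common facts
  have hcol := col_of b v c a ha hv j (hminor j)
  have hN2 : t ≤ N2 β (matZ (bj j b)) := by
    unfold N2
    refine card_le_card fun p hp => ?_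
    rw [hS, mem_filter] at hp
    rw [mem_filter]
    refine ⟨?_, hp.2⟩
    rw [Nat.mem_primeFactors] at hp ⊢
    refine ⟨hp.1.1, ?_, Int.natAbs_ne_zero.2 hdet0⟩
    rw [hdet, Int.natAbs_mul, Int.natAbs_pow]
    exact dvd_mul_of_dvd_right (dvd_pow hp.1.2.1 (by norm_num)) _
  have hbd : ∀ i, |((v (j.succAbove i) : ℤ) : ℝ)| ≤ (n : ℝ) ^ (2 * |A| + 1) * |((v j : ℤ) : ℝ)| := by
    intro i
    refine (hmaxR _).trans (hj1.trans ?_)
    rw [mul_comm]
    refine mul_le_mul_of_nonneg_right ?_ (abs_nonneg _)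
    have h1 : ((n + 1 : ℕ) : ℝ) ≤ (n : ℝ) ^ 2 := by
      push_cast; nlinarith
    calc ((n + 1 : ℕ) : ℝ) ^ A ≤ ((n + 1 : ℕ) : ℝ) ^ |A| := by
          apply Real.rpow_le_rpow_of_exponent_le _ (le_abs_self A)
          push_cast; linarith
      _ ≤ ((n : ℝ) ^ 2) ^ |A| := Real.rpow_le_rpow (by positivity) h1 (abs_nonneg _)
      _ = (n : ℝ) ^ (2 * |A|) := by
          rw [← Real.rpow_natCast, ← Real.rpow_mul hn0.le]; norm_num
      _ ≤ (n : ℝ) ^ (2 * |A| + 1) := Real.rpow_le_rpow_of_exponent_le hn1.le (by linarith)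
  have hbig : ((bigSet (matZ (bj j b)) (v j)).card : ℝ) ≤ t + δ * n := by
    have h1 : bigSet (matZ (bj j b)) (v j) ⊆ S ∪ midSet β (matZ b) v j := by
      intro p hp
      unfold bigSet at hp
      rw [mem_filter] at hp
      rw [mem_union]
      by_cases hpb : (n : ℝ) ^ β ≤ p
      · left
        rw [hS, mem_filter]
        exact ⟨hp.1, hpb, hp.2.2⟩
      · right
        unfold midSet
        rw [mem_filter]
        exact ⟨hp.1, hp.2.1, not_le.1 hpb, hp.2.2⟩
    have h2 : ((bigSet (matZ (bj j b)) (v j)).card : ℝ) ≤ S.card + (midSet β (matZ b) v j).card := by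
      exact_mod_cast (card_le_card h1).trans (card_union_le _ _)
    linarith
  have hRHS : ∀ z : ℕ, 0 ≤ (1 + δ) * ((z : ℝ) + 1) * (1 / 2 - 2 * β * t / n) * L := by
    intro z
    have h1 : 0 ≤ (1 / 2 - 2 * β * t / n : ℝ) := by
      have : (1 / 2 - 2 * β * t / n : ℝ) = (n / 2 - 2 * β * t) / n := by field_simp
      rw [this]; exact div_nonneg hK0 hn0.le
    positivity
  rcases hcase with h0 | ⟨p, hp, hjZ, hwp, -, hsel⟩
  · refine ⟨j, 0, t, hdet0, Or.inl rfl, hN2, by exact_mod_cast htn, Nat.zero_le _, _, _, _, hcol, hbd, hbig, ?_⟩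
    refine (hlc.trans h0.le).trans (hRHS 0)
  · have hpp : p.Prime := Nat.prime_of_mem_primeFactors hp
    set Zp := univ.filter fun i : Fin (n + 1) => ((qp ζ n p : ℕ) : ℤ) ∣ v i with hZp
    have hZ1 : 1 ≤ Zp.card := card_pos.2 ⟨j, hjZ⟩
    have hZ2 : Zp.card ≤ n + 1 := by
      have := card_le_univ Zp
      rwa [Fintype.card_fin] at this
    obtain ⟨z, hz⟩ : ∃ z, Zp.card = z + 1 := ⟨Zp.card - 1, by omega⟩
    refine ⟨j, z, t, hdet0, ?_, hN2, by exact_mod_cast htn, by omega, _, _, _, hcol, hbd, hbig, ?_⟩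
    · exact kill_of ζ b ha hv p hpp (dvd_qp hpp hceil) j ((mem_filter.1 hjZ).2) hsp hζ' z hz.ge
    · refine hlc.trans ?_
      set Sg := ∑ p ∈ c.natAbs.primeFactors with
        j ∈ (univ.filter fun i => ((qp ζ n p : ℕ) : ℤ) ∣ v i), (c.natAbs.factorization p : ℝ) * Real.logb 2 p with hSg
      have hSg0 : 0 ≤ Sg := sum_nonneg fun q hq => hw q (mem_filter.1 hq).1
      have h1 : Sg * (G.card : ℝ) ≤ Real.logb 2 c.natAbs * ((z : ℝ) + 1) := by
        have := hsel
        rw [hz] at this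
        push_cast at this
        exact this
      have hz0 : (0 : ℝ) ≤ z := Nat.cast_nonneg _
      have h2 : Sg * (G.card : ℝ) ≤ (n / 2 - 2 * β * t) * L * ((z : ℝ) + 1) :=
        h1.trans (mul_le_mul_of_nonneg_right hWL (by positivity))
      have h8 : (1 + δ) * ((z : ℝ) + 1) * (1 / 2 - 2 * β * t / n) * L =
          (1 + δ) * ((n / 2 - 2 * β * t) * L * ((z : ℝ) + 1)) / n := by
        field_simp
      rw [h8]
      exact arith2 δ _ n Sg _ hδ hδ1 hn0 hGc hSg0 h2

end Vale.Agent.P160.Half.F.SelH3
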