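import Vale.Agent.P160.Half.SparseAll
import Vale.Agent.P160.Half.Fin.FStmt

/-! # P160, rate 1/2: `SparseStmt` from helper324's `SparseAll.sparse_all` (helper999) -/

namespace Vale.Agent.P160.Half.F

theorem sparseStmt : SparseStmt := fun d ε hd hε => SparseAll.sparse_all d ε hd hε

end Vale.Agent.P160.Half.F
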