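import Vale.Agent.P160.Half.CorankOne
import Vale.Agent.P160.Half.Fin.FStmt

/-! # P160, final assembly: splitting off the index `j` (counting lemma) -/

namespace Vale.Agent.P160.Half.F.Sp

open Finset Matrix Vale.Agent.P160.Half Vale.Agent.P160.Half.A Vale.Agent.P160.Half.CO

/-- the bit array is determined by the minor, the column and the diagonal entry -/
theorem card_split {n : ℕ} (i : Fin (n + 1)) (S : Finset (Bits (n + 1))) (D : Finset (Bits n))
    (N : Bits n → Finset (Fin n → Bool)) (hD : ∀ b ∈ S, del i b ∈ D)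
    (hN : ∀ b ∈ S, colb i b ∈ N (del i b)) : S.card ≤ 2 * ∑ b ∈ D, (N b).card := by
  classical
  have h1 : S.card ≤ ((D.sigma N) ×ˢ (univ : Finset Bool)).card := by
    refine Finset.card_le_card_of_injOn
      (fun b => ((⟨del i b, colb i b⟩ : Sigma fun _ : Bits n => Fin n → Bool), b s(i, i))) ?_ ?_
    · intro b hb
      have hb' : b ∈ S := hb
      simp only [coe_product, Set.mem_prod, mem_coe, mem_sigma, mem_univ, and_true]
      exact ⟨hD b hb', hN b hb'⟩
    · intro b _ c _ h
      simp only [Prod.mk.injEq, Sigma.mk.injEq, heq_eq_eq] at h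
      exact ext_del i h.1.1 h.1.2 h.2
  rw [card_product, card_sigma, card_univ, Fintype.card_bool] at h1
  linarith

/-- real form: at most `F b` columns over the minor `b` -/
theorem card_split_real {n : ℕ} (i : Fin (n + 1)) (S : Finset (Bits (n + 1))) (D : Finset (Bits n))
    (N : Bits n → Finset (Fin n → Bool)) (F : ℝ) (hD : ∀ b ∈ S, del i b ∈ D)
    (hN : ∀ b ∈ S, colb i b ∈ N (del i b)) (hF : ∀ b ∈ D, ((N b).card : ℝ) ≤ F) :
    (S.card : ℝ) ≤ 2 * (D.card * F) := by
  have h1 := card_split i S D N hD hN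
  have h2 : (S.card : ℝ) ≤ 2 * ∑ b ∈ D, ((N b).card : ℝ) := by exact_mod_cast h1
  have h3 : ∑ b ∈ D, ((N b).card : ℝ) ≤ D.card * F := by
    calc _ ≤ ∑ _b ∈ D, F := sum_le_sum hF
      _ = D.card * F := by rw [sum_const, nsmul_eq_mul]
  linarith

/-- the preimage of a set of minors -/
theorem card_preim {n : ℕ} (i : Fin (n + 1)) (D : Finset (Bits n)) [DecidableEq (Bits n)] :
    ((((univ : Finset (Bits (n + 1))).filter fun b => del i b ∈ D).card : ℕ) : ℝ) ≤
      2 * (D.card * (2 : ℝ) ^ n) := by
  classical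
  refine card_split_real i _ D (fun _ => univ) _ (fun b hb => (mem_filter.1 hb).2) (fun b _ => mem_univ _) ?_
  intro b _
  rw [card_univ, Fintype.card_fun, Fintype.card_bool, Fintype.card_fin]
  push_cast
  exact le_rfl

/-- number of bits -/
theorem card_bits (n : ℕ) : Fintype.card (Sym2 (Fin (n + 1))) = Fintype.card (Sym2 (Fin n)) + (n + 1) := by
  rw [Sym2.card, Sym2.card, Fintype.card_fin, Fintype.card_fin, Nat.choose_succ_succ' (n + 1) 1,
    Nat.choose_one_right, add_comm]

end Vale.Agent.P160.Half.F.Sp
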