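import Vale.Agent.P160.Half.Fin.FStmt
import Vale.Agent.P160.Half.Adj729
import Vale.Agent.P160.Half.Select150
import Vale.Agent.P160.Half.HadN

/-! # P160, rate 1/2, final assembly: the deterministic step for one matrix -/

set_option linter.unusedVariables false
set_option linter.unusedSectionVars false

namespace Vale.Agent.P160.Half.F.Step288

open Finset Matrix Vale.Agent.P160.Half Vale.Agent.P160.Half.A Vale.Agent.P160.Half.F

variable {n : ℕ}

/-- the minor -/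
def mn (b : Bits (n + 1)) (j : Fin (n + 1)) : Matrix (Fin n) (Fin n) ℤ :=
  (matZ b).submatrix j.succAbove j.succAbove

/-- the column -/
def col (b : Bits (n + 1)) (j : Fin (n + 1)) : Fin n → Bool := fun i => b s(j, j.succAbove i)

theorem isCol (b : Bits (n + 1)) (v : Fin (n + 1) → ℤ) (c : ℤ) (a : Fin (n + 1) → ℤ)
    (ha : ∑ i, a i * v i = 1) (hv : matZ b *ᵥ v = 0) (j : Fin (n + 1))
    (hdet : (mn b j).det = c * v j ^ 2) :
    Col (mn b j) (col b j) (fun i => v (j.succAbove i)) (v j) c := by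
  refine ⟨hdet, ?_, ?_, ⟨fun i => a (j.succAbove i), a j, ?_⟩⟩
  · funext i
    have h1 := congrFun hv (j.succAbove i)
    rw [mulVec, dotProduct, Fin.sum_univ_succAbove _ j] at h1
    have h2 : (mn b j *ᵥ fun i => v (j.succAbove i)) i =
        ∑ k, matZ b (j.succAbove i) (j.succAbove k) * v (j.succAbove k) := rfl
    have h3 : matZ b (j.succAbove i) j = if col b j i then 1 else 0 := by
      rw [matZ_symm]; rfl
    rw [h2, Pi.smul_apply, smul_eq_mul]
    have h4 : (0 : Fin (n + 1) → ℤ) (j.succAbove i) = 0 := rfl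
    rw [h3, h4] at h1
    linarith
  · have h1 := congrFun hv j
    rw [mulVec, dotProduct, Fin.sum_univ_succAbove _ j] at h1
    have h2 : ∑ k, matZ b j (j.succAbove k) * v (j.succAbove k) =
        ∑ i, (if col b j i then v (j.succAbove i) else 0) := by
      refine sum_congr rfl fun k _ => ?_
      show (if col b j k then (1 : ℤ) else 0) * v (j.succAbove k) = _
      split_ifs <;> simp
    rw [h2] at h1
    refine ⟨- matZ b j j, ?_⟩
    have h4 : (0 : Fin (n + 1) → ℤ) j = 0 := rfl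
    rw [h4] at h1
    linarith
  · rw [Fin.sum_univ_succAbove _ j] at ha
    linarith

theorem qp_eq (ζ : ℝ) (n p : ℕ) : qp ζ n p = p ^ Nat.clog p ⌈(n : ℝ) ^ (1 / 2 - ζ)⌉₊ := rfl

theorem clog_pos {ζ : ℝ} (hζ : ζ < 1 / 2) (hn : 2 ≤ n) {p : ℕ} (hp : p.Prime) :
    0 < Nat.clog p ⌈(n : ℝ) ^ (1 / 2 - ζ)⌉₊ := by
  refine Nat.clog_pos hp.one_lt ?_
  have h1 : (1 : ℝ) < (n : ℝ) ^ (1 / 2 - ζ) :=
    Real.one_lt_rpow (by exact_mod_cast (by omega : 1 < n)) (by linarith)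
  have h2 : 1 < ⌈(n : ℝ) ^ (1 / 2 - ζ)⌉₊ := Nat.lt_ceil.2 (by exact_mod_cast h1)
  omega

/-- the killed event of the minor -/
theorem kill_of (b : Bits (n + 1)) (v : Fin (n + 1) → ℤ) (c : ℤ) (a : Fin (n + 1) → ℤ)
    (ha : ∑ i, a i * v i = 1) (hv : matZ b *ᵥ v = 0) (j : Fin (n + 1))
    (hdet : (mn b j).det = c * v j ^ 2) {ζ d : ℝ} (hζ : ζ < 1 / 2) (hn : 2 ≤ n) (hd : d ≤ ζ) (hd1 : d ≤ 1)
    (hsp : ∀ p : ℕ, p.Prime → ∀ u : Fin (n + 1) → ZMod p, u ≠ 0 →
      (matZ b).map (Int.cast : ℤ → ZMod p) *ᵥ u = 0 →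
      ((n + 1 : ℕ) : ℝ) ^ (1 - d) < ((univ.filter fun i => u i ≠ 0).card : ℝ))
    (p : ℕ) (hp : p.Prime) (hj : ((qp ζ n p : ℕ) : ℤ) ∣ v j) :
    Kill ζ (mn b j) ((univ.filter fun i => ((qp ζ n p : ℕ) : ℤ) ∣ v i).card - 1) := by
  classical
  right
  have hq0 : 0 < Nat.clog p ⌈(n : ℝ) ^ (1 / 2 - ζ)⌉₊ := clog_pos hζ hn hp
  have hpq : (p : ℤ) ∣ ((qp ζ n p : ℕ) : ℤ) := by
    rw [qp_eq]
    push_cast
    exact dvd_pow_self _ hq0.ne'
  refine ⟨p, hp, fun i => ((v (j.succAbove i) : ℤ) : ZMod (qp ζ n p)), ?_, ?_, ?_⟩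
  · -- units
    have hv0 : (fun i => ((v i : ℤ) : ZMod p)) ≠ 0 := by
      intro h0
      have : Fact p.Prime := ⟨hp⟩
      have h1 := congrArg (Int.cast : ℤ → ZMod p) ha
      push_cast at h1
      have h2 : ∀ i, ((v i : ℤ) : ZMod p) = 0 := fun i => congrFun h0 i
      simp [h2] at h1
    have hker : (matZ b).map (Int.cast : ℤ → ZMod p) *ᵥ (fun i => ((v i : ℤ) : ZMod p)) = 0 := by
      funext i
      have h1 := congrArg (Int.cast : ℤ → ZMod p) (congrFun hv i)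
      rw [mulVec, dotProduct] at h1 ⊢
      push_cast at h1
      simpa using h1
    have h1 := hsp p hp _ hv0 hker
    have h2 : (univ.filter fun i => ((v i : ℤ) : ZMod p) ≠ 0).card ≤
        Nat.card {i : Fin n // IsUnit ((v (j.succAbove i) : ℤ) : ZMod (qp ζ n p))} := by
      rw [Nat.card_eq_fintype_card, Fintype.card_subtype]
      have hsub : (univ.filter fun i => ((v i : ℤ) : ZMod p) ≠ 0) ⊆
          ((univ.filter fun i : Fin n => IsUnit ((v (j.succAbove i) : ℤ) : ZMod (qp ζ n p))).image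
            j.succAbove) := by
        intro i hi
        have hi' := (mem_filter.1 hi).2
        have hij : i ≠ j := by
          rintro rfl
          apply hi'
          exact (ZMod.intCast_zmod_eq_zero_iff_dvd _ _).2 (hpq.trans hj)
        obtain ⟨k, rfl⟩ := Fin.exists_succAbove_eq hij
        refine mem_image.2 ⟨k, mem_filter.2 ⟨mem_univ _, ?_⟩, rfl⟩
        have hcop : IsCoprime (v (j.succAbove k)) ((qp ζ n p : ℕ) : ℤ) := by
          rw [qp_eq]
          push_cast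
          refine IsCoprime.pow_right ?_
          have hnd : ¬ (p : ℤ) ∣ v (j.succAbove k) := fun hdv =>
            hi' ((ZMod.intCast_zmod_eq_zero_iff_dvd _ _).2 hdv)
          exact ((Nat.prime_iff_prime_int.1 hp).coprime_iff_not_dvd.2 hnd).symm
        obtain ⟨x, y, hxy⟩ := hcop
        have h3 := congrArg (Int.cast : ℤ → ZMod (qp ζ n p)) hxy
        push_cast at h3
        rw [ZMod.natCast_self, mul_zero, add_zero] at h3
        exact IsUnit.of_mul_eq_one_right _ h3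
      exact (card_le_card hsub).trans card_image_le
    have h3 : (n : ℝ) ^ (1 - ζ) ≤ ((n + 1 : ℕ) : ℝ) ^ (1 - d) := by
      have hn1 : (1 : ℝ) ≤ n := by exact_mod_cast (by omega : 1 ≤ n)
      calc (n : ℝ) ^ (1 - ζ) ≤ (n : ℝ) ^ (1 - d) :=
            Real.rpow_le_rpow_of_exponent_le hn1 (by linarith)
        _ ≤ _ := Real.rpow_le_rpow (by positivity) (by push_cast; linarith) (by linarith)
    exact h3.trans (h1.le.trans (by exact_mod_cast h2))
  · -- kernel
    have hC := isCol b v c a ha hv j hdet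
    funext i
    have h1 := congrArg (Int.cast : ℤ → ZMod (qp ζ n p)) (congrFun hC.ker i)
    rw [mulVec, dotProduct] at h1 ⊢
    push_cast at h1
    have hvj : ((v j : ℤ) : ZMod (qp ζ n p)) = 0 := (ZMod.intCast_zmod_eq_zero_iff_dvd _ _).2 hj
    have h2 : ∑ k, (((mn b j) i k : ℤ) : ZMod (qp ζ n p)) * ((v (j.succAbove k) : ℤ) : ZMod (qp ζ n p)) = 0 := by
      rw [h1]
      simp [hvj]
    exact h2
  · -- zeros
    rw [Nat.card_eq_fintype_card, Fintype.card_subtype]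
    have hsub : ((univ.filter fun i => ((qp ζ n p : ℕ) : ℤ) ∣ v i).erase j) ⊆
        ((univ.filter fun i : Fin n => ((v (j.succAbove i) : ℤ) : ZMod (qp ζ n p)) = 0).image
          j.succAbove) := by
      intro i hi
      obtain ⟨hij, hi'⟩ := mem_erase.1 hi
      obtain ⟨k, rfl⟩ := Fin.exists_succAbove_eq hij
      refine mem_image.2 ⟨k, mem_filter.2 ⟨mem_univ _, ?_⟩, rfl⟩
      exact (ZMod.intCast_zmod_eq_zero_iff_dvd _ _).2 (mem_filter.1 hi').2
    have h1 := (card_le_card hsub).trans card_image_le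
    rw [card_erase_of_mem (s := univ.filter fun i => ((qp ζ n p : ℕ) : ℤ) ∣ v i) (a := j) (mem_filter.2 ⟨mem_univ _, hj⟩)] at h1
    exact h1

/-! ## Label cost and Hadamard -/

theorem w_nonneg (c p : ℕ) : 0 ≤ (c.factorization p : ℝ) * Real.logb 2 p := by
  rcases Nat.eq_zero_or_pos p with rfl | hp
  · simp
  · refine mul_nonneg (by positivity) (Real.logb_nonneg (by norm_num) (by exact_mod_cast hp))

theorem sum_w (c : ℕ) :
    ∑ p ∈ c.primeFactors, (c.factorization p : ℝ) * Real.logb 2 p ≤ Real.logb 2 c := by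
  have h := Real.log_nat_eq_sum_factorization c
  rw [Finsupp.sum, Nat.support_factorization] at h
  unfold Real.logb
  rw [h, Finset.sum_div]
  refine le_of_eq (sum_congr rfl fun p _ => ?_)
  ring

theorem lcost_nonneg (ζ : ℝ) (n : ℕ) (e c : ℤ) : 0 ≤ lcost ζ n e c :=
  sum_nonneg fun p _ => w_nonneg _ _

theorem lcost_le (ζ : ℝ) (m : ℕ) (v : Fin (m + 1) → ℤ) (j : Fin (m + 1)) (c : ℤ) :
    lcost ζ m (v j) c ≤ ∑ p ∈ c.natAbs.primeFactors with
      j ∈ (univ.filter fun i => ((qp ζ m p : ℕ) : ℤ) ∣ v i),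
      (c.natAbs.factorization p : ℝ) * Real.logb 2 p := by
  classical
  unfold lcost
  rw [← Finset.sum_filter_ne_zero]
  refine Finset.sum_le_sum_of_subset_of_nonneg ?_ (fun p _ _ => w_nonneg _ _)
  intro p hp
  obtain ⟨hp1, hp2⟩ := mem_filter.1 hp
  have hp3 := (mem_filter.1 hp1).2
  refine mem_filter.2 ⟨?_, mem_filter.2 ⟨mem_univ _, hp3⟩⟩
  rw [← Nat.support_factorization, Finsupp.mem_support_iff]
  intro h0
  apply hp2
  rw [h0]
  simp

/-- Hadamard: the room for `c` -/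
theorem log_c_le {b : Bits (n + 1)} {v : Fin (n + 1) → ℤ} {c : ℤ} {j : Fin (n + 1)}
    (hdet : (mn b j).det = c * v j ^ 2) (hc0 : c ≠ 0) (hvj : v j ≠ 0) (hn : 2 ≤ n) (β : ℝ)
    (T : Finset ℕ) (hT : T ⊆ (v j).natAbs.primeFactors) (hTn : ∀ p ∈ T, (n : ℝ) ^ β ≤ p) :
    Real.logb 2 c.natAbs ≤ ((n : ℝ) / 2 - 2 * β * T.card) * Real.logb 2 n := by
  have hn0 : (0 : ℝ) < n := by exact_mod_cast (by omega : 0 < n)
  have h1 : (mn b j).det ^ 2 ≤ (n : ℤ) ^ n := by
    have := HadN.det_sq_le (mn b j) (fun i k => by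
      show |(if b s(j.succAbove i, j.succAbove k) then (1 : ℤ) else 0)| ≤ 1
      split_ifs <;> simp)
    rwa [Fintype.card_fin] at this
  rw [hdet] at h1
  have h2 : ((c.natAbs : ℝ)) ^ 2 * ((v j).natAbs : ℝ) ^ 4 ≤ (n : ℝ) ^ n := by
    have h3 : ((c * v j ^ 2 : ℤ) : ℝ) ^ 2 ≤ (n : ℝ) ^ n := by exact_mod_cast h1
    refine le_trans (le_of_eq ?_) h3
    rw [Nat.cast_natAbs, Nat.cast_natAbs, Int.cast_abs, Int.cast_abs, sq_abs,
      show |(v j : ℝ)| ^ 4 = (|(v j : ℝ)| ^ 2) ^ 2 by ring, sq_abs]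
    push_cast
    ring
  have h4 : ((n : ℝ) ^ β) ^ T.card ≤ ((v j).natAbs : ℝ) := by
    have h5 : ∏ p ∈ T, p ≤ (v j).natAbs := by
      refine Nat.le_of_dvd (Int.natAbs_pos.2 hvj) ?_
      exact (Finset.prod_dvd_prod_of_subset _ _ _ hT).trans (Nat.prod_primeFactors_dvd _)
    calc ((n : ℝ) ^ β) ^ T.card = ∏ _p ∈ T, (n : ℝ) ^ β := by rw [prod_const]
      _ ≤ ∏ p ∈ T, (p : ℝ) := prod_le_prod (fun _ _ => by positivity) hTn
      _ = ((∏ p ∈ T, p : ℕ) : ℝ) := by push_cast; rfl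
      _ ≤ _ := by exact_mod_cast h5
  have hcpos : (0 : ℝ) < c.natAbs := by exact_mod_cast Int.natAbs_pos.2 hc0
  have h6 : (c.natAbs : ℝ) ^ 2 * (((n : ℝ) ^ β) ^ T.card) ^ 4 ≤ (n : ℝ) ^ n :=
    (mul_le_mul_of_nonneg_left (pow_le_pow_left₀ (by positivity) h4 4) (by positivity)).trans h2
  have h7 := Real.logb_le_logb_of_le (b := 2) (by norm_num) (by positivity) h6
  rw [Real.logb_mul (by positivity) (by positivity), Real.logb_pow, Real.logb_pow, Real.logb_pow,
    Real.logb_pow, Real.logb_rpow_eq_mul_logb_of_pos hn0] at h7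
  push_cast at h7
  nlinarith

/-- **the deterministic step** -/
theorem step {β ζ d dt θ δ A : ℝ} (b : Bits (n + 1))
    (hrank : ((matZ b).map (Int.cast : ℤ → ℚ)).rank = n) (hn : 2 ≤ n) (hζ : ζ < 1 / 2) (hd : d ≤ ζ)
    (hd1 : d ≤ 1) (hθ : 0 ≤ θ) (hdt : dt + θ < 1)
    (hsp : ∀ p : ℕ, p.Prime → ∀ u : Fin (n + 1) → ZMod p, u ≠ 0 →
      (matZ b).map (Int.cast : ℤ → ZMod p) *ᵥ u = 0 →
      ((n + 1 : ℕ) : ℝ) ^ (1 - d) < ((univ.filter fun i => u i ≠ 0).card : ℝ))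
    (htame : ∀ (v : Fin (n + 1) → ℝ) (i : Fin (n + 1)), (∀ k, ∑ j, (if b s(k, j) then v j else 0) = 0) →
      ((univ.filter fun j => |v j| * ((n + 1 : ℕ) : ℝ) ^ A < |v i|).card : ℝ) < dt * (n + 1 : ℕ))
    (hmid : ∀ v : Fin (n + 1) → ℤ, PrimKer (matZ b) v →
      ((univ.filter fun j => v j ≠ 0 ∧ δ * n < ((midSet β (matZ b) v j).card : ℝ)).card : ℝ) < θ * n) :
    ∃ (j : Fin (n + 1)) (z t : ℕ) (v' : Fin n → ℤ) (e c : ℤ), (mn b j).det ≠ 0 ∧ z ≤ n ∧
      Kill ζ (mn b j) z ∧ t ≤ N2 β (mn b j) ∧ Col (mn b j) (col b j) v' e c ∧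
      (∀ i, |(v' i : ℝ)| ≤ ((n + 1 : ℕ) : ℝ) ^ A * |(e : ℝ)|) ∧
      ((bigSet (mn b j) e).card : ℝ) ≤ t + δ * n ∧ 0 ≤ (n : ℝ) / 2 - 2 * β * t ∧
      lcost ζ n e c * ((1 - dt - θ) * (n + 1)) ≤ (z + 1) * (((n : ℝ) / 2 - 2 * β * t) * Real.logb 2 n) := by
  classical
  obtain ⟨v, c, a, ha, hc0, hv, hadj, hdet⟩ := Adj.adj_struct (matZ b) (matZ_symm b) hrank
  have hn0 : (0 : ℝ) < n := by exact_mod_cast (by omega : 0 < n)
  have hL : 0 < Real.logb 2 n := Real.logb_pos (by norm_num) (by exact_mod_cast (by omega : 1 < n))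
  -- tame indices
  have hker : ∀ k, ∑ j, (if b s(k, j) then ((v j : ℤ) : ℝ) else 0) = 0 := by
    intro k
    have h1 := congrArg (Int.cast : ℤ → ℝ) (congrFun hv k)
    rw [mulVec, dotProduct] at h1
    push_cast at h1
    simp only [Pi.zero_apply, Int.cast_zero] at h1
    refine Eq.trans (sum_congr rfl fun j _ => ?_) h1
    show _ = (((if b s(k, j) then (1 : ℤ) else 0 : ℤ)) : ℝ) * _
    split_ifs <;> simp
  obtain ⟨i0, -, hi0⟩ := Finset.exists_max_image (univ : Finset (Fin (n + 1)))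
    (fun i => |((v i : ℤ) : ℝ)|) univ_nonempty
  have hi0pos : 0 < |((v i0 : ℤ) : ℝ)| := by
    rw [abs_pos]
    intro h0
    have h1 : ∀ i, v i = 0 := by
      intro i
      have := hi0 i (mem_univ i)
      simp only [h0, abs_zero] at this
      have h2 := abs_eq_zero.1 (le_antisymm this (abs_nonneg _))
      exact_mod_cast h2
    simp [h1] at ha
  set Bt := univ.filter fun j => |((v j : ℤ) : ℝ)| * ((n + 1 : ℕ) : ℝ) ^ A < |((v i0 : ℤ) : ℝ)| with hBt
  have hBtc := htame (fun j => ((v j : ℤ) : ℝ)) i0 hker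
  set Bm := univ.filter fun j => v j ≠ 0 ∧ δ * n < ((midSet β (matZ b) v j).card : ℝ) with hBm
  have hBmc := hmid v ⟨hv, a, ha⟩
  set J := (univ : Finset (Fin (n + 1))) \ (Bt ∪ Bm) with hJ
  have hJc : (1 - dt - θ) * ((n : ℝ) + 1) ≤ (J.card : ℝ) := by
    have h1 : (univ : Finset (Fin (n + 1))).card ≤ J.card + (Bt.card + Bm.card) := by
      have h2 : (univ : Finset (Fin (n + 1))) ⊆ J ∪ (Bt ∪ Bm) := by
        intro x _
        by_cases hx : x ∈ Bt ∪ Bm
        · exact mem_union_right _ hx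
        · exact mem_union_left _ (mem_sdiff.2 ⟨mem_univ _, hx⟩)
      exact (card_le_card h2).trans ((card_union_le _ _).trans
        (Nat.add_le_add_left (card_union_le _ _) _))
    rw [card_univ, Fintype.card_fin] at h1
    have h2 : ((n : ℝ) + 1) ≤ J.card + (Bt.card + Bm.card) := by exact_mod_cast h1
    have h3 : (Bt.card : ℝ) < dt * (n + 1) := by
      have h5 : (Bt.card : ℝ) < dt * ((n + 1 : ℕ) : ℝ) := hBtc
      have h6 : ((n + 1 : ℕ) : ℝ) = (n : ℝ) + 1 := by push_cast; ring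
      rwa [h6] at h5
    have h4 : (Bm.card : ℝ) < θ * (n + 1) := by nlinarith
    nlinarith
  have hJpos : (0 : ℝ) < J.card := by
    refine lt_of_lt_of_le ?_ hJc
    have : 0 < 1 - dt - θ := by linarith
    positivity
  have hJne : J.Nonempty := by
    rw [← card_pos]
    exact_mod_cast hJpos
  -- selection
  obtain ⟨j, hjJ, hsel⟩ := Sel150.select J hJne c.natAbs.primeFactors
    (fun p => univ.filter fun i => ((qp ζ n p : ℕ) : ℤ) ∣ v i)
    (fun p => (c.natAbs.factorization p : ℝ) * Real.logb 2 p) (fun p _ => w_nonneg _ _)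
    (W := Real.logb 2 c.natAbs) (sum_w _)
  have hjJ' := (mem_sdiff.1 hjJ).2
  rw [mem_union, not_or] at hjJ'
  have hjt : |((v i0 : ℤ) : ℝ)| ≤ |((v j : ℤ) : ℝ)| * ((n + 1 : ℕ) : ℝ) ^ A := by
    by_contra hcon
    exact hjJ'.1 (mem_filter.2 ⟨mem_univ _, not_le.1 hcon⟩)
  have hvj : v j ≠ 0 := by
    intro h0
    rw [h0] at hjt
    simp at hjt
    rw [hjt] at hi0pos
    simp at hi0pos
  have hjm : ((midSet β (matZ b) v j).card : ℝ) ≤ δ * n := by
    by_contra hcon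
    exact hjJ'.2 (mem_filter.2 ⟨mem_univ _, hvj, not_le.1 hcon⟩)
  have hdj : (mn b j).det = c * v j ^ 2 := hdet j
  have hdne : (mn b j).det ≠ 0 := by
    rw [hdj]; exact mul_ne_zero hc0 (pow_ne_zero _ hvj)
  -- large primes
  set T := (v j).natAbs.primeFactors.filter fun p : ℕ => (n : ℝ) ^ β ≤ p ∧ 2 ≤ crk (mn b j) p with hT
  have hlog := log_c_le (b := b) hdj hc0 hvj hn β T (filter_subset _ _)
    (fun p hp => (mem_filter.1 hp).2.1)
  have hTN : T.card ≤ N2 β (mn b j) := by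
    unfold N2
    refine card_le_card fun p hp => ?_
    obtain ⟨hp1, hp2⟩ := mem_filter.1 hp
    refine mem_filter.2 ⟨?_, hp2⟩
    refine Nat.primeFactors_mono ?_ (Int.natAbs_ne_zero.2 hdne) hp1
    rw [Int.natAbs_dvd_natAbs, hdj]
    exact Dvd.dvd.mul_left (dvd_pow_self _ (by norm_num)) _
  have hbig : ((bigSet (mn b j) (v j)).card : ℝ) ≤ T.card + δ * n := by
    have h1 : bigSet (mn b j) (v j) ⊆ T ∪ midSet β (matZ b) v j := by
      intro p hp
      obtain ⟨hp1, hp2, hp3⟩ := mem_filter.1 hp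
      by_cases hpb : (n : ℝ) ^ β ≤ p
      · exact mem_union_left _ (mem_filter.2 ⟨hp1, hpb, hp3⟩)
      · exact mem_union_right _ (mem_filter.2 ⟨hp1, hp2, not_le.1 hpb, hp3⟩)
    have h2 : ((bigSet (mn b j) (v j)).card : ℝ) ≤ T.card + (midSet β (matZ b) v j).card := by
      exact_mod_cast (card_le_card h1).trans (card_union_le _ _)
    linarith
  have hc1 : 0 ≤ Real.logb 2 c.natAbs := Real.logb_nonneg (by norm_num) (by
    exact_mod_cast Int.natAbs_pos.2 hc0)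
  have hroom : 0 ≤ (n : ℝ) / 2 - 2 * β * T.card := by
    by_contra hcon
    rw [not_le] at hcon
    nlinarith
  have hbd : ∀ i, |((v (j.succAbove i) : ℤ) : ℝ)| ≤ ((n + 1 : ℕ) : ℝ) ^ A * |((v j : ℤ) : ℝ)| := by
    intro i
    rw [mul_comm]
    exact (hi0 _ (mem_univ _)).trans hjt
  have hlc := lcost_le ζ n v j c
  have hlc0 := lcost_nonneg ζ n (v j) c
  rcases hsel with hsel | ⟨p, hpP, hjp, hwp, -, hsel⟩
  · refine ⟨j, 0, T.card, fun i => v (j.succAbove i), v j, c, hdne, Nat.zero_le _, Or.inl rfl, hTN,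
      isCol b v c a ha hv j hdj, hbd, hbig, hroom, ?_⟩
    rw [hsel] at hlc
    have h0 : lcost ζ n (v j) c = 0 := le_antisymm hlc hlc0
    rw [h0, zero_mul]
    push_cast
    have := mul_nonneg hroom hL.le
    linarith
  · have hpp : p.Prime := Nat.prime_of_mem_primeFactors hpP
    have hjq : ((qp ζ n p : ℕ) : ℤ) ∣ v j := (mem_filter.1 hjp).2
    set Z := univ.filter fun i => ((qp ζ n p : ℕ) : ℤ) ∣ v i with hZ
    have hZ1 : 1 ≤ Z.card := card_pos.2 ⟨j, hjp⟩
    have hZn : Z.card ≤ n + 1 := (card_le_univ Z).trans (by rw [Fintype.card_fin])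
    refine ⟨j, Z.card - 1, T.card, fun i => v (j.succAbove i), v j, c, hdne, by omega,
      kill_of b v c a ha hv j hdj hζ hn hd hd1 hsp p hpp hjq, hTN,
      isCol b v c a ha hv j hdj, hbd, hbig, hroom, ?_⟩
    have hz : (((Z.card - 1 : ℕ) : ℝ)) + 1 = Z.card := by
      rw [Nat.cast_sub hZ1]; push_cast; ring
    rw [hz]
    calc lcost ζ n (v j) c * ((1 - dt - θ) * (n + 1)) ≤ lcost ζ n (v j) c * J.card :=
          mul_le_mul_of_nonneg_left hJc hlc0
      _ ≤ _ := mul_le_mul_of_nonneg_right hlc hJpos.le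
      _ ≤ Real.logb 2 c.natAbs * Z.card := hsel
      _ ≤ (((n : ℝ) / 2 - 2 * β * T.card) * Real.logb 2 n) * Z.card :=
          mul_le_mul_of_nonneg_right hlog (by positivity)
      _ = _ := by ring

end Vale.Agent.P160.Half.F.Step288
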