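import Vale.Agent.P160.Half.Fin.FStmt
import Vale.Agent.P160.Half.TameDone

/-! # P160, final assembly: inputs TAME and MID for `β = 1` -/

namespace Vale.Agent.P160.Half.F

open Finset Matrix Vale.Agent.P160.Half Vale.Agent.P160.Half.A

theorem tame_F : TameStmt := Vale.Agent.P160.Half.Tame.tame

theorem mid_one : MidStmt 1 := by
  classical
  intro θ δ ε hθ hδ hε
  refine ⟨1, fun n hn => ?_⟩
  have hn1 : (1 : ℝ) ≤ n := by exact_mod_cast hn
  have hmid : ∀ (M : Matrix (Fin (n + 1)) (Fin (n + 1)) ℤ) (v : Fin (n + 1) → ℤ) (j : Fin (n + 1)),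
      midSet 1 M v j = ∅ := by
    intro M v j
    unfold midSet
    rw [Finset.filter_eq_empty_iff]
    rintro p _ ⟨h1, h2, _⟩
    rw [Real.rpow_one] at h2
    have h3 : (n : ℝ) ≤ p := by exact_mod_cast h1
    linarith
  have hpos : (0 : ℝ) ≤ (2 : ℝ) ^ (-((1 - ε) * n)) * 2 ^ Fintype.card (Sym2 (Fin (n + 1))) := by
    positivity
  refine le_trans (le_of_eq ?_) hpos
  rw [Nat.cast_eq_zero, Finset.card_eq_zero, Finset.filter_eq_empty_iff]
  rintro b _ ⟨_, v, _, h⟩
  have h1 : ∀ j : Fin (n + 1), ¬ (v j ≠ 0 ∧ δ * n < ((midSet 1 (matZ b) v j).card : ℝ)) := by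
    rintro j ⟨_, h2⟩
    rw [hmid, Finset.card_empty, Nat.cast_zero] at h2
    have : 0 ≤ δ * (n : ℝ) := by positivity
    linarith
  rw [Finset.filter_false_of_mem (fun j _ => h1 j), Finset.card_empty, Nat.cast_zero] at h
  have : 0 < θ * (n : ℝ) := by positivity
  linarith

end Vale.Agent.P160.Half.F
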