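import Vale.Agent.P160.Half.Fin.TopZ
import Vale.Agent.P160.Half.M67Done
import Vale.Agent.P160.Half.StmtGDone126

/-! # P160, rate 1/2: few symmetric 0/1 matrices have corank one, unconditional -/

namespace Vale.Agent.P160.Half.F.TopFin

open Vale.Agent.P160.Half Vale.Agent.P160.Half.F

/-- **rate 1/2** -/
theorem cor1 : Cor1 0 :=
  TopZ.cor1_zero G.Done126.richSmall fun _ h1 h2 _ hB => M67.xi_eighth (by linarith) (by linarith) (by norm_num)

end Vale.Agent.P160.Half.F.TopFin
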