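import Vale.Agent.P160.Half.Fin.Top
import Vale.Agent.P160.Half.Fin.MBridge838
import Vale.Agent.P160.Half.Fin.KillAs456
import Vale.Agent.P160.Half.Fin.CntMain276
import Vale.Agent.P160.Half.Mid.All184
import Vale.Agent.P160.Half.Mid.Adapt438

/-! # P160, rate 1/2: composition with the official (M) statement `MTop.StmtM` -/

namespace Vale.Agent.P160.Half.F.TopM

open Vale.Agent.P160.Half Vale.Agent.P160.Half.F

theorem kill0 (ζ : ℝ) (h0 : 0 < ζ) (h1 : ζ < 1 / 16) : B838.Kill0 ζ := K456.killStmt ζ h0 (by linarith)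

theorem midStmt (β : ℝ) (h1 : 1 ≤ β) (h2 : β < 2) : MidStmt β :=
  Mid.Adapt438.midStmt_of_mid Mid184.mid (by linarith) h2

/-- **the full chain** -/
theorem cor1_zero (hR : A.RichSmall) (hMT : ∀ b₁ : ℝ, 199 / 100 ≤ b₁ → b₁ < 2 → MTop.StmtM b₁ 0)
    (hD : ∀ ζ : ℝ, 0 < ζ → ζ < 1 / 16 → B838.KdenZ ζ) : Cor1 0 :=
  Top.cor1_zero hR (B838.all_lam hMT kill0 hD) midStmt CntMain276.cnt

/-- **one `b₁`, with loss** -/
theorem cor1_row (lam lam' b₁ : ℝ) (hb : 1 ≤ b₁) (hb2 : b₁ < 2) (h0 : 0 ≤ lam) (hl : lam ≤ lam') (hg : 1 / (4 * b₁) - 1 / 8 ≤ lam')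
    (hR : A.RichSmall) (hMT : MTop.StmtM b₁ lam) (hD : ∀ ζ : ℝ, 0 < ζ → ζ < 1 / 16 → B838.KdenZ ζ) : Cor1 lam' :=
  Top.cor1_of lam' b₁ (h0.trans hl) hb hR
    (fun ζ hζ hζ' => B838.stmtM_of_top hb hζ.le (by linarith) h0 hl hg hMT (kill0 ζ hζ hζ') (hD ζ hζ hζ'))
    (midStmt b₁ hb hb2) CntMain276.cnt

end Vale.Agent.P160.Half.F.TopM
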