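import Vale.Agent.P160.Half.Fin.TopM
import Vale.Agent.P160.Half.Fin.Kden12
import Vale.Agent.P160.Half.DetCor428
import Vale.Agent.P160.Half.MProd358

/-! # P160, rate 1/2: composition, inputs `RichSmall` and `StmtXi` -/

namespace Vale.Agent.P160.Half.F.TopZ

open Vale.Agent.P160.Half Vale.Agent.P160.Half.F

theorem quarter (hR : A.RichSmall) : Cor1 (1 / 4) := Top.cor1_quarter hR CntMain276.cnt

theorem singHalf (hR : A.RichSmall) : K12.SingHalf := fun e he => by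
  obtain ⟨n₀, h⟩ := DetCor428.det_of_cor (1 / 4) (1 / 2 - e) (by norm_num) (by linarith) (quarter hR)
  exact ⟨n₀, fun n hn => h n hn (Fin n) (Fintype.card_fin n)⟩

theorem kdenZ (hR : A.RichSmall) (ζ : ℝ) (h0 : 0 < ζ) (h1 : ζ < 1 / 16) : B838.KdenZ ζ :=
  fun _ hε τ => K12.kden_le (singHalf hR) h0 (by linarith) hε τ

theorem stmtM (hR : A.RichSmall) (b₁ : ℝ) (h1 : 199 / 100 ≤ b₁)
    (hXi : ∀ B : ℝ, 2 ≤ B → M8.StmtXi b₁ (1 / 8) (3 / 5) B) : MTop.StmtM b₁ 0 :=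
  MProd.stmtM_prod b₁ (by linarith) (DetCor428.rowHyp (quarter hR) b₁ h1 hXi)

/-- **rate 1/2 from `RichSmall` and the i.i.d. statement `StmtXi`** -/
theorem cor1_zero (hR : A.RichSmall)
    (hXi : ∀ b₁ : ℝ, 199 / 100 ≤ b₁ → b₁ < 2 → ∀ B : ℝ, 2 ≤ B → M8.StmtXi b₁ (1 / 8) (3 / 5) B) : Cor1 0 :=
  TopM.cor1_zero hR (fun b₁ h1 h2 => stmtM hR b₁ h1 (hXi b₁ h1 h2)) (kdenZ hR)

end Vale.Agent.P160.Half.F.TopZ
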