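import Vale.Agent.P160.Half.Fin.Top
import Vale.Agent.P160.Half.Fin.MBridge838
import Vale.Agent.P160.Half.Fin.Kden12
import Vale.Agent.P160.Half.Fin.Cnt262
import Vale.Agent.P160.Half.Mid.MidF184
import Vale.Agent.P160.Half.RichFin
import Vale.Agent.P160.Half.MProd358
import Vale.Agent.P160.Half.DetCor428
import Vale.Agent.P160.Half.M67Close
import Vale.Agent.P160.Half.MomTop836
import Vale.Agent.P160.Half.StmtSparse324

/-! # P160, rate 1/2: the sharp bound for corank one, from the landed pieces (no import of the old chain for the rate `1/√2`) -/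

namespace Vale.Agent.P160.Half.Zero685

open Finset Matrix Vale.Agent.P160 Vale.Agent.P160.Half

theorem cnt (ζ : ℝ) (h0 : 0 < ζ) (h1 : ζ < 1 / 16) : F.CntStmt ζ := F.Cnt262.cnt ζ h0 h1

theorem quarter : F.Cor1 (1 / 4) := F.Top.cor1_quarter A.richSmall_main cnt

theorem xi (b₁ : ℝ) (hb : 199 / 100 ≤ b₁) (hb2 : b₁ < 2) (B : ℝ) (hB : 2 ≤ B) : M8.StmtXi b₁ (1 / 8) (3 / 5) B :=
  M67.close (by norm_num) le_rfl MomTop836.mom3 StmtSparse324.sparse b₁ (3 / 5) B (by linarith) (by linarith) (by norm_num)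

theorem stmtM (b₁ : ℝ) (hb : 199 / 100 ≤ b₁) (hb2 : b₁ < 2) : MTop.StmtM b₁ 0 :=
  MProd.stmtM_prod b₁ (by linarith) (DetCor428.rowHyp quarter b₁ hb fun B hB => xi b₁ hb hb2 B hB)

theorem kill0 (ζ : ℝ) (h0 : 0 < ζ) (h1 : ζ < 1 / 16) : F.B838.Kill0 ζ := by
  intro ε hε
  obtain ⟨n₀, h⟩ := F.M955.kill_asymp ζ h0 (by linarith) 4 ε (by norm_num) hε
  exact ⟨n₀, fun n hn z hz => by convert h n hn z hz⟩

theorem singHalf : F.K12.SingHalf := by
  intro e he
  obtain ⟨n₀, h⟩ := DetCor428.det_of_cor (1 / 4) (1 / 2 - e) (by norm_num) (by linarith) quarter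
  exact ⟨n₀, fun n hn => h n hn (Fin n) (Fintype.card_fin n)⟩

theorem kdenZ (ζ : ℝ) (h0 : 0 < ζ) (h1 : ζ < 1 / 16) : F.B838.KdenZ ζ := by
  intro e he τ
  obtain ⟨n₀, h⟩ := F.K12.kden_le singHalf h0 (by linarith) he τ
  exact ⟨n₀, fun n hn m hm hmn z hz => h n hn m hm hmn z hz⟩

/-- **corank one, sharp rate** -/
theorem cor1_zero : F.Cor1 0 :=
  F.Top.cor1_zero A.richSmall_main (F.B838.all_lam stmtM kill0 kdenZ)
    (fun β h1 h2 => Mid184.midStmt (by linarith) h2) cnt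

/-- **P160**: the probability of a singular symmetric sign matrix is `(1/2 + o(1))^n` -/
theorem main : Filter.Tendsto (fun n : ℕ => End288.q n ^ (1 / (n : ℝ))) Filter.atTop (nhds (1 / 2)) ∧
    (∀ lam : ℝ, 1 / 2 < lam → ∀ᶠ n : ℕ in Filter.atTop, End288.q n ≤ lam ^ n) := End288.adapt0 cor1_zero

end Vale.Agent.P160.Half.Zero685
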