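import Vale.Agent.P160.Half.Fin.Top
import Vale.Agent.P160.Half.RichFin
import Vale.Agent.P160.Half.Fin.Cnt262
import Vale.Agent.P160.Half.Mid.MidF184
import Vale.Agent.P160.Half.M67Close
import Vale.Agent.P160.Half.MomTop836
import Vale.Agent.P160.Half.StmtSparse324
import Vale.Agent.P160.Half.DetCor428
import Vale.Agent.P160.Half.MProd358
import Vale.Agent.P160.Half.Fin.MBridge838
import Vale.Agent.P160.Half.Fin.Kden12

/-! # P160, rate 1/2: the unconditional composition `F.Cor1 0` (helper802) -/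

namespace Vale.Agent.P160.Half.F.Z802

open Finset Matrix Vale.Agent.P160.Half Vale.Agent.P160.Half.A Vale.Agent.P160.Half.F

theorem cor14 : Cor1 (1 / 4) :=
  Top.cor1_quarter A.richSmall_main fun ζ h h' => Cnt262.cnt ζ h h'

theorem singHalf : K12.SingHalf := fun e he => by
  obtain ⟨n0, h⟩ := DetCor428.det_of_cor (1 / 4) (1 / 2 - e) (by norm_num) (by linarith) cor14
  exact ⟨n0, fun n hn => h n hn (Fin n) (Fintype.card_fin n)⟩

theorem kill0 {ζ : ℝ} (h0 : 0 < ζ) (h1 : ζ < 1 / 16) : B838.Kill0 ζ :=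
  K12.killF h0 (by linarith)

theorem kdenZ {ζ : ℝ} (h0 : 0 < ζ) (h1 : ζ < 1 / 16) : B838.KdenZ ζ := fun _ hε τ =>
  K12.kden_le singHalf h0 (by linarith) hε τ

theorem stmtM_top (b₁ : ℝ) (h1 : 199 / 100 ≤ b₁) (_h2 : b₁ < 2) : MTop.StmtM b₁ 0 :=
  MProd.stmtM_prod b₁ (by linarith) (DetCor428.rowHyp cor14 b₁ h1 fun B hB =>
    M67.close (by norm_num) le_rfl MomTop836.mom3 StmtSparse324.sparse b₁ (3 / 5) B (by linarith)
      (by linarith) (by norm_num))

/-- **few symmetric 0/1 matrices have corank exactly one** -/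
theorem cor1_zero : Cor1 0 :=
  Top.cor1_zero A.richSmall_main
    (B838.all_lam stmtM_top (fun _ h h' => kill0 h h') (fun _ h h' => kdenZ h h'))
    (fun _ h1 h2 => Mid184.midStmt (by linarith) h2)
    (fun ζ h h' => Cnt262.cnt ζ h h')

end Vale.Agent.P160.Half.F.Z802
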